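import Vale.Agent.P133.H681.Glue2
import Vale.Agent.P133.H832.LInf
import Mathlib.Analysis.CStarAlgebra.ContinuousMap
import Mathlib.Topology.UrysohnsLemma

/-! P133 (helper681): `C₀(X, A)` is purely infinite if `A` is. -/

open scoped ComplexOrder ZeroAtInfty Topology
open Filter

namespace Vale.Agent.P133.H681

universe u v

section

variable {X : Type v} [TopologicalSpace X] {A : Type u} [NonUnitalCStarAlgebra A]

theorem c0_norm_le (f : C₀(X, A)) {C : ℝ} (hC : 0 ≤ C) (h : ∀ t, ‖f t‖ ≤ C) : ‖f‖ ≤ C := by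
  rw [← ZeroAtInftyContinuousMap.norm_toBCF_eq_norm]
  exact (BoundedContinuousFunction.norm_le hC).2 h

theorem c0_apply_le (f : C₀(X, A)) (t : X) : ‖f t‖ ≤ ‖f‖ := by
  rw [← ZeroAtInftyContinuousMap.norm_toBCF_eq_norm]
  exact f.toBCF.norm_coe_le_norm t

/-- composition with a continuous function which fixes `0` -/
def cmp (G : A → A) (hG : Continuous G) (hG0 : G 0 = 0) (z : C₀(X, A)) : C₀(X, A) where
  toFun := fun t => G (z t)
  continuous_toFun := hG.comp z.continuous
  zero_at_infty' := by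
    have h1 : Tendsto z (cocompact X) (𝓝 0) := z.zero_at_infty'
    have h2 : Tendsto G (𝓝 0) (𝓝 (G 0)) := hG.tendsto 0
    rw [hG0] at h2
    exact h2.comp h1

theorem cmp_apply (G : A → A) (hG : Continuous G) (hG0 : G 0 = 0) (z : C₀(X, A)) (t : X) :
    cmp G hG hG0 z t = G (z t) := rfl

theorem exists_net (z : C₀(X, A)) {e : ℝ} (he : 0 < e) :
    ∃ (n : ℕ) (p : Fin n → X), (∀ m, e ≤ ‖z (p m)‖) ∧
      ∀ t, ‖z t‖ < e ∨ ∃ m, ‖z t - z (p m)‖ < e / 2 := by
  have h1 : Tendsto z (cocompact X) (𝓝 0) := z.zero_at_infty'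
  have h2 := h1 (Metric.ball_mem_nhds 0 he)
  rw [mem_map, mem_cocompact] at h2
  obtain ⟨K, hK, hKs⟩ := h2
  have hS : IsClosed {t | e ≤ ‖z t‖} := isClosed_le continuous_const z.continuous.norm
  have hSK : {t | e ≤ ‖z t‖} ⊆ K := by
    intro t ht
    by_contra hcon
    have h3 : z t ∈ Metric.ball (0 : A) e := hKs hcon
    rw [mem_ball_zero_iff] at h3
    exact absurd h3 (not_lt.2 ht)
  have hc : IsCompact {t | e ≤ ‖z t‖} := hK.of_isClosed_subset hS hSK
  obtain ⟨T, hT, hcov⟩ := hc.elim_nhds_subcover (fun t => {s | ‖z s - z t‖ < e / 2})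
    (fun t _ => by
      refine IsOpen.mem_nhds ?_ (by simp [he])
      exact isOpen_lt (by fun_prop) continuous_const)
  refine ⟨T.card, fun m => (T.equivFin.symm m).1, fun m => hT _ (T.equivFin.symm m).2,
    fun t => ?_⟩
  by_cases ht : e ≤ ‖z t‖
  · right
    have h4 := hcov ht
    simp only [Set.mem_iUnion, Set.mem_setOf_eq, exists_prop] at h4
    obtain ⟨s, hs, hs'⟩ := h4
    refine ⟨T.equivFin ⟨s, hs⟩, ?_⟩
    simp only [Equiv.symm_apply_apply]
    exact hs'
  · left
    exact not_le.1 ht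

end

open Vale.Agent.P133 Vale.Agent.P133.Statement Vale.Agent.P133.H832

theorem eltPI_c0 (A : Type u) [NonUnitalCStarAlgebra A] [PartialOrder A] [StarOrderedRing A]
    (hA : EltPI A) (X : Type v) [TopologicalSpace X] [PartialOrder C₀(X, A)]
    [StarOrderedRing C₀(X, A)] : EltPI C₀(X, A) := by
  intro h h0 ε hε
  set N : ℝ := ‖h‖ + 1 with hN
  have hN0 : 0 < N := by positivity
  have hh'0 : 0 ≤ N⁻¹ • h := smul_nonneg (by positivity) h0
  have hh'n : ‖N⁻¹ • h‖ ≤ 1 := by
    rw [norm_smul, Real.norm_of_nonneg (by positivity), inv_mul_le_iff₀ hN0, mul_one]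
    linarith
  obtain ⟨z, hz0, hzz⟩ : ∃ z : C₀(X, A), 0 ≤ z ∧ z * z = N⁻¹ • h :=
    ⟨CFC.sqrt (N⁻¹ • h), CFC.sqrt_nonneg _, CFC.sqrt_mul_sqrt_self _ hh'0⟩
  have hzs : star z = z := (IsSelfAdjoint.of_nonneg hz0).star_eq
  have hz1 : ‖z‖ ≤ 1 := by
    have h1 : ‖z‖ * ‖z‖ ≤ 1 := by
      rw [← CStarRing.norm_star_mul_self, hzs, hzz]; exact hh'n
    nlinarith [norm_nonneg z]
  have hzt0 : ∀ t, 0 ≤ z t := by
    intro t
    obtain ⟨w, hw⟩ := CStarAlgebra.nonneg_iff_eq_star_mul_self.1 hz0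
    rw [hw, ZeroAtInftyContinuousMap.mul_apply, ZeroAtInftyContinuousMap.star_apply]
    exact star_mul_self_nonneg _
  have hzt1 : ∀ t, ‖z t‖ ≤ 1 := fun t => (c0_apply_le z t).trans hz1
  have hht : ∀ t, h t = N • (z t * z t) := by
    intro t
    have h1 : (z * z) t = (N⁻¹ • h) t := by rw [hzz]
    rw [ZeroAtInftyContinuousMap.mul_apply, ZeroAtInftyContinuousMap.smul_apply] at h1
    rw [h1, smul_smul, mul_inv_cancel₀ hN0.ne', one_smul]
  obtain ⟨e, he, hglue⟩ := glue A hA (ε := ε / (2 * N)) (by positivity)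
  obtain ⟨n, p, hp, hnet⟩ := exists_net z he
  obtain ⟨G₀, G₁, hG₀, hG₁, hG₀0, hG₁0, H⟩ := hglue n (fun m => z (p m)) (fun m => hzt0 _)
    (fun m => hzt1 _) hp
  refine ⟨cmp G₀ hG₀ hG₀0 z, cmp G₁ hG₁ hG₁0 z, ?_, ?_, ?_⟩
  · refine lt_of_le_of_lt (c0_norm_le _ (C := ε / 2) (by positivity) fun t => ?_) (by linarith)
    obtain ⟨k1, k2, k3⟩ := H (z t) (hzt1 t) (hnet t)
    rw [ZeroAtInftyContinuousMap.sub_apply, ZeroAtInftyContinuousMap.mul_apply,
      ZeroAtInftyContinuousMap.mul_apply, ZeroAtInftyContinuousMap.star_apply, cmp_apply, hht t,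
      mul_smul_comm, smul_mul_assoc, ← smul_sub, norm_smul, Real.norm_of_nonneg hN0.le]
    calc _ ≤ N * (ε / (2 * N)) := mul_le_mul_of_nonneg_left k1 hN0.le
      _ = ε / 2 := by field_simp
  · refine lt_of_le_of_lt (c0_norm_le _ (C := ε / 2) (by positivity) fun t => ?_) (by linarith)
    obtain ⟨k1, k2, k3⟩ := H (z t) (hzt1 t) (hnet t)
    rw [ZeroAtInftyContinuousMap.sub_apply, ZeroAtInftyContinuousMap.mul_apply,
      ZeroAtInftyContinuousMap.mul_apply, ZeroAtInftyContinuousMap.star_apply, cmp_apply, hht t,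
      mul_smul_comm, smul_mul_assoc, ← smul_sub, norm_smul, Real.norm_of_nonneg hN0.le]
    calc _ ≤ N * (ε / (2 * N)) := mul_le_mul_of_nonneg_left k2 hN0.le
      _ = ε / 2 := by field_simp
  · refine lt_of_le_of_lt (c0_norm_le _ (C := ε / 2) (by positivity) fun t => ?_) (by linarith)
    obtain ⟨k1, k2, k3⟩ := H (z t) (hzt1 t) (hnet t)
    rw [ZeroAtInftyContinuousMap.mul_apply,
      ZeroAtInftyContinuousMap.mul_apply, ZeroAtInftyContinuousMap.star_apply, cmp_apply,
      cmp_apply, hht t,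
      mul_smul_comm, smul_mul_assoc, norm_smul, Real.norm_of_nonneg hN0.le]
    calc _ ≤ N * (ε / (2 * N)) := mul_le_mul_of_nonneg_left k3 hN0.le
      _ = ε / 2 := by field_simp

/-- a compactly supported scalar function times an element -/
noncomputable def bumpC {X : Type v} [TopologicalSpace X] {A : Type u} [NonUnitalCStarAlgebra A] (f : C(X, ℝ))
    (hf : HasCompactSupport f) (k : A) : C₀(X, A) where
  toFun := fun t => f t • k
  continuous_toFun := f.continuous.smul continuous_const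
  zero_at_infty' := by
    have h1 : HasCompactSupport fun t => f t • k := hf.smul_right
    exact h1.is_zero_at_infty

/-- evaluation at a point -/
theorem eltPI_of_c0 (A : Type u) [NonUnitalCStarAlgebra A] [PartialOrder A] [StarOrderedRing A]
    (X : Type v) [TopologicalSpace X] [Nonempty X] [LocallyCompactSpace X] [T2Space X]
    [PartialOrder C₀(X, A)] [StarOrderedRing C₀(X, A)] (hX : EltPI C₀(X, A)) : EltPI A := by
  intro h h0 ε hε
  obtain ⟨k, rfl⟩ := CStarAlgebra.nonneg_iff_eq_star_mul_self.1 h0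
  obtain ⟨t₀⟩ := (inferInstance : Nonempty X)
  obtain ⟨f, hf1, -, hf3, -⟩ := exists_continuous_one_zero_of_isCompact
    (isCompact_singleton (x := t₀)) isClosed_empty (Set.disjoint_empty _)
  have hft : f t₀ = 1 := hf1 rfl
  set g : C₀(X, A) := bumpC f hf3 k with hg
  have hgt : g t₀ = k := by
    show f t₀ • k = k
    rw [hft, one_smul]
  obtain ⟨x, y, h1, h2, h3⟩ := hX (star g * g) (star_mul_self_nonneg g) ε hε
  refine ⟨x t₀, y t₀, ?_, ?_, ?_⟩
  · have := lt_of_le_of_lt (c0_apply_le _ t₀) h1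
    simpa only [ZeroAtInftyContinuousMap.sub_apply, ZeroAtInftyContinuousMap.mul_apply,
      ZeroAtInftyContinuousMap.star_apply, hgt] using this
  · have := lt_of_le_of_lt (c0_apply_le _ t₀) h2
    simpa only [ZeroAtInftyContinuousMap.sub_apply, ZeroAtInftyContinuousMap.mul_apply,
      ZeroAtInftyContinuousMap.star_apply, hgt] using this
  · have := lt_of_le_of_lt (c0_apply_le _ t₀) h3
    simpa only [ZeroAtInftyContinuousMap.sub_apply, ZeroAtInftyContinuousMap.mul_apply,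
      ZeroAtInftyContinuousMap.star_apply, hgt] using this

/-- `C₀(X, A)` is purely infinite iff `A` is. -/
theorem c0_iff (A : Type u) [NonUnitalCStarAlgebra A] [PartialOrder A] [StarOrderedRing A]
    (X : Type v) [TopologicalSpace X] [Nonempty X] [LocallyCompactSpace X] [T2Space X]
    [PartialOrder C₀(X, A)] [StarOrderedRing C₀(X, A)] :
    PurelyInfinite C₀(X, A) ↔ PurelyInfinite A :=
  ⟨fun h => pi_of_spi (spi_of_eltPI _ (eltPI_of_c0 A X (eltPI_of _ h))),
    fun h => pi_of_spi (spi_of_eltPI _ (eltPI_c0 A (eltPI_of _ h) X))⟩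

end Vale.Agent.P133.H681
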