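import Vale.Agent.P133.H681.Full

/-! P133 (helper681): local Glimm lemma for weakly purely infinite quotients. -/

open scoped ComplexOrder CStarAlgebra NNReal

namespace Vale.Agent.P133.H681

open Vale.Agent.P133 Vale.Agent.P133.Statement Vale.Agent.P133.H832 Vale.Agent.P133F

universe u

section

variable {B : Type u} [NonUnitalCStarAlgebra B] [PartialOrder B] [StarOrderedRing B]

/-- a minimal projection, from the conjugation property -/
theorem exists_minimal' {h : B} (h0 : 0 ≤ h) (hh : h ≠ 0)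
    (hconj : ∀ k : B, 0 ≤ k → (h * k * h) * (h * k * h) = ‖h * k * h‖ • (h * k * h)) :
    ∃ e : B, 0 ≤ e ∧ ‖e‖ = 1 ∧ e * e = e ∧ ∀ w : B, ∃ l : ℂ, e * w * e = l • e := by
  have hsa : star h = h := (IsSelfAdjoint.of_nonneg h0).star_eq
  set K : B := h * h * h with hKdef
  have hK0 : 0 ≤ K := by
    have := star_left_conjugate_nonneg h0 h
    rwa [hsa] at this
  have hKne : K ≠ 0 := by
    intro hK
    have h1 : (h * h) * (h * h) = 0 := by
      have : (h * h) * (h * h) = K * h := by rw [hKdef]; simp only [mul_assoc]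
      rw [this, hK, zero_mul]
    have h2 : star (h * h) = h * h := by rw [star_mul, hsa]
    have h3 : h * h = 0 := by
      by_contra hne
      exact mul_self_ne_zero' h2 hne h1
    exact mul_self_ne_zero' hsa hh h3
  have hn : 0 < ‖K‖ := norm_pos_iff.2 hKne
  set e : B := ‖K‖⁻¹ • K with he
  have hee : e * e = e := by
    have h1 := hconj h h0
    rw [← hKdef] at h1
    rw [he, smul_mul_smul_comm, h1, smul_smul]
    congr 1
    field_simp
  have he0 : 0 ≤ e := smul_nonneg (by positivity) hK0
  have hes : star e = e := (IsSelfAdjoint.of_nonneg he0).star_eq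
  have he1 : ‖e‖ = 1 := by
    rw [he, norm_smul, Real.norm_of_nonneg (by positivity), inv_mul_cancel₀ hn.ne']
  -- `e = h e₁ = e₁ h`
  set e1 : B := ‖K‖⁻¹ • (h * h) with he1def
  have hee1 : e = h * e1 := by rw [he, he1def, mul_smul_comm, hKdef]; simp only [mul_assoc]
  have hee2 : e = e1 * h := by rw [he, he1def, smul_mul_assoc, hKdef]
  have he1s : star e1 = e1 := by
    rw [he1def, star_smul, star_mul, hsa, star_trivial]
  have hconj' : ∀ k : B, 0 ≤ k → (e * k * e) * (e * k * e) = ‖e * k * e‖ • (e * k * e) := by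
    intro k hk
    have hc : 0 ≤ e1 * k * e1 := by
      have := star_left_conjugate_nonneg hk e1
      rwa [he1s] at this
    have hform : e * k * e = h * (e1 * k * e1) * h := by
      nth_rewrite 1 [hee1]
      rw [hee2]; simp only [mul_assoc]
    have h1 := hconj _ hc
    rwa [← hform] at h1
  have hpos : ∀ k : B, 0 ≤ k → e * k * e = ‖e * k * e‖ • e := by
    intro k hk
    by_cases hz : e * k * e = 0
    · rw [hz, norm_zero, zero_smul]
    have h1 := hconj' k hk
    have hm : 0 < ‖e * k * e‖ := norm_pos_iff.2 hz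
    set m : ℝ := ‖e * k * e‖ with hmdef
    set q : B := m⁻¹ • (e * k * e) with hq
    have hqq : q * q = q := by
      rw [hq, smul_mul_smul_comm, h1, smul_smul]
      congr 1
      field_simp
    have heq : e * q = q := by
      rw [hq, mul_smul_comm, ← mul_assoc, ← mul_assoc, hee]
    have hqe : q * e = q := by
      rw [hq, smul_mul_assoc, mul_assoc, hee]
    have hq0 : 0 ≤ q := smul_nonneg (by positivity) (by
      have := star_left_conjugate_nonneg hk e
      rwa [hes] at this)
    have hqs : star q = q := (IsSelfAdjoint.of_nonneg hq0).star_eq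
    have hmq : e * k * e = m • q := by rw [hq, smul_smul, mul_inv_cancel₀ hm.ne', one_smul]
    have hqne : q ≠ 0 := by
      intro h2
      rw [h2, smul_zero] at hmq
      exact hz hmq
    have hd : star (e - q) * (e - q) = e - q := by
      rw [star_sub, hes, hqs, sub_mul, mul_sub, mul_sub, hee, heq, hqe, hqq]
      abel
    have hd0 : 0 ≤ e - q := by rw [← hd]; exact star_mul_self_nonneg _
    set r : B := e + (e - q) with hr
    have hr0 : 0 ≤ r := add_nonneg he0 hd0
    have her : e * r * e = r := by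
      rw [hr, mul_add, mul_sub, hee, heq, add_mul, sub_mul, hee, hqe]
    have h2 := hconj' r hr0
    rw [her] at h2
    have h3 : q * r = q := by rw [hr, mul_add, mul_sub, hqe, hqq, sub_self, add_zero]
    have h4 : (e - q) * r = (e - q) + (e - q) := by
      rw [hr, mul_add, sub_mul, mul_sub, sub_mul, sub_mul, hee, hqe, heq, hqq]
      abel
    have h5 : q = ‖r‖ • q := by
      have h6 : q * (r * r) = q * (‖r‖ • r) := by rw [h2]
      rwa [← mul_assoc, h3, h3, mul_smul_comm, h3] at h6
    have h6 : ‖r‖ = 1 := by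
      have h7 : (‖r‖ - 1) • q = 0 := by rw [sub_smul, one_smul, ← h5, sub_self]
      rcases smul_eq_zero.1 h7 with h8 | h8
      · linarith
      · exact absurd h8 hqne
    rw [h6, one_smul] at h2
    have h7 : (e - q) + (e - q) + ((e - q) + (e - q)) = (e - q) + (e - q) := by
      calc (e - q) + (e - q) + ((e - q) + (e - q)) = ((e - q) + (e - q)) * r := by
            rw [add_mul, h4]
        _ = (e - q) * (r * r) := by rw [← mul_assoc, h4]
        _ = (e - q) + (e - q) := by rw [h2, h4]
    have h8 : (e - q) + (e - q) = 0 := by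
      have := congrArg (fun x => x - ((e - q) + (e - q))) h7
      simpa using this
    have h9 : e - q = 0 := by
      have h10 : (2 : ℝ) • (e - q) = 0 := by rw [two_smul]; exact h8
      rcases smul_eq_zero.1 h10 with h11 | h11
      · norm_num at h11
      · exact h11
    have h10 : e = q := sub_eq_zero.1 h9
    calc e * k * e = m • q := hmq
      _ = m • e := by rw [← h10]
  refine ⟨e, he0, he1, hee, fun w => ?_⟩
  have hw : w ∈ Submodule.span ℂ {a : B | 0 ≤ a} := by
    rw [CStarAlgebra.span_nonneg]; trivial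
  induction hw using Submodule.span_induction with
  | mem x hx =>
    refine ⟨((‖e * x * e‖ : ℝ) : ℂ), ?_⟩
    rw [Complex.coe_smul]
    exact hpos x hx
  | zero => exact ⟨0, by simp⟩
  | add x y _ _ hx hy =>
    obtain ⟨l, hl⟩ := hx
    obtain ⟨m, hm⟩ := hy
    exact ⟨l + m, by rw [mul_add, add_mul, hl, hm, add_smul]⟩
  | smul c x _ hx =>
    obtain ⟨l, hl⟩ := hx
    exact ⟨c * l, by rw [mul_smul_comm c e x, smul_mul_assoc c (e * x) e, hl, smul_smul]⟩

end

section

variable {A B : Type u} [NonUnitalCStarAlgebra A] [PartialOrder A] [StarOrderedRing A]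
  [NonUnitalCStarAlgebra B] [PartialOrder B] [StarOrderedRing B]

/-- `h` splits, relative to `φ` -/
theorem split_rel {n : ℕ} (hW : WPI B n) {φ : A →⋆ₙₐ[ℂ] B} (hφ : Function.Surjective φ)
    {h : A} (h0 : 0 ≤ h) (hh : φ h ≠ 0) :
    ∃ a b : A, 0 ≤ a ∧ 0 ≤ b ∧ φ a ≠ 0 ∧ φ b ≠ 0 ∧ a * b = 0 ∧ (∃ a', a = h * a') ∧
      ∃ b', b = h * b' := by
  by_contra hns
  have hφpos : ∀ x : A, 0 ≤ x → 0 ≤ φ x := fun x hx => by
    obtain ⟨y, rfl⟩ := CStarAlgebra.nonneg_iff_eq_star_mul_self.1 hx
    rw [map_mul, map_star]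
    exact star_mul_self_nonneg _
  obtain ⟨e, he0, he1, hee, hmin⟩ := exists_minimal' (hφpos h h0) hh (fun k' hk' => by
    obtain ⟨m', rfl⟩ := CStarAlgebra.nonneg_iff_eq_star_mul_self.1 hk'
    obtain ⟨m, rfl⟩ := hφ m'
    have hsa : star h = h := (IsSelfAdjoint.of_nonneg h0).star_eq
    set K : A := h * (star m * m) * h with hK
    have hK0 : 0 ≤ K := by
      have := star_left_conjugate_nonneg (star_mul_self_nonneg m) h
      rwa [hsa] at this
    have hφK : φ h * (star (φ m) * φ m) * φ h = φ K := by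
      rw [hK, map_mul, map_mul, map_mul, map_star]
    rw [hφK]
    refine sq_eq_of_no_split (hφpos K hK0) fun f g hf hg hf0 hg0 hfg ⟨δ, hδ, hfg0⟩ => ?_
    by_contra hcon
    push Not at hcon
    have hmap : ∀ f : ℝ → ℝ, Continuous f → f 0 = 0 → φ (cfcₙ f K) = cfcₙ f (φ K) := by
      intro f hf hf0
      exact NonUnitalStarAlgHomClass.map_cfcₙ φ f K (hf := hf.continuousOn) (hf₀ := hf0)
        (hφ := map_continuous φ) (ha := IsSelfAdjoint.of_nonneg hK0)
        (hφa := IsSelfAdjoint.of_nonneg (hφpos K hK0))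
    refine hns ⟨cfcₙ f K, cfcₙ g K, cfcₙ_nonneg fun t _ => hf0 t,
      cfcₙ_nonneg fun t _ => hg0 t, ?_, ?_, ?_, ?_, ?_⟩
    · rw [hmap f hf (hfg0 0 hδ.le).1]; exact hcon.1
    · rw [hmap g hg (hfg0 0 hδ.le).2]; exact hcon.2
    · rw [← cfcₙ_mul f g _ hf.continuousOn (hfg0 0 hδ.le).1 hg.continuousOn (hfg0 0 hδ.le).2]
      have : (fun x => f x * g x) = fun _ => (0 : ℝ) := funext hfg
      rw [this, cfcₙ_const_zero]
    · obtain ⟨c, hc⟩ := cfcₙ_factor (K := K) hf hδ fun t ht => (hfg0 t ht).1
      exact ⟨star m * m * h * c, by rw [hc, hK]; simp only [mul_assoc]⟩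
    · obtain ⟨c, hc⟩ := cfcₙ_factor (K := K) hg hδ fun t ht => (hfg0 t ht).2
      exact ⟨star m * m * h * c, by rw [hc, hK]; simp only [mul_assoc]⟩)
  exact no_minimal hW he0 he1 hee hmin

/-- many orthogonal elements -/
theorem orth_rel {n : ℕ} (hW : WPI B n) {φ : A →⋆ₙₐ[ℂ] B} (hφ : Function.Surjective φ)
    (N : ℕ) : ∀ {h : A}, 0 ≤ h → φ h ≠ 0 →
    ∃ a : Fin N → A, (∀ i, 0 ≤ a i) ∧ (∀ i, φ (a i) ≠ 0) ∧ (∀ i j, i ≠ j → a i * a j = 0) ∧
      ∀ i, ∃ a', a i = h * a' := by
  induction N with
  | zero => exact fun _ _ => ⟨Fin.elim0, fun i => i.elim0, fun i => i.elim0, fun i => i.elim0,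
      fun i => i.elim0⟩
  | succ N ih =>
    intro h h0 hh
    obtain ⟨a, b, ha0, hb0, ha, hb, hab, ⟨a', ha'⟩, ⟨b', hb'⟩⟩ := split_rel hW hφ h0 hh
    obtain ⟨c, hc0, hc, hcc, hcb⟩ := ih hb0 hb
    have hac : ∀ i, a * c i = 0 := fun i => by
      obtain ⟨d, hd⟩ := hcb i
      rw [hd, ← mul_assoc, hab, zero_mul]
    have hca : ∀ i, c i * a = 0 := fun i => by
      have h1 := congrArg star (hac i)
      rwa [star_mul, star_zero, (IsSelfAdjoint.of_nonneg ha0).star_eq,
        (IsSelfAdjoint.of_nonneg (hc0 i)).star_eq] at h1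
    refine ⟨Fin.cons a c, fun i => ?_, fun i => ?_, fun i j hij => ?_, fun i => ?_⟩
    · refine Fin.cases ?_ (fun i => ?_) i
      · exact ha0
      · exact hc0 i
    · refine Fin.cases ?_ (fun i => ?_) i
      · exact ha
      · exact hc i
    · induction i using Fin.cases with
      | zero =>
        induction j using Fin.cases with
        | zero => exact absurd rfl hij
        | succ j => exact hac j
      | succ i =>
        induction j using Fin.cases with
        | zero => exact hca i
        | succ j => exact hcc i j fun h => hij (by rw [h])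
    · induction i using Fin.cases with
      | zero => exact ⟨a', ha'⟩
      | succ i =>
        obtain ⟨d, hd⟩ := hcb i
        exact ⟨b' * d, by rw [Fin.cons_succ, hd, hb', mul_assoc]⟩

omit [PartialOrder B] [StarOrderedRing B] in
/-- equivalent elements below given ones, relative to a prime quotient -/
theorem common_rel {φ : A →⋆ₙₐ[ℂ] B}
    (hprime : ∀ c a : A, φ c ≠ 0 → φ a ≠ 0 → ∃ w, φ (c * w * a) ≠ 0)
    {w0 : A} (hw0 : φ w0 ≠ 0) (N : ℕ) :
    ∀ a : Fin N → A, (∀ i, 0 ≤ a i) → (∀ i, φ (a i) ≠ 0) → ∃ (c : A) (y : Fin N → A), 0 ≤ c ∧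
      φ c ≠ 0 ∧ (∀ i, star (y i) * y i = c) ∧ ∀ i, ∃ y', y i = a i * y' := by
  have hsq : ∀ x : A, φ x ≠ 0 → φ (star x * x) ≠ 0 := by
    intro x hx h
    rw [map_mul, map_star] at h
    have h1 : ‖star (φ x) * φ x‖ = 0 := by rw [h, norm_zero]
    rw [CStarRing.norm_star_mul_self] at h1
    exact hx (norm_eq_zero.1 (mul_self_eq_zero.1 h1))
  induction N with
  | zero =>
    intro a _ _
    exact ⟨star w0 * w0, Fin.elim0, star_mul_self_nonneg _, hsq w0 hw0, fun i => i.elim0,
      fun i => i.elim0⟩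
  | succ N ih =>
    intro a ha0 ha
    obtain ⟨c, y, hc0, hc, hy, hya⟩ := ih (fun i => a i.succ) (fun i => ha0 _) (fun i => ha _)
    have has : star (a 0) = a 0 := (IsSelfAdjoint.of_nonneg (ha0 0)).star_eq
    obtain ⟨w, hw⟩ := hprime c (a 0) hc (ha 0)
    set c1 : A := a 0 * star w * c * w * a 0 with hc1
    have hc1form : c1 = star (CFC.sqrt c * w * a 0) * (CFC.sqrt c * w * a 0) := by
      have h1 : CFC.sqrt c * CFC.sqrt c = c := CFC.sqrt_mul_sqrt_self c hc0
      have h2 : star (CFC.sqrt c) = CFC.sqrt c :=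
        (IsSelfAdjoint.of_nonneg (CFC.sqrt_nonneg c)).star_eq
      rw [star_mul, star_mul, has, h2, hc1]
      calc a 0 * star w * c * w * a 0 = a 0 * star w * (CFC.sqrt c * CFC.sqrt c) * w * a 0 := by
            rw [h1]
        _ = _ := by simp only [mul_assoc]
    have hc10 : 0 ≤ c1 := by rw [hc1form]; exact star_mul_self_nonneg _
    have hc1s : star c1 = c1 := (IsSelfAdjoint.of_nonneg hc10).star_eq
    have hc1ne : φ c1 ≠ 0 := by
      rw [hc1form]
      refine hsq _ fun h2 => hw ?_
      calc φ (c * w * a 0) = φ (CFC.sqrt c * (CFC.sqrt c * w * a 0)) := by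
            rw [← mul_assoc, ← mul_assoc, CFC.sqrt_mul_sqrt_self c hc0]
        _ = 0 := by rw [map_mul, h2, mul_zero]
    set q : A := CFC.sqrt c1 with hq
    have hqq : q * q = c1 := CFC.sqrt_mul_sqrt_self c1 hc10
    have hqs : star q = q := (IsSelfAdjoint.of_nonneg (CFC.sqrt_nonneg c1)).star_eq
    refine ⟨c1 * c1, Fin.cons c1 fun i => y i * (w * a 0 * q), ?_, ?_, fun i => ?_, fun i => ?_⟩
    · nth_rewrite 1 [← hc1s]
      exact star_mul_self_nonneg _
    · have := hsq c1 hc1ne
      rwa [hc1s] at this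
    · induction i using Fin.cases with
      | zero => rw [Fin.cons_zero, hc1s]
      | succ i =>
        rw [Fin.cons_succ, star_mul, star_mul, star_mul, hqs, has]
        calc q * (a 0 * star w) * star (y i) * (y i * (w * a 0 * q))
            = q * (a 0 * star w * (star (y i) * y i) * w * a 0) * q := by
              simp only [mul_assoc]
          _ = q * c1 * q := by rw [hy, ← hc1]
          _ = c1 * c1 := by
              rw [← hqq]; simp only [mul_assoc]
    · induction i using Fin.cases with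
      | zero => exact ⟨star w * c * w * a 0, by rw [Fin.cons_zero, hc1]; simp only [mul_assoc]⟩
      | succ i =>
        obtain ⟨y', hy'⟩ := hya i
        exact ⟨y' * (w * a 0 * q), by rw [Fin.cons_succ, hy', mul_assoc]⟩

end

end Vale.Agent.P133.H681
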