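import Vale.Agent.P133.H681.Chain1
import Vale.Agent.P133.H832.ChainF
import Vale.Agent.P133.H832.ChainQ

/-! P133 (helper681): weakly purely infinite C*-algebras with totally ordered closed ideals. -/

open scoped ComplexOrder CStarAlgebra NNReal

namespace Vale.Agent.P133.H681

open Vale.Agent.P133 Vale.Agent.P133.Statement Vale.Agent.P133.H832 Vale.Agent.P133F

universe u

section

variable {A : Type u} [NonUnitalCStarAlgebra A] [PartialOrder A] [StarOrderedRing A]
  {B : Type u} [NonUnitalCStarAlgebra B] [PartialOrder B] [StarOrderedRing B]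

theorem wpiE_of_surj {n : ℕ} (hA : WPI A n) (φ : A →⋆ₙₐ[ℂ] B) (hφ : Function.Surjective φ) :
    WPI B n := by
  intro h h0 M ε hε
  obtain ⟨y, rfl⟩ := CStarAlgebra.nonneg_iff_eq_star_mul_self.1 h0
  obtain ⟨y', rfl⟩ := hφ y
  obtain ⟨z, hz⟩ := hA (star y' * y') (star_mul_self_nonneg _) M ε hε
  refine ⟨fun i j => φ (z i j), fun j j' => ?_⟩
  have h1 : ∑ i, star (φ (z i j)) * (star (φ y') * φ y') * φ (z i j') -
      (if j = j' then star (φ y') * φ y' else 0) =
      φ (∑ i, star (z i j) * (star y' * y') * z i j' - (if j = j' then star y' * y' else 0)) := by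
    rw [map_sub, map_sum]
    congr 1
    · refine Finset.sum_congr rfl fun i _ => ?_
      simp only [map_mul, map_star]
    · split_ifs
      · rw [map_mul, map_star]
      · rw [map_zero]
  rw [h1]
  exact (NonUnitalStarAlgHom.norm_apply_le φ _).trans_lt (hz j j')

/-- local Glimm lemma: in a prime quotient all multiples of some nonzero `c` are below `h` -/
theorem exists_infB {n : ℕ} (hW : WPI A n) {φ : A →⋆ₙₐ[ℂ] B} (hφ : Function.Surjective φ)
    (hprime : ∀ c a : A, φ c ≠ 0 → φ a ≠ 0 → ∃ w, φ (c * w * a) ≠ 0)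
    {h : A} (h0 : 0 ≤ h) (hh : φ h ≠ 0) : ∃ c : A, 0 ≤ c ∧ φ c ≠ 0 ∧ InfB h c := by
  set k : A := CFC.sqrt h with hk
  have hkk : k * k = h := CFC.sqrt_mul_sqrt_self h h0
  have hk0 : 0 ≤ k := CFC.sqrt_nonneg h
  have hks : star k = k := (IsSelfAdjoint.of_nonneg hk0).star_eq
  have hkne : φ k ≠ 0 := by
    intro h1
    exact hh (by rw [← hkk, map_mul, h1, mul_zero])
  obtain ⟨a, ha0, ha, haa, hak⟩ := orth_rel (wpiE_of_surj hW φ hφ) hφ n hk0 hkne
  obtain ⟨c, y, hc0, hc, hyy, hya⟩ := common_rel hprime hkne n a ha0 ha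
  have hyo : ∀ i j, i ≠ j → star (y i) * y j = 0 := by
    intro i j hij
    obtain ⟨y1, h1⟩ := hya i
    obtain ⟨y2, h2⟩ := hya j
    rw [h1, h2, star_mul, (IsSelfAdjoint.of_nonneg (ha0 i)).star_eq]
    calc star y1 * a i * (a j * y2) = star y1 * (a i * a j) * y2 := by simp only [mul_assoc]
      _ = 0 := by rw [haa i j hij, mul_zero, zero_mul]
  have hyk : ∀ i, ∃ Y, y i = k * Y := by
    intro i
    obtain ⟨y1, h1⟩ := hya i
    obtain ⟨a1, h2⟩ := hak i
    exact ⟨a1 * y1, by rw [h1, h2, mul_assoc]⟩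
  choose Y hY using hyk
  refine ⟨c, hc0, hc, infB_of_wpi hW hc0 fun δ hδ => ⟨Y, fun i j => ?_⟩⟩
  have h1 : star (Y i) * h * Y j = star (y i) * y j := by
    rw [hY i, hY j, star_mul, hks, ← hkk]; simp only [mul_assoc]
  rw [h1]
  split_ifs with hij
  · subst hij; rw [hyy, sub_self, norm_zero]; exact hδ.le
  · rw [hyo i j hij, sub_zero, norm_zero]; exact hδ.le

omit [PartialOrder B] [StarOrderedRing B] in
theorem eq_zero_of_triple {x : B} (h : x * star x * x = 0) : x = 0 := by
  by_contra hx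
  have h1 : star x * x ≠ 0 := by
    intro h2
    have h3 : ‖star x * x‖ = 0 := by rw [h2, norm_zero]
    rw [CStarRing.norm_star_mul_self] at h3
    exact hx (norm_eq_zero.1 (mul_self_eq_zero.1 h3))
  refine mul_self_ne_zero' (a := star x * x) (by rw [star_mul, star_star]) h1 ?_
  calc star x * x * (star x * x) = star x * (x * star x * x) := by simp only [mul_assoc]
    _ = 0 := by rw [h, mul_zero]

omit [PartialOrder A] [StarOrderedRing A] [PartialOrder B] [StarOrderedRing B] in
theorem zero_of_small {φ : A →⋆ₙₐ[ℂ] B} {x : A} (h : ∀ ε : ℝ, 0 < ε → ‖φ x‖ ≤ ε) : φ x = 0 :=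
  norm_eq_zero.1 (le_antisymm (le_of_forall_pos_le_add fun ε hε => by
    rw [zero_add]; exact h ε hε) (norm_nonneg _))

omit [PartialOrder B] [StarOrderedRing B] [PartialOrder A] [StarOrderedRing A] in
/-- all quotients are prime -/
theorem prime_of_chain (hA : IsChainC A) {φ : A →⋆ₙₐ[ℂ] B} {c a : A} (hc : φ c ≠ 0)
    (ha : φ a ≠ 0) : ∃ w, φ (c * w * a) ≠ 0 := by
  by_contra hcon
  push Not at hcon
  have hfin : ∀ x : A, (∀ w, φ (x * w * x) = 0) → φ x = 0 := by
    intro x hx
    refine eq_zero_of_triple ?_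
    have := hx (star x)
    rwa [map_mul, map_mul, map_star] at this
  rcases hA c a with h | h
  · refine ha (hfin a fun w => zero_of_small fun ε hε => ?_)
    obtain ⟨m, r, s, hrs⟩ := h (ε / (‖w * a‖ + 1)) (by positivity)
    have h1 : φ ((∑ k, r k * c * s k) * (w * a)) = 0 := by
      rw [Finset.sum_mul, map_sum]
      refine Finset.sum_eq_zero fun k _ => ?_
      have : r k * c * s k * (w * a) = r k * (c * (s k * w) * a) := by simp only [mul_assoc]
      rw [this, map_mul, hcon, mul_zero]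
    have h2 : φ (a * w * a) = -φ ((∑ k, r k * c * s k - a) * (w * a)) := by
      rw [sub_mul, map_sub, h1, zero_sub, neg_neg, mul_assoc]
    rw [h2, norm_neg]
    refine (NonUnitalStarAlgHom.norm_apply_le φ _).trans ((norm_mul_le_of_le hrs.le le_rfl).trans ?_)
    rw [div_mul_eq_mul_div, div_le_iff₀ (by positivity)]
    nlinarith [norm_nonneg (w * a)]
  · refine hc (hfin c fun w => zero_of_small fun ε hε => ?_)
    obtain ⟨m, r, s, hrs⟩ := h (ε / (‖c * w‖ + 1)) (by positivity)
    have h1 : φ (c * w * (∑ k, r k * a * s k)) = 0 := by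
      rw [Finset.mul_sum, map_sum]
      refine Finset.sum_eq_zero fun k _ => ?_
      have : c * w * (r k * a * s k) = c * (w * r k) * a * s k := by simp only [mul_assoc]
      rw [this, map_mul, hcon, zero_mul]
    have h2 : φ (c * w * c) = -φ (c * w * (∑ k, r k * a * s k - c)) := by
      rw [mul_sub, map_sub, h1, zero_sub, neg_neg]
    rw [h2, norm_neg]
    refine (NonUnitalStarAlgHom.norm_apply_le φ _).trans ((norm_mul_le_of_le le_rfl hrs.le).trans ?_)
    rw [mul_div_assoc', div_le_iff₀ (by positivity)]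
    nlinarith [norm_nonneg (c * w)]

end

/-- Question (b) for C*-algebras with totally ordered closed ideals. -/
theorem eltPI_chain {A : Type u} [NonUnitalCStarAlgebra A] [PartialOrder A] [StarOrderedRing A]
    (hA : IsChainC A) (hW : WeaklyPurelyInfinite A) : EltPI A := by
  obtain ⟨n, hn⟩ := wpi_elementwise hW
  intro a a0 ε hε
  obtain ⟨J, hJ, hl, hr, hs, hJJ⟩ := exists_ideal hA a
  obtain ⟨B, i1, i2, i3, φ, hφ, hφJ⟩ := exists_quotient J hJ hl hr hs
  have hφa : φ a = 0 := by
    by_contra hφa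
    obtain ⟨c, hc0, hc, hac⟩ :=
      exists_infB hn hφ (fun c a hc ha => prime_of_chain hA hc ha) a0 hφa
    have h1 : CFC.sqrt c ∈ J := by
      rw [hJJ, (IsSelfAdjoint.of_nonneg (CFC.sqrt_nonneg c)).star_eq, CFC.sqrt_mul_sqrt_self c hc0]
      exact hac
    apply hc
    rw [hφJ, ← CFC.sqrt_mul_sqrt_self c hc0]
    exact hl _ _ h1
  have hqs : star (CFC.sqrt a) = CFC.sqrt a :=
    (IsSelfAdjoint.of_nonneg (CFC.sqrt_nonneg a)).star_eq
  have hq : CFC.sqrt a ∈ J := by
    rw [← hφJ]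
    by_contra hne
    refine mul_self_ne_zero' (a := φ (CFC.sqrt a)) (by rw [← map_star, hqs]) hne ?_
    rw [← map_mul, CFC.sqrt_mul_sqrt_self a a0, hφa]
  have hI : InfB a a := by
    have h1 := (hJJ _).1 hq
    rwa [hqs, CFC.sqrt_mul_sqrt_self a a0] at h1
  obtain ⟨r, hr⟩ := hI.2 2 ε hε
  refine ⟨r 0, r 1, ?_, ?_, ?_⟩
  · simpa using hr 0 0
  · simpa using hr 1 1
  · simpa using hr 0 1

end Vale.Agent.P133.H681
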