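import Vale.Agent.P133.H681.NDDefs
import Vale.Agent.P133F.Defs

/-! P133 (helper681): the two forms of nuclear dimension. -/

namespace Vale.Agent.P133.ND

open scoped CStarAlgebra ComplexOrder

universe u

variable {A : Type u} [NonUnitalCStarAlgebra A] [PartialOrder A] [StarOrderedRing A]

theorem norm_le_of_sum {B : Type} [CStarAlgebra B] [PartialOrder B] [StarOrderedRing B]
    (x c : B) {r : ℝ} (hr : 0 ≤ r) (h : star x * x + star c * c = ((r ^ 2 : ℝ) : ℂ) • (1 : B)) :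
    ‖x‖ ≤ r := by
  have h1 : star x * x ≤ algebraMap ℝ B (r ^ 2) := by
    have h2 : star x * x ≤ star x * x + star c * c :=
      le_add_of_nonneg_right (star_mul_self_nonneg c)
    rw [h] at h2
    refine h2.trans (le_of_eq ?_)
    rw [Algebra.algebraMap_eq_smul_one]
    exact (Complex.coe_smul _ _)
  have h3 : ‖star x * x‖ ≤ r ^ 2 :=
    (CStarAlgebra.norm_le_iff_le_algebraMap (star x * x) (by positivity)
      (star_mul_self_nonneg x)).2 h1
  rw [CStarRing.norm_star_mul_self] at h3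
  nlinarith [norm_nonneg x]

theorem exists_compl {B : Type} [CStarAlgebra B] [PartialOrder B] [StarOrderedRing B]
    (x : B) (h : ‖x‖ ≤ 1) : ∃ c : B, star x * x + star c * c = 1 := by
  have h1 : ‖star x * x‖ ≤ 1 := by
    rw [CStarRing.norm_star_mul_self]; nlinarith [norm_nonneg x]
  have h2 : star x * x ≤ 1 := by
    have := (CStarAlgebra.norm_le_iff_le_algebraMap (star x * x) zero_le_one
      (star_mul_self_nonneg x)).1 h1
    simpa using this
  obtain ⟨c, hc⟩ := CStarAlgebra.nonneg_iff_eq_star_mul_self.1 (sub_nonneg.2 h2)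
  exact ⟨c, by rw [← hc]; abel⟩

/-- the identity, between the two models of a finite-dimensional C*-algebra -/
def toC {r : ℕ} (k : Fin r → ℕ) : FD k ≃ₗ[ℂ] Vale.Agent.P133F.FD k where
  toFun x := fun b => CStarMatrix.ofMatrix (x b)
  invFun x := fun b => CStarMatrix.ofMatrix.symm (x b)
  map_add' _ _ := rfl
  map_smul' _ _ := rfl
  left_inv _ := rfl
  right_inv _ := rfl

theorem toC_mul {r : ℕ} {k : Fin r → ℕ} (x y : FD k) : toC k (x * y) = toC k x * toC k y := by
  funext b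
  ext i j
  rfl

theorem toC_star {r : ℕ} {k : Fin r → ℕ} (x : FD k) : toC k (star x) = star (toC k x) := rfl

theorem toC_one {r : ℕ} {k : Fin r → ℕ} : toC k 1 = 1 := by
  funext b
  ext i j
  rfl

/-- entries of `star N * N` -/
theorem star_mul_entry {B : Type*} [NonUnitalRing B] [StarRing B] {n : ℕ}
    (N : Matrix (Fin n) (Fin n) B) (i j : Fin n) :
    (star N * N) i j = ∑ l, star (N l i) * N l j := by
  rw [Matrix.mul_apply]
  rfl

theorem cstar_star_mul_entry {B : Type*} [NonUnitalRing B] [StarRing B] {n : ℕ}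
    (N : CStarMatrix (Fin n) (Fin n) B) (i j : Fin n) :
    (star N * N) i j = ∑ l, star (N l i) * N l j := by
  rw [CStarMatrix.mul_apply]
  rfl

theorem exists_sm {B : Type*} [NonUnitalCStarAlgebra B] [PartialOrder B] [StarOrderedRing B]
    {x : B} (h : 0 ≤ x) : ∃ c, x = star c * c :=
  CStarAlgebra.nonneg_iff_eq_star_mul_self.1 h

theorem cp_of {B C : Type*} [NonUnitalCStarAlgebra B] [PartialOrder B] [StarOrderedRing B]
    [NonUnitalCStarAlgebra C] [PartialOrder C] [StarOrderedRing C] (φ : B →ₗ[ℂ] C)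
    (h : ∀ (n : ℕ) (M : CStarMatrix (Fin n) (Fin n) B), ∃ N : CStarMatrix (Fin n) (Fin n) C,
      (star M * M).map φ = star N * N) (n : ℕ) (M : CStarMatrix (Fin n) (Fin n) B)
      (hM : 0 ≤ M) : 0 ≤ M.map φ := by
  obtain ⟨N, rfl⟩ := exists_sm hM
  obtain ⟨P, hP⟩ := h n N
  rw [hP]
  exact star_mul_self_nonneg _

/-- completely positive maps into `FD` -/
theorem toCP_aux {r : ℕ} {k : Fin r → ℕ} (ψ : A →ₗ[ℂ] FD k) (h : IsCP ψ)
    (n : ℕ) (M : CStarMatrix (Fin n) (Fin n) A) :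
    ∃ N : CStarMatrix (Fin n) (Fin n) (Vale.Agent.P133F.FD k),
      (star M * M).map ((toC k).toLinearMap ∘ₗ ψ) = star N * N := by
  obtain ⟨P, hP⟩ := h n (CStarMatrix.ofMatrix.symm M)
  refine ⟨CStarMatrix.ofMatrix (P.map (toC k)), ?_⟩
  refine CStarMatrix.ext fun i j => ?_
  have h1 : ψ ((star (CStarMatrix.ofMatrix.symm M) * CStarMatrix.ofMatrix.symm M) i j) =
      (star P * P) i j := congrFun (congrFun hP i) j
  rw [star_mul_entry, star_mul_entry] at h1
  rw [cstar_star_mul_entry (CStarMatrix.ofMatrix (P.map (toC k))) i j]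
  have h3 : (star M * M).map ((toC k).toLinearMap ∘ₗ ψ) i j =
      toC k (ψ ((star M * M) i j)) := rfl
  rw [h3, cstar_star_mul_entry]
  have h5 : ψ (∑ l, star (M l i) * M l j) = ∑ l, star (P l i) * P l j := h1
  rw [h5, map_sum]
  refine Finset.sum_congr rfl fun l _ => ?_
  rw [toC_mul, toC_star]
  rfl

/-- completely positive maps from `FD` -/
theorem fromCP_aux {r : ℕ} {k : Fin r → ℕ} (φ : FD k →ₗ[ℂ] A) (h : IsCP φ)
    (n : ℕ) (M : CStarMatrix (Fin n) (Fin n) (Vale.Agent.P133F.FD k)) :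
    ∃ N : CStarMatrix (Fin n) (Fin n) A,
      (star M * M).map (φ ∘ₗ (toC k).symm.toLinearMap) = star N * N := by
  set N' : Matrix (Fin n) (Fin n) (FD k) :=
    (CStarMatrix.ofMatrix.symm M).map (toC k).symm with hN'
  obtain ⟨P, hP⟩ := h n N'
  refine ⟨CStarMatrix.ofMatrix P, CStarMatrix.ext fun i j => ?_⟩
  have h1 : φ ((star N' * N') i j) = (star P * P) i j := congrFun (congrFun hP i) j
  rw [star_mul_entry P] at h1
  rw [cstar_star_mul_entry (CStarMatrix.ofMatrix P) i j]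
  have h3 : (star M * M).map (φ ∘ₗ (toC k).symm.toLinearMap) i j =
      φ ((toC k).symm ((star M * M) i j)) := rfl
  have h4 : (toC k).symm ((star M * M) i j) = (star N' * N') i j := by
    rw [LinearEquiv.symm_apply_eq, cstar_star_mul_entry, star_mul_entry, map_sum]
    refine Finset.sum_congr rfl fun l _ => ?_
    rw [toC_mul, toC_star]
    have h5 : ∀ a b, toC k (N' a b) = M a b := fun a b =>
      (toC k).apply_symm_apply _
    rw [h5, h5]
  rw [h3, h4, h1]
  rfl

/-- completely positive maps into `FD` -/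
noncomputable def toCP {r : ℕ} {k : Fin r → ℕ} (ψ : A →ₗ[ℂ] FD k) (h : IsCP ψ) :
    A →CP Vale.Agent.P133F.FD k where
  toLinearMap := (toC k).toLinearMap ∘ₗ ψ
  map_cstarMatrix_nonneg' := cp_of _ (toCP_aux ψ h)

/-- completely positive maps from `FD` -/
noncomputable def fromCP {r : ℕ} {k : Fin r → ℕ} (φ : FD k →ₗ[ℂ] A) (h : IsCP φ) :
    Vale.Agent.P133F.FD k →CP A where
  toLinearMap := φ ∘ₗ (toC k).symm.toLinearMap
  map_cstarMatrix_nonneg' := cp_of _ (fromCP_aux φ h)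

theorem toCP_apply {r : ℕ} {k : Fin r → ℕ} (ψ : A →ₗ[ℂ] FD k) (h : IsCP ψ) (a : A) :
    toCP ψ h a = toC k (ψ a) := rfl

theorem fromCP_apply {r : ℕ} {k : Fin r → ℕ} (φ : FD k →ₗ[ℂ] A) (h : IsCP φ)
    (x : Vale.Agent.P133F.FD k) : fromCP φ h x = φ ((toC k).symm x) := rfl

theorem toCP_norm {r : ℕ} {k : Fin r → ℕ} (ψ : A →ₗ[ℂ] FD k) (h : IsCP ψ) (hc : ContrTo ψ)
    (a : A) : ‖toCP ψ h a‖ ≤ ‖a‖ := by
  obtain ⟨c, hc⟩ := hc a
  rw [toCP_apply]
  refine norm_le_of_sum (toC k (ψ a)) (toC k c) (norm_nonneg a) ?_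
  rw [← toC_star, ← toC_star, ← toC_mul, ← toC_mul, ← map_add, hc, map_smul, toC_one]

theorem fromCP_norm {r : ℕ} {k : Fin r → ℕ} (φ : FD k →ₗ[ℂ] A) (h : IsCP φ)
    (hc : ContrFrom φ) (x : Vale.Agent.P133F.FD k) : ‖fromCP φ h x‖ ≤ ‖x‖ := by
  rw [fromCP_apply]
  rcases eq_or_ne x 0 with rfl | hx
  · rw [map_zero, map_zero, norm_zero, norm_zero]
  · have hx0 : 0 < ‖x‖ := norm_pos_iff.2 hx
    have h1 : ‖((‖x‖⁻¹ : ℝ) : ℂ) • x‖ ≤ 1 := by
      rw [norm_smul, Complex.norm_real, Real.norm_of_nonneg (by positivity),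
        inv_mul_cancel₀ hx0.ne']
    obtain ⟨c, hc'⟩ := exists_compl (((‖x‖⁻¹ : ℝ) : ℂ) • x) h1
    have h2 := hc ((toC k).symm (((‖x‖⁻¹ : ℝ) : ℂ) • x)) ((toC k).symm c) (by
      apply (toC k).injective
      rw [map_add, toC_mul, toC_mul, toC_star, toC_star, LinearEquiv.apply_symm_apply,
        LinearEquiv.apply_symm_apply, hc', toC_one])
    rw [map_smul, map_smul, norm_smul, Complex.norm_real,
      Real.norm_of_nonneg (by positivity), inv_mul_le_iff₀ hx0, mul_one] at h2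
    exact h2

theorem fromCP_orderZero {r : ℕ} {k : Fin r → ℕ} (φ : FD k →ₗ[ℂ] A) (h : IsCP φ)
    (hc : IsOrderZero φ) : Vale.Agent.P133F.IsOrderZero (fromCP φ h) := by
  intro x y hx hy hxy
  obtain ⟨u, rfl⟩ := exists_sm hx
  obtain ⟨v, rfl⟩ := exists_sm hy
  have h1 := hc ((toC k).symm u) ((toC k).symm v) (by
    apply (toC k).injective
    rw [map_zero, toC_mul, toC_mul, toC_mul, toC_star, toC_star,
      LinearEquiv.apply_symm_apply, LinearEquiv.apply_symm_apply]
    exact hxy)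
  have h2 : ∀ w : Vale.Agent.P133F.FD k, (toC k).symm (star w * w) =
      star ((toC k).symm w) * (toC k).symm w := by
    intro w
    rw [LinearEquiv.symm_apply_eq, toC_mul, toC_star, LinearEquiv.apply_symm_apply]
  rw [fromCP_apply, fromCP_apply, h2, h2]
  exact h1

/-- the two forms of nuclear dimension -/
theorem nd_of {d : ℕ} (h : NuclearDimensionLE A d) : Vale.Agent.P133F.NuclearDimensionLE A d := by
  intro T ε hε
  obtain ⟨r, k, ψ, φ, hψ, hφ, hT⟩ := h T ε hε
  refine ⟨r, k, fun l => toCP (ψ l) (hψ l).1, fun l => fromCP (φ l) (hφ l).1,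
    fun l a => toCP_norm _ _ (hψ l).2 a, fun l x => fromCP_norm _ _ (hφ l).2.1 x,
    fun l => fromCP_orderZero _ _ (hφ l).2.2, ?_⟩
  intro a ha
  refine lt_of_le_of_lt (le_of_eq ?_) (hT a ha)
  congr 2

end Vale.Agent.P133.ND
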