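import Vale.Agent.P133.H681.WpiUncond
import Vale.Agent.P133.H832.ExtN
import Vale.Agent.P133.H681.NDB

/-! P133 (helper681): a class of C*-algebras for which the three notions coincide. -/

open scoped ComplexOrder ZeroAtInfty ENNReal

namespace Vale.Agent.P133.H681

open Vale.Agent.P133 Vale.Agent.P133.Statement Vale.Agent.P133.H832 Vale.Agent.P133F

universe u

/-- The smallest class of C*-algebras that contains all C*-algebras of finite nuclear dimension
and is closed under extensions, dense unions of closed two-sided ideals, bounded products and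
`A ↦ C₀(X, A)`. -/
inductive Built : (A : Type u) → [NonUnitalCStarAlgebra A] → [PartialOrder A] →
    [StarOrderedRing A] → Prop
  /-- finite nuclear dimension -/
  | fin (A : Type u) [NonUnitalCStarAlgebra A] [PartialOrder A] [StarOrderedRing A] (d : ℕ)
      (hd : ND.NuclearDimensionLE A d) : Built A
  /-- extensions: `0 → I → A → B → 0` exact -/
  | ext (I A B : Type u) [NonUnitalCStarAlgebra I] [PartialOrder I] [StarOrderedRing I]
      [NonUnitalCStarAlgebra A] [PartialOrder A] [StarOrderedRing A]
      [NonUnitalCStarAlgebra B] [PartialOrder B] [StarOrderedRing B]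
      (ι : I →⋆ₙₐ[ℂ] A) (φ : A →⋆ₙₐ[ℂ] B) (hι : Function.Injective ι)
      (hφ : Function.Surjective φ) (hex : ∀ a, φ a = 0 ↔ ∃ x, ι x = a)
      (hI : Built I) (hB : Built B) : Built A
  /-- dense unions of closed two-sided ideals -/
  | union (J : Type u) (I : J → Type u) [∀ j, NonUnitalCStarAlgebra (I j)]
      [∀ j, PartialOrder (I j)] [∀ j, StarOrderedRing (I j)]
      (A : Type u) [NonUnitalCStarAlgebra A] [PartialOrder A] [StarOrderedRing A]
      (φ : ∀ j, I j →⋆ₙₐ[ℂ] A) (hφ : ∀ j, Function.Injective (φ j))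
      (hid : ∀ j (a : A) (x : I j), ∃ y, φ j y = a * φ j x)
      (hd : Dense (⋃ j, Set.range (φ j))) (hI : ∀ j, Built (I j)) : Built A
  /-- bounded products -/
  | prod (J : Type u) (B : J → Type u) [∀ j, NonUnitalCStarAlgebra (B j)]
      [∀ j, PartialOrder (B j)] [∀ j, StarOrderedRing (B j)]
      [PartialOrder (lp B ∞)] [StarOrderedRing (lp B ∞)] (hB : ∀ j, Built (B j)) :
      Built (lp B ∞)
  /-- continuous functions vanishing at infinity -/
  | cont (X : Type u) [TopologicalSpace X] [Nonempty X] [LocallyCompactSpace X] [T2Space X]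
      (A : Type u) [NonUnitalCStarAlgebra A] [PartialOrder A] [StarOrderedRing A]
      [PartialOrder C₀(X, A)] [StarOrderedRing C₀(X, A)] (hA : Built A) : Built C₀(X, A)

theorem built_b {A : Type u} [NonUnitalCStarAlgebra A] [PartialOrder A] [StarOrderedRing A]
    (hA : Built A) : WeaklyPurelyInfinite A → PurelyInfinite A := by
  induction hA with
  | fin A d hd => exact fun h => (Vale.Agent.P133F.main (ND.nd_of hd) h).1
  | ext I A B ι φ hι hφ hex _ _ hI hB =>
    intro h
    have hid : ∀ (a : A) (x : I), ∃ y, ι y = a * ι x := fun a x =>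
      (hex (a * ι x)).1 (by rw [map_mul, (hex (ι x)).2 ⟨x, rfl⟩, mul_zero])
    exact pi_of_eltPI (eltPI_ext ι φ hφ hex (eltPI_of _ (hI (wpi_of_ideal ι hι hid h)))
      (eltPI_of _ (hB (wpi_of_surj φ hφ h))))
  | union J I A φ hφ hid hd _ hI => exact b_union φ hφ hid hd hI
  | prod J B _ hB => exact b_lp B hB
  | cont X A _ hA => exact b_c0 A X hA

/-- The three notions coincide for all algebras of the class. -/
theorem built_iff {A : Type u} [NonUnitalCStarAlgebra A] [PartialOrder A] [StarOrderedRing A]
    (hA : Built A) :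
    (WeaklyPurelyInfinite A ↔ PurelyInfinite A) ∧ (PurelyInfinite A ↔ StronglyPurelyInfinite A) :=
  wpi_iff_pi_of (built_b hA)

end Vale.Agent.P133.H681
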