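import Vale.Agent.P133.H681.PcB

/-! P133 (helper681): elements `d i` of norm `≤ 2 / δ` with `d i * x i ^ 2 * d i ≈ x i ^ 2` which
are almost orthogonal relative to a finite set of middle elements. -/

open scoped ComplexOrder

namespace Vale.Agent.P133.H681

open Vale.Agent.P133

universe u

variable {M : Type u} [CStarAlgebra M] [PartialOrder M] [StarOrderedRing M]

omit [PartialOrder M] [StarOrderedRing M] in
theorem norm_one_le' : ‖(1 : M)‖ ≤ 1 := by
  rcases subsingleton_or_nontrivial M with h | h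
  · rw [Subsingleton.elim (1 : M) 0, norm_zero]; exact zero_le_one
  · rw [norm_one]

theorem fam_mid (A : CIdeal M) (hA : PIrel A) (hP : PairB A) {ι κ : Type} [DecidableEq ι]
    [DecidableEq κ] {δ : ℝ} (hδ : 0 < δ) (hδ1 : δ ≤ 1 / 2) (x : ι → M) (hx : ∀ i, x i ∈ A)
    (hxn : ∀ i, ‖star (x i) * x i‖ ≤ 3 / 2) (c : ι → ι → κ → M)
    (hc : ∀ i j k, ‖c i j k‖ ≤ 1) (T : Finset (ι × ι × κ))
    (hT : ∀ p ∈ T, p.1 ≠ p.2.1) {η : ℝ} (hη : 0 < η) :
    ∃ s : ι → M, (∀ i, ‖star (x i * s i) * (x i * s i) - star (x i) * x i‖ ≤ δ) ∧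
      ∀ p ∈ T, ‖star (x p.1 * s p.1) * c p.1 p.2.1 p.2.2 * (x p.2.1 * s p.2.1)‖ ≤ η := by
  set δs : ℝ := δ / (T.card + 1) with hδs
  have hδs0 : 0 < δs := by positivity
  obtain ⟨Λ, hΛ, H⟩ := pc_mid A hA hP hδs0
  have hΛ0 : 0 < Λ := by linarith
  have claim : ∀ T' : Finset (ι × ι × κ), T' ⊆ T → ∀ η : ℝ, 0 < η →
      ∃ s : ι → M, (∀ i, ‖star (x i * s i) * (x i * s i) - star (x i) * x i‖ ≤ T'.card * δs) ∧
      ∀ p ∈ T', ‖star (x p.1 * s p.1) * c p.1 p.2.1 p.2.2 * (x p.2.1 * s p.2.1)‖ ≤ η := by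
    intro T'
    induction T' using Finset.induction_on with
    | empty =>
      intro _ η _
      exact ⟨fun _ => 1, fun i => by simp, by simp⟩
    | insert p T' hp ih =>
      intro hsub η hη
      obtain ⟨s, hsx, hst⟩ := ih ((Finset.subset_insert _ _).trans hsub) (η / Λ ^ 2)
        (by positivity)
      have hpT : p ∈ T := hsub (Finset.mem_insert_self _ _)
      have hne : p.1 ≠ p.2.1 := hT p hpT
      have hcardT : (T'.card : ℝ) * δs ≤ 1 / 2 := by
        have h1 : T'.card ≤ T.card := Finset.card_le_card ((Finset.subset_insert _ _).trans hsub)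
        have h2 : (T'.card : ℝ) ≤ T.card + 1 := by
          have : (T'.card : ℝ) ≤ T.card := by exact_mod_cast h1
          linarith
        calc (T'.card : ℝ) * δs ≤ (T.card + 1) * δs := mul_le_mul_of_nonneg_right h2 hδs0.le
          _ = δ := by rw [hδs]; field_simp
          _ ≤ 1 / 2 := hδ1
      have hxs : ∀ i, ‖x i * s i‖ ≤ 3 / 2 := by
        intro i
        have h1 : ‖star (x i * s i) * (x i * s i)‖ ≤ 2 := by
          calc ‖star (x i * s i) * (x i * s i)‖ =
              ‖(star (x i * s i) * (x i * s i) - star (x i) * x i) + star (x i) * x i‖ := by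
                rw [sub_add_cancel]
            _ ≤ _ := norm_add_le _ _
            _ ≤ 1 / 2 + 3 / 2 := add_le_add ((hsx i).trans hcardT) (hxn i)
            _ = 2 := by norm_num
        rw [CStarRing.norm_star_mul_self] at h1
        nlinarith [norm_nonneg (x i * s i)]
      obtain ⟨u, v, hu, hv, h1, h2, h3⟩ := H (x p.1 * s p.1) (A.right_mem (hx _) _)
        (x p.2.1 * s p.2.1) (A.right_mem (hx _) _) (hxs _) (hxs _) (c p.1 p.2.1 p.2.2)
        (hc _ _ _) η hη
      -- the multiplier family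
      set m : ι → M := Function.update (Function.update (fun _ => (1 : M)) p.1 u) p.2.1 v with hm
      have hm2 : m p.2.1 = v := by simp [hm]
      have hm1 : m p.1 = u := by
        rw [hm, Function.update_of_ne hne, Function.update_self]
      have hmo : ∀ i, i ≠ p.1 → i ≠ p.2.1 → m i = 1 := by
        intro i hi1 hi2
        rw [hm, Function.update_of_ne hi2, Function.update_of_ne hi1]
      have hmn : ∀ i, ‖m i‖ ≤ Λ := by
        intro i
        by_cases h2' : i = p.2.1
        · rw [h2', hm2]; exact hv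
        · by_cases h1' : i = p.1
          · rw [h1', hm1]; exact hu
          · rw [hmo i h1' h2']; exact norm_one_le'.trans hΛ
      refine ⟨fun i => s i * m i, fun i => ?_, fun q hq => ?_⟩
      · have hcard : ((insert p T').card : ℝ) = T'.card + 1 := by
          rw [Finset.card_insert_of_notMem hp]; push_cast; ring
        have hstep : ‖star (x i * s i * m i) * (x i * s i * m i) -
            star (x i * s i) * (x i * s i)‖ ≤ δs := by
          by_cases h2' : i = p.2.1
          · rw [h2', hm2]; exact h2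
          · by_cases h1' : i = p.1
            · rw [h1', hm1]; exact h1
            · rw [hmo i h1' h2', mul_one, sub_self, norm_zero]; exact hδs0.le
        have e : star (x i * (s i * m i)) * (x i * (s i * m i)) - star (x i) * x i =
            (star (x i * s i * m i) * (x i * s i * m i) - star (x i * s i) * (x i * s i)) +
            (star (x i * s i) * (x i * s i) - star (x i) * x i) := by
          rw [← mul_assoc (x i)]; abel
        rw [e, hcard]
        calc _ ≤ _ := norm_add_le _ _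
          _ ≤ δs + T'.card * δs := add_le_add hstep (hsx i)
          _ = (T'.card + 1) * δs := by ring
      · have e : star (x q.1 * (s q.1 * m q.1)) * c q.1 q.2.1 q.2.2 *
            (x q.2.1 * (s q.2.1 * m q.2.1)) =
            star (m q.1) * (star (x q.1 * s q.1) * c q.1 q.2.1 q.2.2 * (x q.2.1 * s q.2.1)) *
              m q.2.1 := by
          simp only [star_mul, mul_assoc]
        rcases Finset.mem_insert.1 hq with rfl | hq
        · rw [← mul_assoc (x q.1), ← mul_assoc (x q.2.1), hm1, hm2]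
          exact h3
        · rw [e]
          refine (bdd_conj hΛ0.le (hmn _) (hmn _)).trans ?_
          calc Λ ^ 2 * ‖star (x q.1 * s q.1) * c q.1 q.2.1 q.2.2 * (x q.2.1 * s q.2.1)‖
              ≤ Λ ^ 2 * (η / Λ ^ 2) := mul_le_mul_of_nonneg_left (hst q hq) (by positivity)
            _ = η := by field_simp
  obtain ⟨s, h1, h2⟩ := claim T (Finset.Subset.refl _) η hη
  refine ⟨s, fun i => (h1 i).trans ?_, h2⟩
  calc (T.card : ℝ) * δs ≤ (T.card + 1) * δs := mul_le_mul_of_nonneg_right (by linarith) hδs0.le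
    _ = δ := by rw [hδs]; field_simp

/-- `(x - δ)_+` -/
noncomputable def sh (δ : ℝ) (x : M) : M := cfc (fun u : ℝ => max 0 (u - δ)) x

theorem sh_cont (δ : ℝ) : Continuous fun u : ℝ => max 0 (u - δ) := by fun_prop

/-- the family theorem with middle elements. -/
theorem fam_plus (A : CIdeal M) (hA : PIrel A) (hP : PairB A) {ι κ : Type} [Fintype ι]
    [DecidableEq ι] [Fintype κ] [DecidableEq κ] (x : ι → M) (hx : ∀ i, PC A (x i)) (F : κ → M)
    {δ : ℝ} (hδ : 0 < δ) (hδ1 : δ ≤ 1 / 4) {η : ℝ} (hη : 0 < η) :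
    ∃ d : ι → M, (∀ i, d i ∈ A) ∧ (∀ i, ‖d i‖ ≤ 2 / δ) ∧
      (∀ i, ‖star (d i) * (x i * x i) * d i - x i * x i‖ ≤ 3 * δ) ∧
      ∀ i j k, i ≠ j → ‖star (d i) * F k * d j‖ ≤ η := by
  classical
  set B : ℝ := 1 + ∑ k, ‖F k‖ with hB
  have hB0 : 0 < B := by
    have : 0 ≤ ∑ k, ‖F k‖ := Finset.sum_nonneg fun _ _ => norm_nonneg _
    linarith
  have hFB : ∀ k, ‖F k‖ ≤ B := by
    intro k
    have h2 : ‖F k‖ ≤ ∑ k, ‖F k‖ :=
      Finset.single_le_sum (f := fun k => ‖F k‖) (fun _ _ => norm_nonneg _) (Finset.mem_univ k)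
    linarith
  let w : ι → M := fun i => cfc (fun u => 1 / max δ u) (x i)
  have hwn : ∀ i, ‖w i‖ ≤ 1 / δ := fun i => K.inv_max_norm (hx i).nonneg hδ
  have hws : ∀ i, star (w i) = w i := fun i => star_cfc _ _
  set r : ℝ := δ ^ 2 / B with hr
  have hr0 : 0 < r := by positivity
  let c : ι → ι → κ → M := fun i j k => r • (w i * F k * w j)
  have hc : ∀ i j k, ‖c i j k‖ ≤ 1 := by
    intro i j k
    show ‖r • (w i * F k * w j)‖ ≤ 1
    rw [norm_smul, Real.norm_of_nonneg hr0.le]
    have : ‖w i * F k * w j‖ ≤ 1 / δ * B * (1 / δ) :=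
      norm_mul_le_of_le (norm_mul_le_of_le (hwn i) (hFB k)) (hwn j)
    calc r * ‖w i * F k * w j‖ ≤ r * (1 / δ * B * (1 / δ)) :=
          mul_le_mul_of_nonneg_left this hr0.le
      _ = 1 := by rw [hr]; field_simp
  -- the shifted elements
  have hSA : ∀ i, sh δ (x i) ∈ A := fun i =>
    cfc_mem_ideal A (sh_cont δ) (by simp [hδ.le]) (hx i).nonneg.isSelfAdjoint (hx i).mem
  have hSs : ∀ i, star (sh δ (x i)) = sh δ (x i) := fun i => star_cfc _ _
  have hSS : ∀ i, star (sh δ (x i)) * sh δ (x i) = cfc (t7_f δ) (x i) := by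
    intro i
    rw [hSs i]
    unfold sh
    rw [cfc_mul' (sh_cont δ) (sh_cont δ)]
    congr 1
    funext u
    simp only [t7_f, sq]
  have hnear : ∀ i, ‖star (sh δ (x i)) * sh δ (x i) - x i * x i‖ ≤ 2 * δ := by
    intro i
    rw [hSS i, ← sq]
    exact t7_near (hx i).nonneg (hx i).norm_le hδ (by linarith)
  have hlev : ∀ i (z : M), x i * (w i * (sh δ (x i) * z)) = sh δ (x i) * z := fun i z =>
    (K.level_eq (hx i).nonneg hδ (K.level_cfc (sh_cont δ)
      (fun u hu => max_eq_left (by linarith)) z)).symm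
  obtain ⟨s, hsx, hst⟩ := fam_mid A hA hP hδ (by linarith) (fun i => sh δ (x i)) hSA
    (fun i => by
      rw [hSS i]
      exact (norm_t7_le (hx i) hδ).trans (by norm_num)) c hc
    (Finset.univ.filter fun p : ι × ι × κ => p.1 ≠ p.2.1) (by simp) (η := r * η) (by positivity)
  have hxs : ∀ i, star (x i) = x i := fun i => (hx i).star_eq
  have hn : ∀ i, ‖sh δ (x i) * s i‖ ≤ 2 := by
    intro i
    have h1 : ‖star (sh δ (x i) * s i) * (sh δ (x i) * s i)‖ ≤ 2 := by
      calc ‖star (sh δ (x i) * s i) * (sh δ (x i) * s i)‖ =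
          ‖(star (sh δ (x i) * s i) * (sh δ (x i) * s i) - star (sh δ (x i)) * sh δ (x i)) +
            star (sh δ (x i)) * sh δ (x i)‖ := by rw [sub_add_cancel]
        _ ≤ _ := norm_add_le _ _
        _ ≤ δ + 1 := by
            refine add_le_add (hsx i) ?_
            rw [hSS i]; exact norm_t7_le (hx i) hδ
        _ ≤ 2 := by linarith
    rw [CStarRing.norm_star_mul_self] at h1
    nlinarith [norm_nonneg (sh δ (x i) * s i)]
  refine ⟨fun i => w i * (sh δ (x i) * s i), fun i => A.left_mem _ (A.right_mem (hSA i) _),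
    fun i => ?_, fun i => ?_, fun i j k hij => ?_⟩
  · calc ‖w i * (sh δ (x i) * s i)‖ ≤ 1 / δ * 2 := norm_mul_le_of_le (hwn i) (hn i)
      _ = 2 / δ := by ring
  · have e : star (w i * (sh δ (x i) * s i)) * (x i * x i) * (w i * (sh δ (x i) * s i)) =
        star (sh δ (x i) * s i) * (sh δ (x i) * s i) := by
      have e1 : star (w i * (sh δ (x i) * s i)) * (x i * x i) * (w i * (sh δ (x i) * s i)) =
          star (x i * (w i * (sh δ (x i) * s i))) * (x i * (w i * (sh δ (x i) * s i))) := by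
        rw [star_mul (x i), hxs i]; noncomm_ring
      rw [e1, hlev]
    show ‖star (w i * (sh δ (x i) * s i)) * (x i * x i) * (w i * (sh δ (x i) * s i)) -
      x i * x i‖ ≤ 3 * δ
    rw [e]
    calc ‖star (sh δ (x i) * s i) * (sh δ (x i) * s i) - x i * x i‖ =
        ‖(star (sh δ (x i) * s i) * (sh δ (x i) * s i) - star (sh δ (x i)) * sh δ (x i)) +
          (star (sh δ (x i)) * sh δ (x i) - x i * x i)‖ := by congr 1; abel
      _ ≤ _ := norm_add_le _ _
      _ ≤ δ + 2 * δ := add_le_add (hsx i) (hnear i)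
      _ = 3 * δ := by ring
  · have h1 := hst (i, j, k) (by simp [hij])
    simp only at h1
    have e : star (w i * (sh δ (x i) * s i)) * F k * (w j * (sh δ (x j) * s j)) =
        r⁻¹ • (star (sh δ (x i) * s i) * c i j k * (sh δ (x j) * s j)) := by
      show _ = r⁻¹ • (star (sh δ (x i) * s i) * (r • (w i * F k * w j)) * (sh δ (x j) * s j))
      rw [mul_smul_comm, smul_mul_assoc, smul_smul, inv_mul_cancel₀ hr0.ne', one_smul,
        star_mul (w i), hws i]
      noncomm_ring
    show ‖star (w i * (sh δ (x i) * s i)) * F k * (w j * (sh δ (x j) * s j))‖ ≤ η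
    rw [e, norm_smul, Real.norm_of_nonneg (by positivity)]
    calc r⁻¹ * ‖star (sh δ (x i) * s i) * c i j k * (sh δ (x j) * s j)‖ ≤ r⁻¹ * (r * η) :=
          mul_le_mul_of_nonneg_left h1 (by positivity)
      _ = η := by field_simp

end Vale.Agent.P133.H681
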