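import Vale.Agent.P133.Bdl.B1

/-! P133 (helper681): simultaneous orthogonalisation of a finite family. -/

open scoped ComplexOrder

namespace Vale.Agent.P133.H681

open Vale.Agent.P133

universe u

variable {M : Type u} [CStarAlgebra M] [PartialOrder M] [StarOrderedRing M]

/-- smaller right ideals have smaller angles -/
theorem ang_mono {a b a' b' : M} {ρ : ℝ} (h : Ang a b ρ) (ha : a' ∈ cl a) (hb : b' ∈ cl b) :
    Ang a' b' ρ := by
  intro x hx y hy hy1
  exact h x (K.RI_mono ha hx) y (K.RI_mono hb hy) hy1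

omit [PartialOrder M] [StarOrderedRing M] in
theorem self_mem_cl (a : M) : a ∈ cl a := by
  have := K.mul_mem_RI a (1 : M)
  rwa [mul_one] at this

/-- the invariant of the iteration -/
structure Inv (A : CIdeal M) {ι : Type} (a : ι → M) (δ : ℝ) (a' : ι → M) : Prop where
  pc : ∀ i, PC A (a' i)
  mem : ∀ i, a' i ∈ cl (a i)
  ctl : ∀ i, CtlLt (a' i) 1 (a i) δ

/-- one finite family: all pairs are made almost orthogonal. -/
theorem fam_angles (A : CIdeal M) (hA : PIrel A) {ι : Type} [DecidableEq ι] (a : ι → M)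
    (ha : ∀ i, PC A (a i)) {δ : ℝ} (hδ : 0 < δ) (n : ℕ) (T : Finset (ι × ι))
    (hT : ∀ p ∈ T, p.1 ≠ p.2) :
    ∃ a' : ι → M, Inv A a δ a' ∧ ∀ p ∈ T, Ang (a' p.1) (a' p.2) ((13 / 20) ^ n) := by
  induction T using Finset.induction_on with
  | empty =>
    refine ⟨fun i => cfc (cut δ) (a i), ⟨fun i => cut_pc A hδ (ha i).nonneg (ha i).mem,
      fun i => cfc_mem_cl (cut_continuous δ) (by simp [cut]) (ha i).nonneg,
      fun i => t7_ctl_cut (ha i).nonneg hδ⟩, by simp⟩
  | insert p T hp ih =>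
    obtain ⟨a', hI, hang⟩ := ih (fun q hq => hT q (Finset.mem_insert_of_mem hq))
    have hne : p.1 ≠ p.2 := hT p (Finset.mem_insert_self _ _)
    obtain ⟨u, v, hu, hv, cu, cv, huv, h1, h2⟩ :=
      t7_iterate A hA (hI.pc p.1) (hI.pc p.2) (δ := 1 / 2) (by norm_num) (by norm_num) n
    set b : ι → M := Function.update (Function.update a' p.1 u) p.2 v with hb
    have hb2 : b p.2 = v := by simp [hb]
    have hb1 : b p.1 = u := by
      rw [hb, Function.update_of_ne hne, Function.update_self]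
    have hbo : ∀ i, i ≠ p.1 → i ≠ p.2 → b i = a' i := by
      intro i hi1 hi2
      rw [hb, Function.update_of_ne hi2, Function.update_of_ne hi1]
    have hcl : ∀ i, b i ∈ cl (a' i) := by
      intro i
      by_cases h2' : i = p.2
      · subst h2'; rw [hb2]; exact cv
      · by_cases h1' : i = p.1
        · subst h1'; rw [hb1]; exact cu
        · rw [hbo i h1' h2']; exact self_mem_cl _
    refine ⟨b, ⟨?_, fun i => cl_trans (hcl i) (hI.mem i), ?_⟩, ?_⟩
    · intro i
      by_cases h2' : i = p.2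
      · subst h2'; rw [hb2]; exact hv
      · by_cases h1' : i = p.1
        · subst h1'; rw [hb1]; exact hu
        · rw [hbo i h1' h2']; exact hI.pc i
    · intro i
      by_cases h2' : i = p.2
      · subst h2'; rw [hb2]
        intro C _ π h
        exact hI.ctl _ C π (lt_of_le_of_lt (h2 C π h) (by norm_num))
      · by_cases h1' : i = p.1
        · subst h1'; rw [hb1]
          intro C _ π h
          exact hI.ctl _ C π (lt_of_le_of_lt (h1 C π h) (by norm_num))
        · rw [hbo i h1' h2']; exact hI.ctl i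
    · intro q hq
      rcases Finset.mem_insert.1 hq with rfl | hq
      · rw [hb1, hb2]; exact huv
      · exact ang_mono (hang q hq) (hcl _) (hcl _)

/-- the product of two elements at a small angle is small. -/
theorem ang_small {a b : M} {ρ : ℝ} (hρ : 0 ≤ ρ) (h : Ang a b ρ) {S T : M} (hS : S ∈ cl a)
    (hT : T ∈ cl b) {c : ℝ} (hc : 0 < c) (hSn : ‖S‖ ≤ c) (hTn : ‖T‖ ≤ c) :
    ‖star S * T‖ ^ 2 ≤ ρ * c ^ 4 := by
  have h3 := h S hS ((c⁻¹ : ℝ) • T) (smul_mem_cl hT _) (by
    rw [norm_smul, Real.norm_of_nonneg (by positivity), inv_mul_le_iff₀ hc]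
    linarith only [hTn])
  have h4 : star S * ((c⁻¹ : ℝ) • T) * star ((c⁻¹ : ℝ) • T) * S =
      (c⁻¹ ^ 2 : ℝ) • ((star S * T) * star (star S * T)) := by
    rw [star_smul, star_mul, star_star, star_trivial (c⁻¹ : ℝ)]
    simp only [mul_smul_comm, smul_mul_assoc, mul_assoc, smul_smul]
    rw [sq]
  rw [h4] at h3
  have h5 : 0 ≤ (c⁻¹ ^ 2 : ℝ) • ((star S * T) * star (star S * T)) :=
    smul_nonneg (by positivity) (mul_star_self_nonneg _)
  have h6 := CStarAlgebra.norm_le_norm_of_nonneg_of_le h5 h3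
  rw [norm_smul, norm_smul, Real.norm_of_nonneg (by positivity : (0 : ℝ) ≤ c⁻¹ ^ 2),
    Real.norm_of_nonneg hρ, CStarRing.norm_self_mul_star, CStarRing.norm_star_mul_self] at h6
  have h7 : ‖star S * T‖ * ‖star S * T‖ ≤ c ^ 2 * (ρ * (‖S‖ * ‖S‖)) := by
    have := mul_le_mul_of_nonneg_left h6 (by positivity : (0 : ℝ) ≤ c ^ 2)
    have e : c ^ 2 * (c⁻¹ ^ 2 * (‖star S * T‖ * ‖star S * T‖)) = ‖star S * T‖ * ‖star S * T‖ := by
      field_simp
    rwa [e] at this
  have h8 : ‖S‖ * ‖S‖ ≤ c * c := mul_le_mul hSn hSn (norm_nonneg _) hc.le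
  calc ‖star S * T‖ ^ 2 = ‖star S * T‖ * ‖star S * T‖ := sq _
    _ ≤ c ^ 2 * (ρ * (‖S‖ * ‖S‖)) := h7
    _ ≤ c ^ 2 * (ρ * (c * c)) := by gcongr
    _ = ρ * c ^ 4 := by ring

end Vale.Agent.P133.H681
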