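import Vale.Agent.P133.H681.Fam1

/-! P133 (helper681): almost isometries `x i * s i` with orthogonal ranges, `s i` bounded. -/

open scoped ComplexOrder

namespace Vale.Agent.P133.H681

open Vale.Agent.P133

universe u

variable {M : Type u} [CStarAlgebra M] [PartialOrder M] [StarOrderedRing M]

omit [PartialOrder M] [StarOrderedRing M] in
theorem level_of_cl {h : M} {s : ℝ} {f : ℝ → ℝ} (hf : Continuous f) (h0 : ∀ u, u < s → f u = 0)
    {g : M} (hg : g ∈ cl (cfc f h)) : Level h s g := by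
  intro w hw h1
  have hcl : IsClosed {g : M | cfc w h * g = g} :=
    isClosed_eq (by fun_prop) continuous_id
  have hsub : closure (Set.range fun z => cfc f h * z) ⊆ {g : M | cfc w h * g = g} := by
    refine closure_minimal ?_ hcl
    rintro _ ⟨z, rfl⟩
    exact K.level_cfc hf h0 z w hw h1
  exact hsub hg

theorem norm_t7_le {A : CIdeal M} {w : M} (hw : PC A w) {δ : ℝ} (hδ : 0 < δ) :
    ‖cfc (t7_f δ) w‖ ≤ 1 := by
  refine norm_cfc_le' hw.nonneg zero_le_one (fun u hu hu1 => ?_)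
  have hu1' : u ≤ 1 := hu1.trans hw.norm_le
  unfold t7_f
  rw [abs_of_nonneg (sq_nonneg _)]
  have h0 : 0 ≤ max 0 (u - δ) := le_max_left _ _
  have h3 : max 0 (u - δ) ≤ 1 := max_le zero_le_one (by linarith only [hδ, hu1'])
  nlinarith only [h3, h0]

theorem fam_elts (A : CIdeal M) (hA : PIrel A) {ι : Type} [Fintype ι] [DecidableEq ι] (x : ι → M)
    (hx : ∀ i, PC A (x i)) {δ : ℝ} (hδ : 0 < δ) (hδ1 : δ < 1) {η : ℝ} (hη : 0 < η) :
    ∃ s : ι → M, (∀ i, s i ∈ A) ∧ (∀ i, ‖s i‖ ≤ 4 / δ) ∧ (∀ i, ‖x i * s i‖ ≤ 2) ∧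
      (∀ i j, i ≠ j → ‖star (x i * s i) * (x j * s j)‖ ≤ η) ∧
      ∀ i, ‖star (x i * s i) * (x i * s i) - x i ^ 2‖ ≤ 2 * δ + η := by
  obtain ⟨n, hn⟩ : ∃ n : ℕ, ((13 / 20 : ℝ)) ^ n < η ^ 2 / 16 :=
    exists_pow_lt_of_lt_one (by positivity) (by norm_num)
  obtain ⟨a', hI, hang⟩ := fam_angles A hA (fun i => cfc (K.ramp (δ / 2) δ) (x i))
    (fun i => K.PC.ramp A (hx i).nonneg (hx i).mem (by positivity) (by linarith)) (δ := 1 / 2)
    (by norm_num) n (Finset.univ.offDiag) (by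
      intro p hp
      simpa using hp)
  have hctl : ∀ i, Ctl (a' i) 0 (cfc (t7_f δ) (x i)) 0 := by
    intro i C _ π h
    have h1 : ‖π (cfc (K.ramp (δ / 2) δ) (x i))‖ ≤ 1 / 2 :=
      hI.ctl i C π (lt_of_le_of_lt h one_pos)
    have h2 : ‖π (x i)‖ ≤ δ := by
      refine T5.map_norm_le (K.ramp_cont _ _) (hx i).nonneg hδ.le (fun s hs => ?_) π h1
      rw [K.ramp_eq_one (by linarith) hs.le]
      norm_num
    have h3 : π (cfc (t7_f δ) (x i)) = 0 :=
      T5.map_cfc_zero (t7_f_continuous δ) (hx i).nonneg (r := δ)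
        (fun s hs => by simp [t7_f, max_eq_left (sub_nonpos.2 hs)]) π h2
    rw [h3, norm_zero]
  have hν : 0 < min 1 η := lt_min one_pos hη
  have hT : ∀ i, ∃ S : M, S ∈ cl (a' i) ∧ ‖star S * S - cfc (t7_f δ) (x i)‖ < min 1 η := by
    intro i
    obtain ⟨S, S₂, ⟨S', hS', hSe⟩, -, hS1, -, -⟩ := T1 A hA (hI.pc i).nonneg (hI.pc i).mem
      (t7_k_nonneg (hx i).nonneg δ) (hctl i) hν
    refine ⟨S, ?_, hS1⟩
    rw [hSe]
    exact mul_mem_cl (cfc_mem_cl Real.continuous_sqrt Real.sqrt_zero (hI.pc i).nonneg) _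
  choose S hSa hS1 using hT
  have hS2 : ∀ i, ‖S i‖ ≤ 2 := by
    intro i
    have hSn : ‖star (S i) * S i‖ ≤ 2 := by
      calc ‖star (S i) * S i‖ = ‖(star (S i) * S i - cfc (t7_f δ) (x i)) + cfc (t7_f δ) (x i)‖ := by
            rw [sub_add_cancel]
        _ ≤ ‖star (S i) * S i - cfc (t7_f δ) (x i)‖ + ‖cfc (t7_f δ) (x i)‖ := norm_add_le _ _
        _ ≤ 1 + 1 := add_le_add ((hS1 i).le.trans (min_le_left _ _)) (norm_t7_le (hx i) hδ)
        _ = 2 := by norm_num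
    rw [CStarRing.norm_star_mul_self] at hSn
    nlinarith only [hSn, norm_nonneg (S i)]
  have hlev : ∀ i, Level (x i) (δ / 2) (S i) := fun i =>
    level_of_cl (K.ramp_cont _ _) (fun u hu => K.ramp_eq_zero (by linarith) hu.le)
      (cl_trans (hSa i) (hI.mem i))
  have heq : ∀ i, x i * (cfc (fun u => 1 / max (δ / 2) u) (x i) * S i) = S i := fun i =>
    (K.level_eq (hx i).nonneg (by positivity) (hlev i)).symm
  have hSA : ∀ i, S i ∈ A := fun i => K.RI_subset_ideal A (hI.pc i).mem (hSa i)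
  refine ⟨fun i => cfc (fun u => 1 / max (δ / 2) u) (x i) * S i, fun i => A.left_mem _ (hSA i),
    ?_, ?_, ?_, ?_⟩
  · intro i
    have h1 := K.inv_max_norm (hx i).nonneg (s := δ / 2) (by positivity)
    calc ‖cfc (fun u => 1 / max (δ / 2) u) (x i) * S i‖
        ≤ 1 / (δ / 2) * 2 := norm_mul_le_of_le h1 (hS2 i)
      _ = 4 / δ := by field_simp; ring
  · intro i
    simp only [heq]
    exact hS2 i
  · intro i j hij
    simp only [heq]
    have h1 := ang_small (by positivity) (hang (i, j) (by simpa using hij)) (hSa i) (hSa j)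
      (c := 2) (by norm_num) (hS2 i) (hS2 j)
    have h2 : ‖star (S i) * S j‖ ^ 2 ≤ η ^ 2 := by nlinarith only [h1, hn]
    exact (abs_le_of_sq_le_sq' h2 hη.le).2
  · intro i
    simp only [heq]
    have h7 := t7_near (hx i).nonneg (hx i).norm_le hδ hδ1
    calc ‖star (S i) * S i - x i ^ 2‖
        = ‖(star (S i) * S i - cfc (t7_f δ) (x i)) + (cfc (t7_f δ) (x i) - x i ^ 2)‖ := by
          congr 1; abel
      _ ≤ ‖star (S i) * S i - cfc (t7_f δ) (x i)‖ + ‖cfc (t7_f δ) (x i) - x i ^ 2‖ :=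
          norm_add_le _ _
      _ ≤ min 1 η + 2 * δ := add_le_add (hS1 i).le h7
      _ ≤ 2 * δ + η := by linarith only [min_le_right (1 : ℝ) η]

end Vale.Agent.P133.H681
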