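import Vale.Agent.P133.H681.WpiUncond
import Vale.Agent.P133.H832.ExtN

/-! P133 (helper681): upper semicontinuous fields of C*-algebras over finite-dimensional
spaces. -/

open scoped ComplexOrder

namespace Vale.Agent.P133.H681

open Vale.Agent.P133 Vale.Agent.P133.Statement Vale.Agent.P133.H832 Vale.Agent.P133F

universe u

section

variable {X : Type u} [TopologicalSpace X] {B : X → Type u} [∀ t, NonUnitalCStarAlgebra (B t)]
  {A : Type u} [NonUnitalCStarAlgebra A]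

/-- `A` is the algebra of sections vanishing at infinity of an upper semicontinuous field -/
structure FieldData (π : ∀ t, A →⋆ₙₐ[ℂ] B t) : Prop where
  surj : ∀ t, Function.Surjective (π t)
  norm : ∀ (a : A) (r : ℝ), 0 ≤ r → (∀ t, ‖π t a‖ ≤ r) → ‖a‖ ≤ r
  cpt : ∀ (a : A) (r : ℝ), 0 < r → IsCompact {t | r ≤ ‖π t a‖}
  mul : ∀ f : C(X, ℝ), (∀ t, 0 ≤ f t ∧ f t ≤ 1) → ∀ a : A, ∃ b : A, ∀ t,
    π t b = ((f t : ℝ) : ℂ) • π t a

variable (π : ∀ t, A →⋆ₙₐ[ℂ] B t)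

/-- diagonalization over `Y` with norm bound `C` -/
def EC (C : ℝ) (Y : Set X) : Prop :=
  ∀ (ι : Type) [Fintype ι] [DecidableEq ι] (a : ι → A) (ε : ℝ), 0 < ε → ∃ d : ι → A,
    (∀ i, ‖d i‖ ≤ C) ∧ ∀ t ∈ Y, ∀ i j,
      ‖π t (star (a i * d i) * (a j * d j) - (if i = j then star (a i) * a i else 0))‖ < ε

def Val {ι : Type} [DecidableEq ι] (a G : ι → A) (t : X) (e : ℝ) : Prop :=
  ∀ i j, ‖π t (star (a i * G i) * (a j * G j) - (if i = j then star (a i) * a i else 0))‖ ≤ e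

def Crs {ι : Type} (a G H : ι → A) (t : X) (e : ℝ) : Prop :=
  ∀ i j, ‖π t (star (a i * G i) * (a j * H j))‖ ≤ e

variable {π}

theorem EC.mono {C : ℝ} {Y Z : Set X} (h : EC π C Z) (hYZ : Y ⊆ Z) : EC π C Y := by
  intro ι _ _ a ε hε
  obtain ⟨d, h1, h2⟩ := h ι a ε hε
  exact ⟨d, h1, fun t ht => h2 t (hYZ ht)⟩

theorem Val.mono {ι : Type} [DecidableEq ι] {a G : ι → A} {t : X} {e e' : ℝ}
    (h : Val π a G t e) (he : e ≤ e') : Val π a G t e' := fun i j => (h i j).trans he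

theorem Val.congr {ι : Type} [DecidableEq ι] {a G H : ι → A} {t : X} {e : ℝ}
    (h : Val π a G t e) (hGH : ∀ i, π t (G i) = π t (H i)) : Val π a H t e := by
  intro i j
  have := h i j
  simp only [map_sub, map_mul, map_star] at this ⊢
  rwa [hGH i, hGH j] at this

theorem Crs.symm {ι : Type} {a G H : ι → A} {t : X} {e : ℝ} (h : Crs π a G H t e) :
    Crs π a H G t e := by
  intro i j
  have h1 := h j i
  rw [← norm_star, ← map_star, star_mul, star_star] at h1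
  exact h1

/-- mixing two families -/
theorem Val.mix {ι : Type} [DecidableEq ι] {a G H F : ι → A} {t : X} {e c : ℝ} {φ ψ : ℝ}
    (h1 : φ ^ 2 + ψ ^ 2 = 1) (hφ : 0 ≤ φ) (hψ : 0 ≤ ψ)
    (hF : ∀ i, π t (F i) = (φ : ℂ) • π t (G i) + (ψ : ℂ) • π t (H i))
    (hG : Val π a G t e) (hH : Val π a H t e) (hc : Crs π a G H t c) (hc0 : 0 ≤ c) :
    Val π a F t (e + c) := by
  intro i j
  set T : A := if i = j then star (a i) * a i else 0 with hT
  have key : π t (star (a i * F i) * (a j * F j) - T) =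
      ((φ ^ 2 : ℝ) : ℂ) • π t (star (a i * G i) * (a j * G j) - T) +
      ((ψ ^ 2 : ℝ) : ℂ) • π t (star (a i * H i) * (a j * H j) - T) +
      ((φ * ψ : ℝ) : ℂ) • (π t (star (a i * G i) * (a j * H j)) +
        π t (star (a i * H i) * (a j * G j))) := by
    have h2 : π t T = ((φ ^ 2 : ℝ) : ℂ) • π t T + ((ψ ^ 2 : ℝ) : ℂ) • π t T := by
      rw [← add_smul, ← Complex.ofReal_add, h1, Complex.ofReal_one, one_smul]
    simp only [map_sub, map_mul, map_star, star_mul]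
    rw [hF, hF]
    nth_rewrite 1 [h2]
    simp only [star_add, star_smul, RCLike.star_def, Complex.conj_ofReal, mul_add, add_mul,
      smul_mul_assoc, mul_smul_comm, smul_smul, smul_sub, smul_add]
    push_cast
    have e1 : (φ : ℂ) * φ = (φ : ℂ) ^ 2 := by ring
    have e2 : (ψ : ℂ) * ψ = (ψ : ℂ) ^ 2 := by ring
    have e3 : (ψ : ℂ) * φ = (φ : ℂ) * ψ := by ring
    simp only [e1, e2, e3]
    abel
  rw [key]
  have n1 : ‖((φ ^ 2 : ℝ) : ℂ) • π t (star (a i * G i) * (a j * G j) - T)‖ ≤ φ ^ 2 * e := by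
    rw [norm_smul, Complex.norm_real, Real.norm_of_nonneg (by positivity)]
    exact mul_le_mul_of_nonneg_left (hG i j) (by positivity)
  have n2 : ‖((ψ ^ 2 : ℝ) : ℂ) • π t (star (a i * H i) * (a j * H j) - T)‖ ≤ ψ ^ 2 * e := by
    rw [norm_smul, Complex.norm_real, Real.norm_of_nonneg (by positivity)]
    exact mul_le_mul_of_nonneg_left (hH i j) (by positivity)
  have n3 : ‖((φ * ψ : ℝ) : ℂ) • (π t (star (a i * G i) * (a j * H j)) +
      π t (star (a i * H i) * (a j * G j)))‖ ≤ φ * ψ * (c + c) := by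
    rw [norm_smul, Complex.norm_real, Real.norm_of_nonneg (by positivity)]
    exact mul_le_mul_of_nonneg_left ((norm_add_le _ _).trans (add_le_add (hc i j)
      (hc.symm i j))) (by positivity)
  calc _ ≤ φ ^ 2 * e + ψ ^ 2 * e + φ * ψ * (c + c) :=
        (norm_add_le _ _).trans (add_le_add ((norm_add_le _ _).trans (add_le_add n1 n2)) n3)
    _ ≤ e + c := by
        have h3 : 2 * (φ * ψ) ≤ 1 := by nlinarith [sq_nonneg (φ - ψ)]
        have h4 : φ ^ 2 * e + ψ ^ 2 * e = e := by rw [← add_mul, h1, one_mul]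
        have h5 : 2 * (φ * ψ) * c ≤ 1 * c := mul_le_mul_of_nonneg_right h3 hc0
        have h6 : φ * ψ * (c + c) = 2 * (φ * ψ) * c := by ring
        rw [h4, h6]
        linarith

/-- norms of mixtures -/
theorem norm_mix {G H F : A} {t : X} {φ ψ : ℝ} (h1 : φ ^ 2 + ψ ^ 2 = 1) (hφ : 0 ≤ φ)
    (hψ : 0 ≤ ψ) (hF : π t F = (φ : ℂ) • π t G + (ψ : ℂ) • π t H) {r s : ℝ}
    (hG : ‖π t G‖ ≤ r) (hH : ‖π t H‖ ≤ s) : ‖π t F‖ ≤ r + s := by
  have hφ1 : φ ≤ 1 := by nlinarith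
  have hψ1 : ψ ≤ 1 := by nlinarith
  rw [hF]
  refine (norm_add_le _ _).trans (add_le_add ?_ ?_)
  · rw [norm_smul, Complex.norm_real, Real.norm_of_nonneg hφ]
    nlinarith [norm_nonneg (π t G)]
  · rw [norm_smul, Complex.norm_real, Real.norm_of_nonneg hψ]
    nlinarith [norm_nonneg (π t H)]

/-- openness around a slice -/
theorem nhds_slice (hπ : FieldData π) {Y : Set X} (hY : IsClosed Y) {p : X → ℝ}
    (hp : Continuous p) (x : ℝ) {κ : Type} [Finite κ] (e : κ → A) {ε : ℝ} (hε : 0 < ε)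
    (h : ∀ t ∈ Y, p t = x → ∀ k, ‖π t (e k)‖ < ε) :
    ∃ δ : ℝ, 0 < δ ∧ ∀ t ∈ Y, |p t - x| < δ → ∀ k, ‖π t (e k)‖ < ε := by
  have hK : IsCompact (⋃ k, {t | ε ≤ ‖π t (e k)‖} ∩ Y) :=
    isCompact_iUnion fun k => (hπ.cpt (e k) ε hε).inter_right hY
  have hK2 : IsClosed (p '' (⋃ k, {t | ε ≤ ‖π t (e k)‖} ∩ Y)) := (hK.image hp).isClosed
  have hx : x ∈ (p '' (⋃ k, {t | ε ≤ ‖π t (e k)‖} ∩ Y))ᶜ := by
    rintro ⟨t, ht, rfl⟩
    obtain ⟨k, hk1, hk2⟩ := Set.mem_iUnion.1 ht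
    exact absurd hk1 (not_le.2 (h t hk2 rfl k))
  obtain ⟨δ, hδ, hball⟩ := Metric.isOpen_iff.1 hK2.isOpen_compl x hx
  refine ⟨δ, hδ, fun t ht hpt k => ?_⟩
  by_contra hcon
  have h1 : p t ∈ Metric.ball x δ := by
    rw [Metric.mem_ball, Real.dist_eq]; exact hpt
  exact hball h1 ⟨t, Set.mem_iUnion.2 ⟨k, not_lt.1 hcon, ht⟩, rfl⟩

/-- switching from `G` to `H` -/
theorem switch (hπ : FieldData π) {p : X → ℝ} (hp : Continuous p) {b c : ℝ} (hbc : b < c)
    {ι : Type} (G H : ι → A) : ∃ F : ι → A, ∀ t, ∃ φ ψ : ℝ, φ ^ 2 + ψ ^ 2 = 1 ∧ 0 ≤ φ ∧ 0 ≤ ψ ∧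
      (p t ≤ b → φ = 1 ∧ ψ = 0) ∧ (c ≤ p t → φ = 0 ∧ ψ = 1) ∧
      ∀ i, π t (F i) = (φ : ℂ) • π t (G i) + (ψ : ℂ) • π t (H i) := by
  set s : X → ℝ := fun t => max 0 (min 1 ((p t - b) / (c - b))) with hs
  have hsc : Continuous s := by fun_prop
  have hs0 : ∀ t, 0 ≤ s t := fun t => le_max_left _ _
  have hs1 : ∀ t, s t ≤ 1 := fun t => max_le zero_le_one (min_le_left _ _)
  let f : C(X, ℝ) := ⟨fun t => Real.sqrt (1 - s t), by fun_prop⟩
  let g : C(X, ℝ) := ⟨fun t => Real.sqrt (s t), by fun_prop⟩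
  choose F1 hF1 using fun i => hπ.mul f (fun t => ⟨Real.sqrt_nonneg _, by
    show Real.sqrt (1 - s t) ≤ 1
    exact Real.sqrt_le_iff.2 ⟨zero_le_one, by linarith [hs0 t]⟩⟩) (G i)
  choose F2 hF2 using fun i => hπ.mul g (fun t => ⟨Real.sqrt_nonneg _, by
    show Real.sqrt (s t) ≤ 1
    exact Real.sqrt_le_iff.2 ⟨zero_le_one, by linarith [hs1 t]⟩⟩) (H i)
  refine ⟨fun i => F1 i + F2 i, fun t => ⟨Real.sqrt (1 - s t), Real.sqrt (s t), ?_,
    Real.sqrt_nonneg _, Real.sqrt_nonneg _, ?_, ?_, ?_⟩⟩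
  · rw [Real.sq_sqrt (by linarith [hs1 t]), Real.sq_sqrt (hs0 t)]; ring
  · intro h
    have : s t = 0 := by
      rw [hs]
      simp only
      refine max_eq_left ((min_le_right _ _).trans ?_)
      exact div_nonpos_of_nonpos_of_nonneg (by linarith) (by linarith)
    rw [this]; simp
  · intro h
    have : s t = 1 := by
      rw [hs]
      simp only
      rw [min_eq_left, max_eq_right zero_le_one]
      rw [le_div_iff₀ (by linarith)]
      linarith
    rw [this]; simp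
  · intro i
    rw [map_add, hF1, hF2]
    rfl

end

end Vale.Agent.P133.H681
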