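import Vale.Agent.P133.H681.Field1

/-! P133 (helper681): one-dimensional gluing for upper semicontinuous fields. -/

open scoped ComplexOrder

namespace Vale.Agent.P133.H681

open Vale.Agent.P133 Vale.Agent.P133.Statement Vale.Agent.P133.H832 Vale.Agent.P133F

universe u

section

variable {X : Type u} [TopologicalSpace X] {B : X → Type u} [∀ t, NonUnitalCStarAlgebra (B t)]
  {A : Type u} [NonUnitalCStarAlgebra A] {π : ∀ t, A →⋆ₙₐ[ℂ] B t}

/-- the five regions of a double switch -/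
theorem switch3 (hπ : FieldData π) {p : X → ℝ} (hp : Continuous p) {b0 b1 b2 b3 : ℝ}
    (h01 : b0 < b1) (h12 : b1 < b2) (h23 : b2 < b3) {ι : Type} (G D P Q D' : ι → A)
    (hGD : ∀ t, b0 ≤ p t → ∀ i, π t (G i) = π t (D i)) :
    ∃ F : ι → A, ∀ t,
      (p t ≤ b0 ∧ ∀ i, π t (F i) = π t (G i)) ∨
      (b3 ≤ p t ∧ ∀ i, π t (F i) = π t (D' i)) ∨
      ((b0 ≤ p t ∧ p t ≤ b3) ∧ ∃ φ ψ : ℝ, φ ^ 2 + ψ ^ 2 = 1 ∧ 0 ≤ φ ∧ 0 ≤ ψ ∧
        ((∀ i, π t (F i) = (φ : ℂ) • π t (D i) + (ψ : ℂ) • π t (P i)) ∨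
         (∀ i, π t (F i) = (φ : ℂ) • π t (P i) + (ψ : ℂ) • π t (Q i)) ∨
         (∀ i, π t (F i) = (φ : ℂ) • π t (Q i) + (ψ : ℂ) • π t (D' i)))) := by
  obtain ⟨F1, hF1⟩ := switch hπ hp h01 G P
  obtain ⟨F2, hF2⟩ := switch hπ hp h12 F1 Q
  obtain ⟨F3, hF3⟩ := switch hπ hp h23 F2 D'
  refine ⟨F3, fun t => ?_⟩
  obtain ⟨φ1, ψ1, s1, p1, q1, l1, r1, e1⟩ := hF1 t
  obtain ⟨φ2, ψ2, s2, p2, q2, l2, r2, e2⟩ := hF2 t
  obtain ⟨φ3, ψ3, s3, p3, q3, l3, r3, e3⟩ := hF3 t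
  rcases le_total (p t) b0 with h0 | h0
  · left
    refine ⟨h0, fun i => ?_⟩
    rw [e3, (l3 (by linarith)).1, (l3 (by linarith)).2, e2, (l2 (by linarith)).1,
      (l2 (by linarith)).2, e1, (l1 h0).1, (l1 h0).2]
    simp
  rcases le_total b3 (p t) with h3 | h3
  · right; left
    refine ⟨h3, fun i => ?_⟩
    rw [e3, (r3 h3).1, (r3 h3).2]
    simp
  right; right
  refine ⟨⟨h0, h3⟩, ?_⟩
  rcases le_total (p t) b1 with h1 | h1
  · refine ⟨φ1, ψ1, s1, p1, q1, Or.inl fun i => ?_⟩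
    rw [e3, (l3 (by linarith)).1, (l3 (by linarith)).2, e2, (l2 h1).1, (l2 h1).2, e1,
      hGD t h0]
    simp
  have f1 : ∀ i, π t (F1 i) = π t (P i) := by
    intro i
    rw [e1, (r1 h1).1, (r1 h1).2]
    simp
  rcases le_total (p t) b2 with h2 | h2
  · refine ⟨φ2, ψ2, s2, p2, q2, Or.inr (Or.inl fun i => ?_)⟩
    rw [e3, (l3 h2).1, (l3 h2).2, e2, f1]
    simp
  have f2 : ∀ i, π t (F2 i) = π t (Q i) := by
    intro i
    rw [e2, (r2 h2).1, (r2 h2).2]
    simp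
  refine ⟨φ3, ψ3, s3, p3, q3, Or.inr (Or.inr fun i => ?_)⟩
  rw [e3, f2]

theorem val_mul {ι : Type} [DecidableEq ι] {a D : ι → A} {u : ι → A} {t : X} {e : ℝ}
    (h1 : Val π a D t e)
    (h2 : ∀ i j, ‖π t (star ((a i * D i) * u i) * ((a j * D j) * u j) -
      (if i = j then star (a i * D i) * (a i * D i) else 0))‖ ≤ e) :
    Val π a (fun i => D i * u i) t (2 * e) := by
  intro i j
  have e1 : star (a i * (D i * u i)) * (a j * (D j * u j)) - (if i = j then star (a i) * a i else 0)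
      = (star ((a i * D i) * u i) * ((a j * D j) * u j) -
      (if i = j then star (a i * D i) * (a i * D i) else 0)) +
      (if i = j then star (a i * D i) * (a i * D i) - star (a i) * a i else 0) := by
    rw [← mul_assoc (a i), ← mul_assoc (a j)]
    split_ifs
    · abel
    · simp
  show ‖π t (star (a i * (D i * u i)) * (a j * (D j * u j)) -
    (if i = j then star (a i) * a i else 0))‖ ≤ 2 * e
  rw [e1, map_add]
  refine (norm_add_le _ _).trans ?_
  have n2 : ‖π t (if i = j then star (a i * D i) * (a i * D i) - star (a i) * a i else 0)‖ ≤ e := by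
    by_cases hij : i = j
    · rw [if_pos hij]
      have := h1 i i
      rwa [if_pos rfl] at this
    · rw [if_neg hij, map_zero, norm_zero]
      exact (norm_nonneg _).trans (h1 i i)
  linarith [h2 i j]

theorem crs_mul {ι : Type} {a D D1 : ι → A} {u : ι → A} {t : X} {e C : ℝ}
    (h1 : Crs π a D D1 t e) (hu : ∀ i, ‖π t (u i)‖ ≤ C) (he : 0 ≤ e) :
    Crs π a D (fun i => D1 i * u i) t (e * C) := by
  intro i j
  show ‖π t (star (a i * D i) * (a j * (D1 j * u j)))‖ ≤ e * C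
  rw [← mul_assoc (a j), ← mul_assoc, map_mul]
  exact norm_mul_le_of_le (h1 i j) (hu j)

/-- one step of the gluing -/
theorem step (hπ : FieldData π) {Y : Set X} (hY : IsClosed Y) {p : X → ℝ} (hp : Continuous p)
    {C : ℝ} (hC : 1 ≤ C) {c c' : ℝ} (hcc : c < c') {e : ℝ} (he : 0 < e)
    {ι : Type} [Fintype ι] [DecidableEq ι] (a D D1 D' D1' : ι → A)
    (nD : ∀ i, ‖D i‖ ≤ C) (nD1 : ∀ i, ‖D1 i‖ ≤ C) (nD' : ∀ i, ‖D' i‖ ≤ C)
    (nD1' : ∀ i, ‖D1' i‖ ≤ C)
    (hD : ∀ t ∈ Y, c ≤ p t → p t ≤ c' → Val π a D t e ∧ Val π a D1 t e ∧ Crs π a D D1 t e)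
    (hD' : ∀ t ∈ Y, c ≤ p t → p t ≤ c' → Val π a D' t e ∧ Val π a D1' t e ∧ Crs π a D' D1' t e)
    (hE : ∀ x : ℝ, EC π C (Y ∩ {t | p t = x})) (G : ι → A)
    (hG1 : ∀ t i, ‖π t (G i)‖ ≤ 2 * C ^ 2) (hG2 : ∀ t ∈ Y, p t ≤ c → Val π a G t (3 * C * e))
    (hG3 : ∃ η : ℝ, 0 < η ∧ ∀ t, c - η ≤ p t → ∀ i, π t (G i) = π t (D i)) :
    ∃ G' : ι → A, (∀ t i, ‖π t (G' i)‖ ≤ 2 * C ^ 2) ∧
      (∀ t ∈ Y, p t ≤ c' → Val π a G' t (3 * C * e)) ∧
      (∃ η : ℝ, 0 < η ∧ ∀ t, c' - η ≤ p t → ∀ i, π t (G' i) = π t (D' i)) := by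
  have hCC : C ≤ C ^ 2 := by nlinarith
  set b : ℝ := (c + c') / 2 with hb
  obtain ⟨w, hw1, hw2⟩ := hE b (ι ⊕ ι) (Sum.elim (fun i => a i * D1 i) (fun i => a i * D1' i)) e he
  set u : ι → A := fun i => w (Sum.inl i) with hu
  set v : ι → A := fun i => w (Sum.inr i) with hv
  obtain ⟨η0, hη0, hsl⟩ := nhds_slice hπ hY hp b
    (e := fun k : (ι ⊕ ι) × (ι ⊕ ι) =>
      (star ((Sum.elim (fun i => a i * D1 i) (fun i => a i * D1' i) : ι ⊕ ι → A) k.1 * w k.1) *
        ((Sum.elim (fun i => a i * D1 i) (fun i => a i * D1' i) : ι ⊕ ι → A) k.2 * w k.2) -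
        (if k.1 = k.2 then star ((Sum.elim (fun i => a i * D1 i) (fun i => a i * D1' i) :
          ι ⊕ ι → A) k.1) * (Sum.elim (fun i => a i * D1 i) (fun i => a i * D1' i) :
          ι ⊕ ι → A) k.1 else 0))) he
    (fun t ht hpt k => hw2 t ⟨ht, hpt⟩ k.1 k.2)
  set r : ℝ := min η0 ((c' - c) / 2) with hr
  have hr0 : 0 < r := lt_min hη0 (by linarith)
  have hr1 : r ≤ η0 := min_le_left _ _
  have hr2 : r ≤ (c' - c) / 2 := min_le_right _ _
  obtain ⟨η, hη, hG3⟩ := hG3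
  obtain ⟨F, hF⟩ := switch3 hπ hp (b0 := b - r / 2) (b1 := b - r / 6) (b2 := b + r / 6)
    (b3 := b + r / 2) (by linarith) (by linarith) (by linarith) G D (fun i => D1 i * u i)
    (fun i => D1' i * v i) D' (fun t ht => hG3 t (by linarith))
  have npi : ∀ t (x : A), ‖π t x‖ ≤ ‖x‖ := fun t x => NonUnitalStarAlgHom.norm_apply_le _ _
  have nP : ∀ t i, ‖π t (D1 i * u i)‖ ≤ C ^ 2 := by
    intro t i
    refine (npi t _).trans ?_
    rw [sq]
    exact norm_mul_le_of_le (nD1 i) (hw1 _)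
  have nQ : ∀ t i, ‖π t (D1' i * v i)‖ ≤ C ^ 2 := by
    intro t i
    refine (npi t _).trans ?_
    rw [sq]
    exact norm_mul_le_of_le (nD1' i) (hw1 _)
  refine ⟨F, ?_, ?_, ?_⟩
  · intro t i
    rcases hF t with ⟨-, h⟩ | ⟨-, h⟩ | ⟨-, φ, ψ, h1, h2, h3, h | h | h⟩
    · rw [h]; exact hG1 t i
    · rw [h]
      exact ((npi t _).trans (nD' i)).trans (by nlinarith)
    · refine (norm_mix h1 h2 h3 (h i) ((npi t _).trans (nD i)) (nP t i)).trans (by linarith)
    · refine (norm_mix h1 h2 h3 (h i) (nP t i) (nQ t i)).trans (by linarith)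
    · refine (norm_mix h1 h2 h3 (h i) (nQ t i) ((npi t _).trans (nD' i))).trans (by linarith)
  · intro t ht hpt
    have hCe : e ≤ 3 * C * e := by nlinarith
    have hCe2 : e ≤ C * e := by nlinarith
    rcases hF t with ⟨h0, h⟩ | ⟨h0, h⟩ | ⟨⟨h0, h0'⟩, φ, ψ, h1, h2, h3, h⟩
    · rcases le_total (p t) c with hc | hc
      · exact (hG2 t ht hc).congr fun i => (h i).symm
      · refine ((hD t ht hc hpt).1.mono hCe).congr fun i => ?_
        rw [h, hG3 t (by linarith)]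
    · exact ((hD' t ht (by linarith) hpt).1.mono hCe).congr fun i => (h i).symm
    · have hcp : c ≤ p t := by linarith
      obtain ⟨V1, V2, X1⟩ := hD t ht hcp hpt
      obtain ⟨W1, W2, X1'⟩ := hD' t ht hcp hpt
      have habs : |p t - b| < η0 := by
        rw [abs_lt]; constructor <;> linarith
      have hs := hsl t ht habs
      have VP : Val π a (fun i => D1 i * u i) t (2 * e) := val_mul V2 fun i j => by
        have := (hs (Sum.inl i, Sum.inl j)).le
        simpa only [Sum.elim_inl, Sum.inl.injEq] using this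
      have VQ : Val π a (fun i => D1' i * v i) t (2 * e) := val_mul W2 fun i j => by
        have := (hs (Sum.inr i, Sum.inr j)).le
        simpa only [Sum.elim_inr, Sum.inr.injEq] using this
      have XPQ : Crs π a (fun i => D1 i * u i) (fun i => D1' i * v i) t e := fun i j => by
        have := (hs (Sum.inl i, Sum.inr j)).le
        simp only [Sum.elim_inl, Sum.elim_inr, reduceCtorEq, if_false, sub_zero] at this
        show ‖π t (star (a i * (D1 i * u i)) * (a j * (D1' j * v j)))‖ ≤ e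
        rwa [← mul_assoc (a i), ← mul_assoc (a j)]
      have XDP : Crs π a D (fun i => D1 i * u i) t (e * C) :=
        crs_mul X1 (fun i => (npi t _).trans (hw1 _)) he.le
      have XQD : Crs π a (fun i => D1' i * v i) D' t (e * C) :=
        (crs_mul X1' (fun i => (npi t _).trans (hw1 _)) he.le).symm
      have hsum : 2 * e + e * C ≤ 3 * C * e := by nlinarith
      rcases h with h | h | h
      · exact (Val.mix h1 h2 h3 h (V1.mono (by linarith)) VP XDP (by positivity)).mono hsum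
      · exact (Val.mix h1 h2 h3 h VP VQ XPQ he.le).mono (by nlinarith)
      · exact (Val.mix h1 h2 h3 h VQ (W1.mono (by linarith)) XQD (by positivity)).mono hsum
  · refine ⟨(c' - (b + r / 2)) / 2, by linarith, fun t ht i => ?_⟩
    rcases hF t with ⟨h0, h⟩ | ⟨h0, h⟩ | ⟨⟨h0, h0'⟩, -⟩
    · linarith
    · exact h i
    · linarith

end

end Vale.Agent.P133.H681
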