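import Vale.Agent.P133.H681.Field2
import Mathlib.Analysis.SpecialFunctions.Trigonometric.Arctan

/-! P133 (helper681): fields over finite-dimensional spaces. -/

open scoped ComplexOrder

namespace Vale.Agent.P133.H681

open Vale.Agent.P133 Vale.Agent.P133.Statement Vale.Agent.P133.H832 Vale.Agent.P133F

universe u

section

variable {X : Type u} [TopologicalSpace X] {B : X → Type u} [∀ t, NonUnitalCStarAlgebra (B t)]
  {A : Type u} [NonUnitalCStarAlgebra A] {π : ∀ t, A →⋆ₙₐ[ℂ] B t}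

/-- one-dimensional gluing -/
theorem ec_glue (hπ : FieldData π) {Y : Set X} (hY : IsClosed Y) {p : X → ℝ} (hp : Continuous p)
    (hp01 : ∀ t ∈ Y, 0 ≤ p t ∧ p t ≤ 1) {C : ℝ} (hC : 1 ≤ C)
    (hE : ∀ x : ℝ, EC π C (Y ∩ {t | p t = x})) : EC π (2 * C ^ 2) Y := by
  intro ι _ _ a ε hε
  set e : ℝ := ε / (4 * C) with hedef
  have he : 0 < e := by positivity
  -- local systems
  have hloc : ∀ x : ℝ, ∃ δ : ℝ, 0 < δ ∧ ∃ D D1 : ι → A, (∀ i, ‖D i‖ ≤ C) ∧ (∀ i, ‖D1 i‖ ≤ C) ∧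
      ∀ t ∈ Y, |p t - x| < δ → Val π a D t e ∧ Val π a D1 t e ∧ Crs π a D D1 t e := by
    intro x
    obtain ⟨w, hw1, hw2⟩ := hE x (ι ⊕ ι) (Sum.elim a a) e he
    obtain ⟨η0, hη0, hsl⟩ := nhds_slice hπ hY hp x
      (e := fun k : (ι ⊕ ι) × (ι ⊕ ι) =>
        (star ((Sum.elim a a : ι ⊕ ι → A) k.1 * w k.1) *
          ((Sum.elim a a : ι ⊕ ι → A) k.2 * w k.2) -
          (if k.1 = k.2 then star ((Sum.elim a a : ι ⊕ ι → A) k.1) *
            (Sum.elim a a : ι ⊕ ι → A) k.1 else 0))) he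
      (fun t ht hpt k => hw2 t ⟨ht, hpt⟩ k.1 k.2)
    refine ⟨η0, hη0, fun i => w (Sum.inl i), fun i => w (Sum.inr i), fun i => hw1 _,
      fun i => hw1 _, fun t ht hpt => ⟨fun i j => ?_, fun i j => ?_, fun i j => ?_⟩⟩
    · have := (hsl t ht hpt (Sum.inl i, Sum.inl j)).le
      simpa only [Sum.elim_inl, Sum.inl.injEq] using this
    · have := (hsl t ht hpt (Sum.inr i, Sum.inr j)).le
      simpa only [Sum.elim_inr, Sum.inr.injEq] using this
    · have := (hsl t ht hpt (Sum.inl i, Sum.inr j)).le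
      simpa only [Sum.elim_inl, Sum.elim_inr, reduceCtorEq, if_false, sub_zero] using this
  choose δ hδ hloc using hloc
  -- a Lebesgue number
  obtain ⟨δ0, hδ0, hleb⟩ := lebesgue_number_lemma_of_metric (isCompact_Icc (a := (0 : ℝ)) (b := 1))
    (c := fun x : ℝ => Metric.ball x (δ x)) (fun x => Metric.isOpen_ball)
    (fun x _ => Set.mem_iUnion.2 ⟨x, Metric.mem_ball_self (hδ x)⟩)
  obtain ⟨n, hn⟩ := exists_nat_one_div_lt hδ0
  have hunif : ∀ x : ℝ, 0 ≤ x → x ≤ 1 → ∃ D D1 : ι → A, (∀ i, ‖D i‖ ≤ C) ∧ (∀ i, ‖D1 i‖ ≤ C) ∧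
      ∀ t ∈ Y, |p t - x| < δ0 → Val π a D t e ∧ Val π a D1 t e ∧ Crs π a D D1 t e := by
    intro x hx0 hx1
    obtain ⟨y, hy⟩ := hleb x ⟨hx0, hx1⟩
    obtain ⟨D, D1, h1, h2, h3⟩ := hloc y
    refine ⟨D, D1, h1, h2, fun t ht hpt => h3 t ht ?_⟩
    have : p t ∈ Metric.ball x δ0 := by rw [Metric.mem_ball, Real.dist_eq]; exact hpt
    have := hy this
    rwa [Metric.mem_ball, Real.dist_eq] at this
  set K : ℝ := (n : ℝ) + 1 with hK
  have hK0 : 0 < K := by positivity
  -- the induction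
  have ind : ∀ k : ℕ, (k : ℝ) ≤ K → ∃ D D1 : ι → A, (∀ i, ‖D i‖ ≤ C) ∧ (∀ i, ‖D1 i‖ ≤ C) ∧
      (∀ t ∈ Y, |p t - k / K| < δ0 → Val π a D t e ∧ Val π a D1 t e ∧ Crs π a D D1 t e) ∧
      ∃ G : ι → A, (∀ t i, ‖π t (G i)‖ ≤ 2 * C ^ 2) ∧
        (∀ t ∈ Y, p t ≤ k / K → Val π a G t (3 * C * e)) ∧
        (∃ η : ℝ, 0 < η ∧ ∀ t, k / K - η ≤ p t → ∀ i, π t (G i) = π t (D i)) := by
    intro k
    induction k with
    | zero =>
      intro _
      obtain ⟨D, D1, h1, h2, h3⟩ := hunif 0 le_rfl zero_le_one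
      have h0 : ((0 : ℕ) : ℝ) / K = 0 := by simp
      rw [h0]
      refine ⟨D, D1, h1, h2, h3, D, fun t i => ?_, fun t ht hpt => ?_, 1, one_pos,
        fun t _ i => rfl⟩
      · exact ((NonUnitalStarAlgHom.norm_apply_le _ _).trans (h1 i)).trans (by nlinarith)
      · have hpt0 : p t = 0 := le_antisymm hpt (hp01 t ht).1
        refine (h3 t ht (by rw [hpt0]; simpa using hδ0)).1.mono (by nlinarith)
    | succ k ih =>
      intro hk
      have hk' : (k : ℝ) ≤ K := by push_cast at hk; linarith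
      obtain ⟨D, D1, h1, h2, h3, G, hG1, hG2, hG3⟩ := ih hk'
      obtain ⟨D', D1', h1', h2', h3'⟩ := hunif (((k + 1 : ℕ) : ℝ) / K) (by positivity)
        ((div_le_one hK0).2 hk)
      have hstep : ((k + 1 : ℕ) : ℝ) / K = k / K + 1 / K := by push_cast; ring
      have h1K : 1 / K < δ0 := hn
      have h1K0 : 0 < 1 / K := by positivity
      obtain ⟨G', hG1', hG2', hG3'⟩ := step hπ hY hp hC (c := k / K) (c' := ((k + 1 : ℕ) : ℝ) / K)
        (by rw [hstep]; linarith) he a D D1 D' D1' h1 h2 h1' h2'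
        (fun t ht hc hc' => h3 t ht (by rw [abs_lt]; constructor <;> linarith))
        (fun t ht hc hc' => h3' t ht (by rw [abs_lt]; constructor <;> linarith))
        hE G hG1 hG2 hG3
      exact ⟨D', D1', h1', h2', h3', G', hG1', hG2', hG3'⟩
  obtain ⟨-, -, -, -, -, G, hG1, hG2, -⟩ := ind (n + 1) (by push_cast; linarith)
  have h1 : (((n + 1 : ℕ) : ℝ)) / K = 1 := by
    rw [div_eq_one_iff_eq hK0.ne']; push_cast; rfl
  rw [h1] at hG2
  refine ⟨G, fun i => hπ.norm _ _ (by positivity) fun t => hG1 t i, fun t ht i j => ?_⟩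
  refine lt_of_le_of_lt (hG2 t ht (hp01 t ht).2 i j) ?_
  have h4 : 3 * C * e = 3 / 4 * ε := by
    rw [hedef]; field_simp
  rw [h4]; linarith

/-- at one point -/
theorem ec_point (hπ : FieldData π) (hB : ∀ t, Diag (B t)) {Y : Set X} (hY : Y.Subsingleton) :
    EC π 1 Y := by
  intro ι _ _ a ε hε
  rcases Y.eq_empty_or_nonempty with rfl | ⟨t, ht⟩
  · exact ⟨fun _ => 0, fun i => by simp, fun t ht => absurd ht (Set.notMem_empty t)⟩
  obtain ⟨d, hd1, hd2⟩ := hB t (Fintype.card ι) (fun k => π t (a ((Fintype.equivFin ι).symm k)))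
    ε hε
  choose y hy using fun i : ι => hπ.surj t (d (Fintype.equivFin ι i))
  choose z hz hz1 using fun i : ι => exists_lift (π t) (y i) one_pos (by rw [hy]; exact hd1 _)
  refine ⟨z, hz1, fun s hs i j => ?_⟩
  obtain rfl : s = t := hY hs ht
  have h1 := hd2 (Fintype.equivFin ι i) (Fintype.equivFin ι j)
  rw [Equiv.symm_apply_apply, Equiv.symm_apply_apply] at h1
  refine lt_of_le_of_lt (le_of_eq ?_) h1
  congr 1
  rw [map_sub, map_mul, map_star, map_mul, map_mul, hz, hz, hy, hy]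
  congr 1
  by_cases hij : i = j
  · rw [if_pos hij, if_pos (by rw [hij]), map_mul, map_star]
  · rw [if_neg hij, if_neg (fun h => hij ((Fintype.equivFin ι).injective h)), map_zero]

/-- the induction on the number of functions -/
theorem ec_dim (hπ : FieldData π) (hB : ∀ t, Diag (B t)) {N : ℕ} (p : Fin N → C(X, ℝ))
    (hp01 : ∀ i t, 0 ≤ p i t ∧ p i t ≤ 1) (hsep : ∀ s t, (∀ i, p i s = p i t) → s = t) (j : ℕ) :
    j ≤ N → ∃ C : ℝ, 1 ≤ C ∧ ∀ Y : Set X, IsClosed Y →
      (∀ s ∈ Y, ∀ t ∈ Y, ∀ i : Fin N, j ≤ (i : ℕ) → p i s = p i t) → EC π C Y := by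
  induction j with
  | zero =>
    intro _
    exact ⟨1, le_rfl, fun Y _ hYc => ec_point hπ hB fun s hs t ht =>
      hsep s t fun i => hYc s hs t ht i (Nat.zero_le _)⟩
  | succ j ih =>
    intro hj
    obtain ⟨C, hC, hCE⟩ := ih (by omega)
    refine ⟨2 * C ^ 2, by nlinarith, fun Y hY hYc => ?_⟩
    refine ec_glue hπ hY (p ⟨j, hj⟩).continuous (fun t _ => hp01 _ t) hC fun x => ?_
    refine hCE _ (hY.inter (isClosed_singleton.preimage (p ⟨j, hj⟩).continuous)) ?_
    rintro s ⟨hs, hsx⟩ t ⟨ht, htx⟩ i hi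
    rcases Nat.eq_or_lt_of_le hi with h | h
    · have : i = ⟨j, hj⟩ := Fin.ext h.symm
      rw [this]
      exact hsx.trans htx.symm
    · exact hYc s hs t ht i h

end

/-- The fibres are purely infinite iff the algebra is. -/
theorem eltPI_field {X : Type u} [TopologicalSpace X] {B : X → Type u}
    [∀ t, NonUnitalCStarAlgebra (B t)] [∀ t, PartialOrder (B t)] [∀ t, StarOrderedRing (B t)]
    {A : Type u} [NonUnitalCStarAlgebra A] [PartialOrder A] [StarOrderedRing A]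
    {π : ∀ t, A →⋆ₙₐ[ℂ] B t} (hπ : FieldData π) {N : ℕ} (p : Fin N → C(X, ℝ))
    (hsep : ∀ s t, (∀ i, p i s = p i t) → s = t) (hB : ∀ t, EltPI (B t)) : EltPI A := by
  -- bounded functions
  let q : Fin N → C(X, ℝ) := fun i =>
    ⟨fun t => (Real.arctan (p i t) + Real.pi / 2) / Real.pi, by
      refine Continuous.div_const ?_ _
      exact (Real.continuous_arctan.comp (p i).continuous).add continuous_const⟩
  have hq : ∀ i t, q i t = (Real.arctan (p i t) + Real.pi / 2) / Real.pi := fun i t => rfl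
  have hq01 : ∀ i t, 0 ≤ q i t ∧ q i t ≤ 1 := by
    intro i t
    have h1 := Real.arctan_lt_pi_div_two (p i t)
    have h2 := Real.neg_pi_div_two_lt_arctan (p i t)
    have h3 := Real.pi_pos
    rw [hq]
    refine ⟨div_nonneg (by linarith) h3.le, (div_le_one h3).2 (by linarith)⟩
  have hqs : ∀ s t, (∀ i, q i s = q i t) → s = t := by
    intro s t h
    refine hsep s t fun i => ?_
    have h1 := h i
    rw [hq, hq, div_left_inj' Real.pi_pos.ne'] at h1
    exact Real.arctan_injective (by linarith)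
  obtain ⟨C, hC, hCE⟩ := ec_dim hπ (fun t => diag_of_eltPI (B t) (hB t)) q hq01 hqs N le_rfl
  have hE := hCE Set.univ isClosed_univ (fun s _ t _ i hi => absurd i.2 (by omega))
  intro h h0 ε hε
  obtain ⟨k, rfl⟩ := CStarAlgebra.nonneg_iff_eq_star_mul_self.1 h0
  obtain ⟨d, -, hd⟩ := hE (Fin 2) (fun _ => k) (ε / 2) (by positivity)
  have key : ∀ i j, ‖star (k * d i) * (k * d j) - (if i = j then star k * k else 0)‖ ≤ ε / 2 :=
    fun i j => hπ.norm _ _ (by positivity) fun t => (hd t trivial i j).le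
  refine ⟨d 0, d 1, ?_, ?_, ?_⟩
  · have h1 := key 0 0
    rw [if_pos rfl] at h1
    have e1 : star (d 0) * (star k * k) * d 0 = star (k * d 0) * (k * d 0) := by
      rw [star_mul]; simp only [mul_assoc]
    rw [e1]; linarith
  · have h1 := key 1 1
    rw [if_pos rfl] at h1
    have e1 : star (d 1) * (star k * k) * d 1 = star (k * d 1) * (k * d 1) := by
      rw [star_mul]; simp only [mul_assoc]
    rw [e1]; linarith
  · have h1 := key 0 1
    rw [if_neg (by decide), sub_zero] at h1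
    have e1 : star (d 0) * (star k * k) * d 1 = star (k * d 0) * (k * d 1) := by
      rw [star_mul]; simp only [mul_assoc]
    rw [e1]; linarith

end Vale.Agent.P133.H681
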