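import Vale.Agent.P133.H681.Simple3

/-! P133 (helper681): fullness in simple C*-algebras. -/

open scoped ComplexOrder CStarAlgebra NNReal

namespace Vale.Agent.P133.H681

open Vale.Agent.P133 Vale.Agent.P133.Statement Vale.Agent.P133.H832 Vale.Agent.P133F

universe u

theorem order_unital {U : Type u} [CStarAlgebra U] [PartialOrder U] [StarOrderedRing U]
    {r g : U} (hr : star r = r) (hrg : r * r ≤ g) {δ : ℝ} (hδ : 0 < δ) :
    ∃ u : U, ‖star (u * r) * g * (u * r) - r * r‖ ≤ δ := by
  have hrr : 0 ≤ r * r := by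
    have := star_mul_self_nonneg r
    rwa [hr] at this
  have hg : 0 ≤ g := hrr.trans hrg
  set f : ℝ → ℝ := fun t => 1 / Real.sqrt (max t 0 + δ) with hf
  have hpos : ∀ t : ℝ, 0 < Real.sqrt (max t 0 + δ) := fun t =>
    Real.sqrt_pos.2 (add_pos_of_nonneg_of_pos (le_max_right _ _) hδ)
  have hfc : Continuous f := by
    rw [hf]
    refine continuous_const.div (by fun_prop) fun t => (hpos t).ne'
  set u : U := cfc f g with hu
  have hus : star u = u := by
    rw [hu]
    exact (cfc_predicate f g : IsSelfAdjoint (cfc f g)).star_eq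
  have hgsa : IsSelfAdjoint g := IsSelfAdjoint.of_nonneg hg
  have hspec : ∀ t ∈ spectrum ℝ g, 0 ≤ t := fun t ht => spectrum_nonneg_of_nonneg hg ht
  have hugu : u * g * u = cfc (fun t : ℝ => f t * t * f t) g := by
    rw [cfc_mul (fun t : ℝ => f t * t) f g (by fun_prop) (by fun_prop),
      cfc_mul f (fun t : ℝ => t) g (by fun_prop) (by fun_prop), cfc_id' ℝ g]
  have huu : u * u = cfc (fun t : ℝ => f t * f t) g := by
    rw [cfc_mul f f g (by fun_prop) (by fun_prop)]
  have hval : ∀ t : ℝ, 0 ≤ t → f t * f t = 1 / (t + δ) := by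
    intro t ht
    rw [hf]
    simp only
    rw [max_eq_left ht, div_mul_div_comm, one_mul, Real.mul_self_sqrt (by linarith)]
  have hone : 1 - u * g * u = (δ : ℝ) • (u * u) := by
    rw [hugu, huu, ← cfc_const_one ℝ g, ← cfc_sub (fun _ : ℝ => (1 : ℝ))
      (fun t : ℝ => f t * t * f t) g (by fun_prop) (by fun_prop),
      ← cfc_smul (δ : ℝ) (fun t : ℝ => f t * f t) g (by fun_prop)]
    refine cfc_congr fun t ht => ?_
    have ht0 := hspec t ht
    simp only [smul_eq_mul]
    rw [hval t ht0, mul_right_comm, hval t ht0]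
    field_simp
    ring
  have hn1 : ‖u * g * u‖ ≤ 1 := by
    rw [hugu]
    refine norm_cfc_le zero_le_one fun t ht => ?_
    have ht0 := hspec t ht
    rw [mul_right_comm, hval t ht0, Real.norm_of_nonneg (by positivity),
      one_div_mul_eq_div, div_le_one (by positivity)]
    linarith
  have hn2 : ‖u * r‖ * ‖u * r‖ ≤ 1 := by
    rw [← CStarRing.norm_self_mul_star (x := u * r), star_mul, hr, hus]
    have h1 : u * r * (r * u) = star u * (r * r) * u := by rw [hus]; simp only [mul_assoc]
    have h2 : star u * (r * r) * u ≤ star u * g * u := star_left_conjugate_le_conjugate hrg u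
    have h3 : 0 ≤ star u * (r * r) * u := star_left_conjugate_nonneg hrr u
    rw [h1]
    refine (CStarAlgebra.norm_le_norm_of_nonneg_of_le h3 h2).trans ?_
    rw [hus]; exact hn1
  refine ⟨u, ?_⟩
  have h1 : star (u * r) * g * (u * r) - r * r = -((δ : ℝ) • (star (u * r) * (u * r))) := by
    have h2 : star (u * r) * g * (u * r) = r * (u * g * u) * r := by
      rw [star_mul, hr, hus]; simp only [mul_assoc]
    have h3 : (δ : ℝ) • (star (u * r) * (u * r)) = r * ((δ : ℝ) • (u * u)) * r := by
      rw [star_mul, hr, hus, mul_smul_comm, smul_mul_assoc]; simp only [mul_assoc]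
    rw [h2, h3, ← hone, mul_sub, sub_mul, mul_one]
    abel
  rw [h1, norm_neg, norm_smul, CStarRing.norm_star_mul_self, Real.norm_of_nonneg hδ.le]
  nlinarith

section

variable {A : Type u} [NonUnitalCStarAlgebra A] [PartialOrder A] [StarOrderedRing A]

theorem order_lemma {r g : A} (hr : star r = r) (hrg : r * r ≤ g) {δ : ℝ} (hδ : 0 < δ) :
    ∃ d : A, ‖star d * g * d - r * r‖ ≤ δ := by
  have h1 : (r : Unitization ℂ A) * (r : Unitization ℂ A) ≤ (g : Unitization ℂ A) := by
    rw [← sub_nonneg, ← Unitization.inr_mul, ← Unitization.inr_sub, Unitization.inr_nonneg_iff]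
    exact sub_nonneg.2 hrg
  obtain ⟨u, hu⟩ := order_unital (r := (r : Unitization ℂ A))
    (by rw [← Unitization.inr_star, hr]) h1 hδ
  obtain ⟨d, hd⟩ := final_mem_iff.1 ((final_ideal A).left_mem u (final_mem_iff.2 ⟨r, rfl⟩))
  refine ⟨d, ?_⟩
  rw [hd, ← Unitization.inr_star, ← Unitization.inr_mul, ← Unitization.inr_mul,
    ← Unitization.inr_mul, ← Unitization.inr_sub, final_norm] at hu
  exact hu

theorem mul_self_le {a : A} (ha : 0 ≤ a) : a * a ≤ ‖a‖ • a := by
  set q : A := CFC.sqrt a with hq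
  have hqq : q * q = a := CFC.sqrt_mul_sqrt_self a ha
  have hqs : star q = q := (IsSelfAdjoint.of_nonneg (CFC.sqrt_nonneg a)).star_eq
  have h1 := CStarAlgebra.star_left_conjugate_le_norm_smul (a := q) (b := a)
    (hb := IsSelfAdjoint.of_nonneg ha)
  rw [hqs, hqq] at h1
  have h2 : q * a * q = a * a := by
    calc q * a * q = q * (q * q) * q := by rw [hqq]
      _ = (q * q) * (q * q) := by simp only [mul_assoc]
      _ = a * a := by rw [hqq]
  rwa [h2] at h1

theorem sum_le {m : ℕ} (w : Fin m → A) :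
    star (∑ l, w l) * (∑ l, w l) ≤ (m : ℝ) • ∑ l, star (w l) * w l := by
  have h1 : 0 ≤ ∑ l, ∑ l', star (w l - w l') * (w l - w l') :=
    Finset.sum_nonneg fun l _ => Finset.sum_nonneg fun l' _ => star_mul_self_nonneg _
  have h2 : ∑ l, ∑ l', star (w l - w l') * (w l - w l') =
      (2 : ℝ) • ((m : ℝ) • (∑ l, star (w l) * w l) - star (∑ l, w l) * (∑ l, w l)) := by
    have e1 : ∀ l l', star (w l - w l') * (w l - w l') =
        star (w l) * w l - star (w l) * w l' - star (w l') * w l + star (w l') * w l' := by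
      intro l l'
      rw [star_sub]; noncomm_ring
    simp only [e1, Finset.sum_add_distrib, Finset.sum_sub_distrib, Finset.sum_const,
      Finset.card_univ, Fintype.card_fin]
    rw [star_sum, Finset.sum_mul_sum, ← Finset.smul_sum,
      Finset.sum_comm (f := fun l l' => star (w l') * w l), two_smul,
      Nat.cast_smul_eq_nsmul]
    abel
  rw [h2] at h1
  have h3 := smul_nonneg (by norm_num : (0 : ℝ) ≤ 1 / 2) h1
  have h4 : (1 / 2 : ℝ) * 2 = 1 := by norm_num
  rw [smul_smul, h4, one_smul] at h3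
  exact sub_nonneg.1 h3

theorem full_pos (hA : IsSimpleC A) : FullPos A := by
  intro a h ha hane h0 ε hε
  set k : A := CFC.sqrt h with hk
  have hkk : k * k = h := CFC.sqrt_mul_sqrt_self h h0
  have hks : star k = k := (IsSelfAdjoint.of_nonneg (CFC.sqrt_nonneg h)).star_eq
  set ε1 : ℝ := min 1 (ε / (4 * (2 * ‖k‖ + 1))) with hε1
  have hε1p : 0 < ε1 := lt_min one_pos (by positivity)
  obtain ⟨m, r, s, hrs⟩ := hA a k hane ε1 hε1p
  set w : A := ∑ l, r l * a * s l with hw
  have hwk : ‖star w * w - h‖ ≤ ε / 4 := by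
    have h1 : star w * w - h = star w * (w - k) + star (w - k) * k := by
      rw [star_sub, hks, ← hkk]; noncomm_ring
    have h2 : ‖star w‖ ≤ ‖k‖ + 1 := by
      rw [norm_star]
      calc ‖w‖ = ‖k + (w - k)‖ := by rw [add_sub_cancel]
        _ ≤ ‖k‖ + ‖w - k‖ := norm_add_le _ _
        _ ≤ ‖k‖ + 1 := by linarith [min_le_left 1 (ε / (4 * (2 * ‖k‖ + 1)))]
    rw [h1]
    calc _ ≤ ‖star w * (w - k)‖ + ‖star (w - k) * k‖ := norm_add_le _ _
      _ ≤ (‖k‖ + 1) * ε1 + ε1 * ‖k‖ :=
          add_le_add (norm_mul_le_of_le h2 hrs.le)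
            (norm_mul_le_of_le ((norm_star _).le.trans hrs.le) le_rfl)
      _ = ε1 * (2 * ‖k‖ + 1) := by ring
      _ ≤ ε / (4 * (2 * ‖k‖ + 1)) * (2 * ‖k‖ + 1) :=
          mul_le_mul_of_nonneg_right (min_le_right _ _) (by positivity)
      _ = ε / 4 := by field_simp
  -- the upper bound
  set C : Fin m → ℝ := fun l => Real.sqrt (m * (‖star (r l) * r l‖ * ‖a‖)) with hC
  have hCC : ∀ l, C l * C l = m * (‖star (r l) * r l‖ * ‖a‖) := fun l =>
    Real.mul_self_sqrt (by positivity)
  set g : A := ∑ l, star (C l • s l) * a * (C l • s l) with hg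
  have hle : star w * w ≤ g := by
    refine (sum_le fun l => r l * a * s l).trans ?_
    rw [hg, Finset.smul_sum]
    refine Finset.sum_le_sum fun l _ => ?_
    have has : star a = a := (IsSelfAdjoint.of_nonneg ha).star_eq
    have h1 : star (r l * a * s l) * (r l * a * s l) =
        star (s l) * (star a * (star (r l) * r l) * a) * s l := by
      rw [star_mul, star_mul]; simp only [mul_assoc]
    have h2 : star a * (star (r l) * r l) * a ≤ ‖star (r l) * r l‖ • (star a * a) :=
      CStarAlgebra.star_left_conjugate_le_norm_smul (hb := IsSelfAdjoint.star_mul_self (r l))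
    have h3 : ‖star (r l) * r l‖ • (star a * a) ≤ ‖star (r l) * r l‖ • (‖a‖ • a) := by
      rw [has]
      exact smul_le_smul_of_nonneg_left (mul_self_le ha) (norm_nonneg _)
    have h4 := star_left_conjugate_le_conjugate (h2.trans h3) (s l)
    rw [h1]
    refine (smul_le_smul_of_nonneg_left h4 (Nat.cast_nonneg m)).trans (le_of_eq ?_)
    have h5 : star (C l • s l) * a * (C l • s l) = (C l * C l) • (star (s l) * a * s l) := by
      rw [star_smul, star_trivial (C l), smul_mul_assoc, smul_mul_assoc, mul_smul_comm, smul_smul]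
    rw [h5, hCC, smul_smul, mul_smul_comm, smul_mul_assoc, smul_smul]
  set ρ : A := CFC.sqrt (star w * w) with hρ
  have hρρ : ρ * ρ = star w * w := CFC.sqrt_mul_sqrt_self _ (star_mul_self_nonneg w)
  have hρs : star ρ = ρ := (IsSelfAdjoint.of_nonneg (CFC.sqrt_nonneg _)).star_eq
  obtain ⟨d, hd⟩ := order_lemma (g := g) hρs (hρρ.trans_le hle) (δ := ε / 4) (by positivity)
  refine ⟨m, fun l => (C l • s l) * d, ?_⟩
  have h1 : ∑ l, star ((C l • s l) * d) * a * ((C l • s l) * d) = star d * g * d := by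
    rw [hg, Finset.mul_sum, Finset.sum_mul]
    refine Finset.sum_congr rfl fun l _ => ?_
    rw [star_mul]; simp only [mul_assoc]
  rw [h1]
  calc _ = ‖(star d * g * d - ρ * ρ) + (star w * w - h)‖ := by
        rw [hρρ]; congr 1; abel
    _ ≤ _ := norm_add_le _ _
    _ < ε := by linarith

/-- Question (b) for simple C*-algebras. -/
theorem wpi_simple (hA : IsSimpleC A) (hW : WeaklyPurelyInfinite A) : EltPI A :=
  wpi_simple_of hA (full_pos hA) hW

end

end Vale.Agent.P133.H681
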