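import Vale.Agent.P133F.Defs
import Vale.Agent.P133.H832.TameDef

/-! P133 (helper681): definitions for the generic form of question (b). -/

open scoped ComplexOrder

namespace Vale.Agent.P133.H681

open Vale.Agent.P133.Statement Vale.Agent.P133.H832 Vale.Agent.P133F

universe u

variable {A : Type u} [NonUnitalCStarAlgebra A] [PartialOrder A] [StarOrderedRing A]

/-- the matrix `diag (a, 0, ..., 0)` of size `m + 1` -/
def corner (m : ℕ) (a : A) : CStarMatrix (Fin (m + 1)) (Fin (m + 1)) A :=
  CStarMatrix.ofMatrix (Matrix.diagonal fun i => if i = 0 then a else 0)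

/-- All multiples of `c` are Cuntz below `a`: `diag (c, ..., c) ≾ diag (a, 0, ..., 0)` for every
size. For `c = a` this says that `a` is properly infinite (or zero). -/
def AllBelow (a c : A) : Prop :=
  ∀ m : ℕ, CuntzLE (diagN (m + 1) c) (corner m a)

/-- `D` is contained in the closed ideal `⟨a⟩` generated by `a` and essential in it: every closed
ideal inside `⟨a⟩` that meets `D` only in zero is zero. -/
def IsEssentialIn (D : Submodule ℂ A) (a : A) : Prop :=
  (∀ x ∈ D, InId a x) ∧ ∀ K : Submodule ℂ A, IsClosedIdeal K → (∀ x ∈ K, InId a x) →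
    (∀ x ∈ K, x ∈ D → x = 0) → ∀ x ∈ K, x = 0

end Vale.Agent.P133.H681
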