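import Vale.Agent.P133.H681.Tame4
import Vale.Agent.P133.H832.Tame2

/-! P133 (helper681): weakly purely infinite C*-algebras with tame ideals. -/

open scoped ComplexOrder CStarAlgebra NNReal

namespace Vale.Agent.P133.H681

open Vale.Agent.P133 Vale.Agent.P133.Statement Vale.Agent.P133.H832 Vale.Agent.P133F

universe u

section

variable {A : Type u} [NonUnitalCStarAlgebra A] [PartialOrder A] [StarOrderedRing A]

theorem inId_cut_of_unit {e d : A} (he : 0 ≤ e) (hed : e * d = d) {δ : ℝ} (hδ : 0 < δ)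
    (hδ1 : δ < 1) : InId (cfcₙ (fun t : ℝ => max (t - δ) 0) (e * e * e)) d := by
  have hes : star e = e := (IsSelfAdjoint.of_nonneg he).star_eq
  have hE0 : 0 ≤ e * e * e := by
    have := star_left_conjugate_nonneg he e
    rwa [hes] at this
  set l : A := cfcₙ (fun t : ℝ => max (t - δ) 0) (e * e * e) with hl
  have hm : ‖e * e * e - l‖ ≤ δ := by
    rw [← norm_neg, neg_sub]
    exact (cutdown_le hE0 hδ).2.2
  set m : A := e * e * e - l with hmdef
  have hEd : e * e * e * d = d := by
    rw [mul_assoc, hed, mul_assoc, hed, hed]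
  have h0 : d - m * d = l * d := by
    rw [hmdef, sub_mul, hEd]; abel
  let f : A → A := fun x => m * x
  have hstep : ∀ k : ℕ, InId l (f^[k] d - f^[k + 1] d) := by
    intro k
    induction k with
    | zero =>
      have : f^[0] d - f^[0 + 1] d = l * d := h0
      rw [this]
      exact InId.mulR (InId.refl l) d
    | succ k ih =>
      rw [Function.iterate_succ_apply' f (k + 1), Function.iterate_succ_apply' f k]
      have : f (f^[k] d) - f (f^[k + 1] d) = m * (f^[k] d - f^[k + 1] d) := (mul_sub _ _ _).symm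
      rw [Function.iterate_succ_apply' f k] at this ih
      rw [this]
      exact InId.mulL ih m
  have hall : ∀ k : ℕ, InId l (d - f^[k] d) := by
    intro k
    induction k with
    | zero =>
      have : d - f^[0] d = 0 := sub_self d
      rw [this]
      exact InId.zero l
    | succ k ih =>
      have : d - f^[k + 1] d = (d - f^[k] d) + (f^[k] d - f^[k + 1] d) := by abel
      rw [this]
      exact ih.add (hstep k)
  have hn : ∀ k : ℕ, ‖f^[k] d‖ ≤ δ ^ k * ‖d‖ := by
    intro k
    induction k with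
    | zero => simp
    | succ k ih =>
      rw [Function.iterate_succ_apply' f k, pow_succ]
      calc ‖m * f^[k] d‖ ≤ δ * (δ ^ k * ‖d‖) := norm_mul_le_of_le hm ih
        _ = _ := by ring
  refine InId.lim fun ε hε => ?_
  obtain ⟨k, hk⟩ := exists_pow_lt_of_lt_one (show 0 < ε / (‖d‖ + 1) by positivity) hδ1
  refine ⟨_, hall k, ?_⟩
  have e1 : d - f^[k] d - d = -(f^[k] d) := by abel
  rw [e1, norm_neg]
  calc ‖f^[k] d‖ ≤ δ ^ k * ‖d‖ := hn k
    _ ≤ δ ^ k * (‖d‖ + 1) := by gcongr; linarith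
    _ < ε / (‖d‖ + 1) * (‖d‖ + 1) := by gcongr
    _ = ε := by field_simp

/-- Question (b) for C*-algebras with tame ideals. -/
theorem eltPI_tame (hA : IsTameC A) (hW : WeaklyPurelyInfinite A) : EltPI A := by
  obtain ⟨n, hn⟩ := wpi_elementwise hW
  intro a a0 ε hε
  obtain ⟨J, hJ, hJa, hJm⟩ := exists_maxIdeal a
  have haJ : a ∈ J := by
    by_contra haJ
    obtain ⟨B, i1, i2, i3, ψ, hψ, hψJ, hψa, hprime⟩ := exists_prime_quotient hJ a0 haJ
    obtain ⟨c, hc0, hc, hac⟩ := exists_infB hn hψ hprime a0 hψa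
    have hcJ : c ∉ J := fun h => hc (hψJ c h)
    obtain ⟨e, d, he0, hed, hce, heJ, hcap⟩ := hA J hJ c hcJ
    have hes : star e = e := (IsSelfAdjoint.of_nonneg he0).star_eq
    have hae : InfB a e := hac.sub (H832.subId_of_inId' hc0 he0 hce)
    obtain ⟨B', i1', i2', i3', φ, hφ, hφJ⟩ := hJ.quot
    have hE0 : 0 ≤ e * e * e := by
      have := star_left_conjugate_nonneg he0 e
      rwa [hes] at this
    have hcut : ∀ δ : ℝ, 0 < δ → δ < 1 →
        cfcₙ (fun t : ℝ => max (t - δ) 0) (e * e * e) ∈ J := by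
      intro δ hδ hδ1
      refine hJm _ (cfcₙ_nonneg fun s _ => le_max_right _ _) fun j hj hj0 => ?_
      exact merge φ hn a0 he0 (fun x hx => hJa x ((hφJ x).1 hx)) hae hδ (fun x hx hex =>
        InId.trans (inId_cut_of_unit he0 hed hδ hδ1) (hcap x ((hφJ x).1 hx) hex)) hj0
        ((hφJ j).2 hj)
    have hEJ : e * e * e ∈ J := by
      refine hJ.lim fun ε hε => ?_
      have h1 : 0 < min (1 / 2) (ε / 2) := lt_min (by norm_num) (half_pos hε)
      have h2 : min (1 / 2) (ε / 2) < 1 := lt_of_le_of_lt (min_le_left _ _) (by norm_num)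
      refine ⟨_, hcut _ h1 h2, ?_⟩
      have h3 := (cutdown_le hE0 h1).2.2
      exact lt_of_le_of_lt h3 (lt_of_le_of_lt (min_le_right _ _) (by linarith))
    refine heJ (hJ.of_star_mul_self ?_)
    rw [hes]
    refine hJ.of_star_mul_self ?_
    rw [star_mul, hes, ← mul_assoc]
    exact (hJ.2 e _ hEJ).2
  have hqs : star (CFC.sqrt a) = CFC.sqrt a :=
    (IsSelfAdjoint.of_nonneg (CFC.sqrt_nonneg a)).star_eq
  have hq : CFC.sqrt a ∈ J := by
    refine hJ.of_star_mul_self ?_
    rwa [hqs, CFC.sqrt_mul_sqrt_self a a0]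
  have hI : InfB a a := by
    have h1 := hJa _ hq
    rwa [hqs, CFC.sqrt_mul_sqrt_self a a0] at h1
  obtain ⟨r, hr⟩ := hI.2 2 ε hε
  refine ⟨r 0, r 1, ?_, ?_, ?_⟩
  · simpa using hr 0 0
  · simpa using hr 1 1
  · simpa using hr 0 1

end

end Vale.Agent.P133.H681
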