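import Vale.Agent.P133.H681.GenDef
import Vale.Agent.P133.H681.Tame5

/-! P133 (helper681): generic form of question (b). -/

open scoped ComplexOrder CStarAlgebra NNReal

namespace Vale.Agent.P133.H681

open Vale.Agent.P133 Vale.Agent.P133.Statement Vale.Agent.P133.H832 Vale.Agent.P133F

universe u

section

variable {A : Type u} [NonUnitalCStarAlgebra A] [PartialOrder A] [StarOrderedRing A]

theorem allBelow_of_infB {a c : A} (h : InfB a c) : AllBelow a c := by
  intro m ε hε
  obtain ⟨r, hr⟩ := h.2 (m + 1) (ε / (((m + 1 : ℕ) : ℝ) ^ 2 + 1)) (by positivity)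
  set x : CStarMatrix (Fin (m + 1)) (Fin (m + 1)) A :=
    CStarMatrix.ofMatrix fun i j => if i = 0 then r j else 0 with hxdef
  have hx : ∀ i j, x i j = if i = 0 then r j else 0 := fun i j => rfl
  have hpad : ∀ M : CStarMatrix (Fin (m + 1)) (Fin (m + 1)) A, pad 0 M = M := by
    intro M
    ext i j
    rw [pad_apply, dif_pos ⟨i.2, j.2⟩]
  have hc : ∀ i j, corner m a i j = if i = j then (if i = 0 then a else 0) else 0 := by
    intro i j
    show Matrix.diagonal (fun i => if i = 0 then a else 0) i j = _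
    rw [Matrix.diagonal_apply]
  have hd : ∀ i j, diagN (m + 1) c i j = if i = j then c else 0 := by
    intro i j
    show Matrix.diagonal (fun _ => c) i j = _
    rw [Matrix.diagonal_apply]
  refine ⟨0, x, ?_⟩
  rw [hpad, hpad]
  refine lt_of_le_of_lt (norm_le_sum _) ?_
  have e : ∀ i j : Fin (m + 1), ‖(star x * corner m a * x - diagN (m + 1) c) i j‖ ≤
      ε / (((m + 1 : ℕ) : ℝ) ^ 2 + 1) := by
    intro i j
    have e1 : (star x * corner m a * x) i j = star (r i) * a * r j := by
      have e2 : ∀ k, (star x * corner m a) i k = if k = 0 then star (r i) * a else 0 := by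
        intro k
        rw [CStarMatrix.mul_apply]
        simp only [CStarMatrix.star_apply, hx, hc]
        rw [Finset.sum_eq_single (0 : Fin (m + 1))]
        · by_cases hk : k = 0
          · rw [hk]; simp
          · have hk' : ¬ (0 : Fin (m + 1)) = k := fun h => hk h.symm
            simp [hk, hk']
        · intro l _ hl
          rw [if_neg hl, star_zero, zero_mul]
        · intro h2; exact absurd (Finset.mem_univ _) h2
      rw [CStarMatrix.mul_apply, Finset.sum_eq_single (0 : Fin (m + 1))]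
      · rw [e2, hx, if_pos rfl, if_pos rfl]
      · intro l _ hl
        rw [e2, if_neg hl, zero_mul]
      · intro h2; exact absurd (Finset.mem_univ _) h2
    rw [CStarMatrix.sub_apply, e1, hd]
    exact (hr i j).le
  refine lt_of_le_of_lt (Finset.sum_le_sum fun j _ => Finset.sum_le_sum fun i _ => e i j) ?_
  have hK : ∀ K : ℝ, 0 ≤ K → K * (K * (ε / (K ^ 2 + 1))) < ε := by
    intro K hK
    have h1 : K * (K * (ε / (K ^ 2 + 1))) = (K ^ 2 * ε) / (K ^ 2 + 1) := by ring
    rw [h1, div_lt_iff₀ (by positivity)]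
    linarith
  simp only [Finset.sum_const, Finset.card_univ, Fintype.card_fin, nsmul_eq_mul]
  exact hK _ (Nat.cast_nonneg _)

theorem inId_of_infB {a c : A} (h : InfB a c) : InId a c := by
  refine InId.lim fun ε hε => ?_
  obtain ⟨r, hr⟩ := h.2 1 ε hε
  have h1 := hr 0 0
  rw [if_pos rfl] at h1
  exact ⟨_, InId.term a (star (r 0)) (r 0), h1⟩

/-- membership in the maximal ideal -/
theorem mem_of_cap {n : ℕ} (hn : WPI A n) {a : A} (a0 : 0 ≤ a) {J : Submodule ℂ A}
    (hJ : IsClosedIdeal J) (hJa : ∀ x ∈ J, InfB a (star x * x))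
    (hJm : ∀ g : A, 0 ≤ g → (∀ j ∈ J, 0 ≤ j → InfB a (j + g)) → g ∈ J) {e : A} (he0 : 0 ≤ e)
    (hae : InfB a e) (hcap : ∀ x ∈ J, InId e x → x = 0) : e ∈ J := by
  have hes : star e = e := (IsSelfAdjoint.of_nonneg he0).star_eq
  obtain ⟨B', i1', i2', i3', φ, hφ, hφJ⟩ := hJ.quot
  have hE0 : 0 ≤ e * e * e := by
    have := star_left_conjugate_nonneg he0 e
    rwa [hes] at this
  have hcut : ∀ δ : ℝ, 0 < δ → cfcₙ (fun t : ℝ => max (t - δ) 0) (e * e * e) ∈ J := by
    intro δ hδ
    refine hJm _ (cfcₙ_nonneg fun s _ => le_max_right _ _) fun j hj hj0 => ?_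
    refine merge φ hn a0 he0 (fun x hx => hJa x ((hφJ x).1 hx)) hae hδ (fun x hx hex => ?_) hj0
      ((hφJ j).2 hj)
    rw [hcap x ((hφJ x).1 hx) hex]
    exact InId.zero _
  have hEJ : e * e * e ∈ J := by
    refine hJ.lim fun ε hε => ?_
    refine ⟨_, hcut _ (half_pos hε), ?_⟩
    have h3 := (cutdown_le hE0 (half_pos hε)).2.2
    linarith
  refine hJ.of_star_mul_self ?_
  rw [hes]
  refine hJ.of_star_mul_self ?_
  rw [star_mul, hes, ← mul_assoc]
  exact (hJ.2 e _ hEJ).2

theorem isClosedIdeal_bot : IsClosedIdeal (⊥ : Submodule ℂ A) := by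
  refine ⟨?_, fun b x hx => ?_⟩
  · rw [Submodule.bot_coe]; exact isClosed_singleton
  · rw [Submodule.mem_bot] at hx
    rw [hx, mul_zero, zero_mul]
    exact ⟨Submodule.zero_mem _, Submodule.zero_mem _⟩

/-- local proper infiniteness -/
theorem exists_below (hW : WeaklyPurelyInfinite A) {a : A} (a0 : 0 ≤ a) {J : Submodule ℂ A}
    (hJ : IsClosedIdeal J) (haJ : a ∉ J) : ∃ c : A, 0 ≤ c ∧ c ∉ J ∧ AllBelow a c := by
  obtain ⟨n, hn⟩ := wpi_elementwise hW
  obtain ⟨B, i1, i2, i3, ψ, hψ, hψJ, hψa, hprime⟩ := exists_prime_quotient hJ a0 haJ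
  obtain ⟨c, hc0, hc, hac⟩ := exists_infB hn hψ hprime a0 hψa
  exact ⟨c, hc0, fun h => hc (hψJ c h), allBelow_of_infB hac⟩

/-- generic proper infiniteness -/
theorem exists_essential (hW : WeaklyPurelyInfinite A) {a : A} (a0 : 0 ≤ a) :
    ∃ D : Submodule ℂ A, IsClosedIdeal D ∧ IsEssentialIn D a ∧
      ∀ c ∈ D, 0 ≤ c → AllBelow a c := by
  obtain ⟨n, hn⟩ := wpi_elementwise hW
  obtain ⟨D, hD, hDa, hDm⟩ := exists_maxIdeal a
  obtain ⟨I, hI, hI'⟩ := isClosedIdeal_inId a
  refine ⟨D, hD, ⟨fun x hx => ?_, fun K hK hKa hKD x hx => ?_⟩, fun c hc hc0 => ?_⟩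
  · exact (hI' x).1 (hI.of_star_mul_self ((hI' _).2 (inId_of_infB (hDa x hx))))
  · by_contra hxne
    set b : A := star x * x with hb
    have hb0 : 0 ≤ b := star_mul_self_nonneg x
    have hbK : b ∈ K := (hK.2 _ _ hx).1
    have hbne : b ∉ (⊥ : Submodule ℂ A) := fun h =>
      hxne ((Submodule.mem_bot ℂ).1 (isClosedIdeal_bot.of_star_mul_self h))
    obtain ⟨B, i1, i2, i3, ψ, hψ, -, hψb, hprime⟩ :=
      exists_prime_quotient isClosedIdeal_bot hb0 hbne
    have hψa : ψ a ≠ 0 := by
      intro h0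
      refine hψb (zero_of_small fun ε hε => ?_)
      obtain ⟨m, r, s, hrs⟩ := hKa b hbK ε hε
      have h1 : ψ (∑ k, r k * a * s k) = 0 := by
        rw [map_sum]
        refine Finset.sum_eq_zero fun k _ => ?_
        rw [map_mul, map_mul, h0, mul_zero, zero_mul]
      have h2 : ψ b = -ψ (∑ k, r k * a * s k - b) := by
        rw [map_sub, h1, zero_sub, neg_neg]
      rw [h2, norm_neg]
      exact (NonUnitalStarAlgHom.norm_apply_le ψ _).trans hrs.le
    obtain ⟨c, hc0, hc, hac⟩ := exists_infB hn hψ hprime a0 hψa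
    obtain ⟨w, hw⟩ := hprime c b hc hψb
    set v : A := c * w * b with hv
    set e : A := star v * v with he
    have he0 : 0 ≤ e := star_mul_self_nonneg v
    have hvK : v ∈ K := (hK.2 _ _ hbK).1
    have heK : e ∈ K := (hK.2 _ _ hvK).1
    have hce : InId c e := InId.mulL (InId.mulR (InId.mulR (InId.refl c) w) b) (star v)
    have hae : InfB a e := hac.sub (H832.subId_of_inId' hc0 he0 hce)
    have heD : e ∈ D := mem_of_cap hn a0 hD hDa hDm he0 hae fun y hy hey =>
      hKD y (hK.inId heK hey) hy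
    have hez : e = 0 := hKD e heK heD
    refine hw ?_
    have hv0 : v = 0 := (Submodule.mem_bot ℂ).1 (isClosedIdeal_bot.of_star_mul_self
      ((Submodule.mem_bot ℂ).2 hez))
    rw [hv0, map_zero]
  · refine allBelow_of_infB ?_
    have hqs : star (CFC.sqrt c) = CFC.sqrt c :=
      (IsSelfAdjoint.of_nonneg (CFC.sqrt_nonneg c)).star_eq
    have hq : CFC.sqrt c ∈ D := by
      refine hD.of_star_mul_self ?_
      rwa [hqs, CFC.sqrt_mul_sqrt_self c hc0]
    have h1 := hDa _ hq
    rwa [hqs, CFC.sqrt_mul_sqrt_self c hc0] at h1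

end

end Vale.Agent.P133.H681
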