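import Vale.Agent.P133.H681.WpiIdeal
import Vale.Agent.P133F.Final

/-! P133 (helper681): unconditional forms; dense unions of ideals. -/

open scoped ComplexOrder ZeroAtInfty ENNReal

namespace Vale.Agent.P133.H681

open Vale.Agent.P133 Vale.Agent.P133.Statement Vale.Agent.P133.H832 Vale.Agent.P133F

universe u v w

/-- (a), as an equivalence -/
theorem pi_iff_spi (A : Type u) [NonUnitalCStarAlgebra A] [PartialOrder A] [StarOrderedRing A] :
    PurelyInfinite A ↔ StronglyPurelyInfinite A :=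
  ⟨fun h => spi_of_eltPI A (eltPI_of A h), pi_of_spi⟩

theorem pi_of_eltPI {A : Type u} [NonUnitalCStarAlgebra A] [PartialOrder A] [StarOrderedRing A]
    (h : EltPI A) : PurelyInfinite A := pi_of_spi (spi_of_eltPI A h)

theorem wpi_iff_pi_of {A : Type u} [NonUnitalCStarAlgebra A] [PartialOrder A] [StarOrderedRing A]
    (h : WeaklyPurelyInfinite A → PurelyInfinite A) :
    (WeaklyPurelyInfinite A ↔ PurelyInfinite A) ∧ (PurelyInfinite A ↔ StronglyPurelyInfinite A) :=
  ⟨⟨h, wpi_of_pi⟩, pi_iff_spi A⟩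

/-- bounded products of algebras of finite nuclear dimension, with no bound on the dimensions -/
theorem lp_uncond {I : Type v} (B : I → Type u) [∀ i, NonUnitalCStarAlgebra (B i)]
    [∀ i, PartialOrder (B i)] [∀ i, StarOrderedRing (B i)]
    [PartialOrder (lp B ∞)] [StarOrderedRing (lp B ∞)]
    (hB : ∀ i, ∃ d : ℕ, NuclearDimensionLE (B i) d) :
    (WeaklyPurelyInfinite (lp B ∞) ↔ PurelyInfinite (lp B ∞)) ∧
      (PurelyInfinite (lp B ∞) ↔ StronglyPurelyInfinite (lp B ∞)) :=
  wpi_iff_pi_of (b_lp B fun i h => (Vale.Agent.P133F.main (hB i).choose_spec h).1)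

/-- continuous functions with values in an algebra of finite nuclear dimension -/
theorem c0_uncond (A : Type u) [NonUnitalCStarAlgebra A] [PartialOrder A] [StarOrderedRing A]
    (X : Type v) [TopologicalSpace X] [Nonempty X] [LocallyCompactSpace X] [T2Space X]
    [PartialOrder C₀(X, A)] [StarOrderedRing C₀(X, A)]
    (hA : ∃ d : ℕ, NuclearDimensionLE A d) :
    (WeaklyPurelyInfinite C₀(X, A) ↔ PurelyInfinite C₀(X, A)) ∧
      (PurelyInfinite C₀(X, A) ↔ StronglyPurelyInfinite C₀(X, A)) :=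
  wpi_iff_pi_of (b_c0 A X fun h => (Vale.Agent.P133F.main hA.choose_spec h).1)

/-- Elements near an ideal. -/
theorem eltPI_near {I : Type u} [NonUnitalCStarAlgebra I] [PartialOrder I] [StarOrderedRing I]
    {A : Type v} [NonUnitalCStarAlgebra A] [PartialOrder A] [StarOrderedRing A]
    (φ : I →⋆ₙₐ[ℂ] A) (hid : ∀ (a : A) (x : I), ∃ y, φ y = a * φ x)
    (hI : EltPI I) (h : A) (h0 : 0 ≤ h) {ε : ℝ} (hε : 0 < ε) (z : I) (hz : ‖h - φ z‖ < ε / 8) :
    ∃ x y : A, ‖star x * h * x - h‖ < ε ∧ ‖star y * h * y - h‖ < ε ∧ ‖star x * h * y‖ < ε := by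
  obtain ⟨g, hgs, hg1, hgz⟩ := exists_g z (ε := ε / 8) (by positivity)
  obtain ⟨k, rfl⟩ := CStarAlgebra.nonneg_iff_eq_star_mul_self.1 h0
  obtain ⟨y0, hy0⟩ := hid k g
  set e := φ g with he
  have hes : star e = e := by rw [he, ← map_star, hgs]
  have he1 : ‖e‖ ≤ 1 := (NonUnitalStarAlgHom.norm_apply_le φ g).trans hg1
  have hm : φ (star y0 * y0) = e * (star k * k) * e := by
    rw [map_mul, map_star, hy0, star_mul, hes]
    simp only [mul_assoc]
  -- `e h e` is close to `h`
  have hclose : ‖e * (star k * k) * e - star k * k‖ < ε / 2 := by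
    have e1 : e * (star k * k) * e - star k * k =
        e * (star k * k - φ z) * e + φ (g * z * g - z) - (star k * k - φ z) := by
      rw [mul_sub, sub_mul, map_sub, map_mul, map_mul, ← he]
      abel
    rw [e1]
    calc _ ≤ ‖e * (star k * k - φ z) * e‖ + ‖φ (g * z * g - z)‖ + ‖star k * k - φ z‖ :=
          (norm_sub_le _ _).trans (by gcongr; exact norm_add_le _ _)
      _ ≤ 1 * (ε / 8) * 1 + ε / 8 + ε / 8 := by
          refine add_le_add (add_le_add ?_ ?_) hz.le
          · exact norm_mul_le_of_le (norm_mul_le_of_le he1 hz.le) he1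
          · exact (NonUnitalStarAlgHom.norm_apply_le φ _).trans hgz
      _ < ε / 2 := by linarith
  obtain ⟨u, v, h1, h2, h3⟩ := hI (star y0 * y0) (star_mul_self_nonneg _) (ε / 2) (by positivity)
  have main : ∀ w : I, ‖star w * (star y0 * y0) * w - star y0 * y0‖ < ε / 2 →
      ‖star (e * φ w) * (star k * k) * (e * φ w) - star k * k‖ < ε := by
    intro w hw
    have e2 : star (e * φ w) * (star k * k) * (e * φ w) - star k * k =
        φ (star w * (star y0 * y0) * w - star y0 * y0) +
          (e * (star k * k) * e - star k * k) := by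
      rw [map_sub, hm, map_mul, map_mul, hm, map_star, star_mul, hes]
      simp only [mul_assoc]
      abel
    rw [e2]
    calc _ ≤ ‖φ (star w * (star y0 * y0) * w - star y0 * y0)‖ +
          ‖e * (star k * k) * e - star k * k‖ := norm_add_le _ _
      _ < ε / 2 + ε / 2 :=
          add_lt_add (lt_of_le_of_lt (NonUnitalStarAlgHom.norm_apply_le φ _) hw) hclose
      _ = ε := by ring
  refine ⟨e * φ u, e * φ v, main u h1, main v h2, ?_⟩
  have e3 : star (e * φ u) * (star k * k) * (e * φ v) = φ (star u * (star y0 * y0) * v) := by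
    rw [map_mul, map_mul, hm, map_star, star_mul, hes]
    simp only [mul_assoc]
  rw [e3]
  calc _ ≤ _ := NonUnitalStarAlgHom.norm_apply_le φ _
    _ < ε / 2 := h3
    _ < ε := by linarith

/-- Dense unions of ideals. -/
theorem eltPI_union {J : Type w} {I : J → Type u} [∀ j, NonUnitalCStarAlgebra (I j)]
    [∀ j, PartialOrder (I j)] [∀ j, StarOrderedRing (I j)]
    {A : Type v} [NonUnitalCStarAlgebra A] [PartialOrder A] [StarOrderedRing A]
    (φ : ∀ j, I j →⋆ₙₐ[ℂ] A) (hid : ∀ j (a : A) (x : I j), ∃ y, φ j y = a * φ j x)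
    (hd : Dense (⋃ j, Set.range (φ j)))
    (hI : ∀ j, EltPI (I j)) : EltPI A := by
  intro h h0 ε hε
  obtain ⟨b, hb, hbd⟩ := Metric.dense_iff.1 hd h (ε / 8) (by positivity)
  obtain ⟨j, z, rfl⟩ := Set.mem_iUnion.1 hbd
  refine eltPI_near (φ j) (hid j) (hI j) h h0 hε z ?_
  rw [← dist_eq_norm, dist_comm]
  exact hb

/-- Question (b) passes to dense unions of ideals. -/
theorem b_union {J : Type w} {I : J → Type u} [∀ j, NonUnitalCStarAlgebra (I j)]
    [∀ j, PartialOrder (I j)] [∀ j, StarOrderedRing (I j)]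
    {A : Type v} [NonUnitalCStarAlgebra A] [PartialOrder A] [StarOrderedRing A]
    (φ : ∀ j, I j →⋆ₙₐ[ℂ] A) (hφ : ∀ j, Function.Injective (φ j))
    (hid : ∀ j (a : A) (x : I j), ∃ y, φ j y = a * φ j x)
    (hd : Dense (⋃ j, Set.range (φ j)))
    (hI : ∀ j, WeaklyPurelyInfinite (I j) → PurelyInfinite (I j))
    (h : WeaklyPurelyInfinite A) : PurelyInfinite A :=
  pi_of_eltPI (eltPI_union φ hid hd fun j =>
    eltPI_of _ (hI j (wpi_of_ideal (φ j) (hφ j) (hid j) h)))

end Vale.Agent.P133.H681
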