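import Vale.Agent.P133.H681.Generic
import Vale.Agent.P133.H832.Diag
import Vale.Agent.P133.H681.WpiUncond

/-! P133 (helper681): question (b) is the question whether sums of elements with all multiples
below `a` have this property. -/

open scoped ComplexOrder CStarAlgebra NNReal

namespace Vale.Agent.P133.H681

open Vale.Agent.P133 Vale.Agent.P133.Statement Vale.Agent.P133.H832 Vale.Agent.P133F

universe u

section

variable {A : Type u} [NonUnitalCStarAlgebra A] [PartialOrder A] [StarOrderedRing A]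

theorem infB_of_allBelow {a c : A} (hc : 0 ≤ c) (h : AllBelow a c) : InfB a c := by
  refine ⟨hc, fun m ε hε => ?_⟩
  obtain ⟨n, x, hx⟩ := h m ε hε
  let ι : Fin m → Fin (m + 1 + n) := fun i => ⟨i, by omega⟩
  let z0 : Fin (m + 1 + n) := ⟨0, by omega⟩
  have hpa : ∀ k l, pad n (corner m a) k l = if k = z0 ∧ l = z0 then a else 0 := by
    intro k l
    rw [pad_apply]
    by_cases h1 : (k : ℕ) < m + 1 ∧ (l : ℕ) < m + 1
    · rw [dif_pos h1]
      show Matrix.diagonal (fun i => if i = 0 then a else 0) (⟨k, h1.1⟩ : Fin (m + 1)) ⟨l, h1.2⟩ = _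
      rw [Matrix.diagonal_apply]
      by_cases h2 : (k : ℕ) = 0
      · by_cases h3 : (l : ℕ) = 0
        · rw [if_pos (Fin.ext (by simp [h2, h3])), if_pos (Fin.ext (by simpa using h2)),
            if_pos ⟨Fin.ext h2, Fin.ext h3⟩]
        · rw [if_neg (fun h4 => h3 (by
            have := congrArg Fin.val h4
            simp only at this
            omega)), if_neg (fun h4 => h3 (congrArg Fin.val h4.2))]
      · have h5 : ¬ (k = z0 ∧ l = z0) := fun h4 => h2 (congrArg Fin.val h4.1)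
        have h6 : ¬ ((⟨k, h1.1⟩ : Fin (m + 1)) = 0) := fun h4 => h2 (by
          have := congrArg Fin.val h4
          simpa using this)
        rw [if_neg h5]
        split_ifs
        · rfl
        · rfl
    · rw [dif_neg h1, if_neg]
      rintro ⟨h2, h3⟩
      refine h1 ⟨?_, ?_⟩
      · rw [h2]; exact Nat.succ_pos m
      · rw [h3]; exact Nat.succ_pos m
  have hpc : ∀ i j : Fin m, pad n (diagN (m + 1) c) (ι i) (ι j) = if i = j then c else 0 := by
    intro i j
    have h1 : ((ι i : Fin (m + 1 + n)) : ℕ) < m + 1 ∧ ((ι j : Fin (m + 1 + n)) : ℕ) < m + 1 :=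
      ⟨Nat.lt_succ_of_lt i.2, Nat.lt_succ_of_lt j.2⟩
    rw [pad_apply, dif_pos h1]
    show Matrix.diagonal (fun _ => c) (⟨ι i, h1.1⟩ : Fin (m + 1)) ⟨ι j, h1.2⟩ = _
    rw [Matrix.diagonal_apply]
    by_cases hij : i = j
    · subst hij
      rw [if_pos rfl, if_pos rfl]
    · rw [if_neg hij, if_neg]
      intro h2
      have h3 : (i : ℕ) = (j : ℕ) := congrArg (fun t : Fin (m + 1) => (t : ℕ)) h2
      exact hij (Fin.ext h3)
  refine ⟨fun i => x z0 (ι i), fun i j => ?_⟩
  have e1 : (star x * pad n (corner m a) * x) (ι i) (ι j) =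
      star (x z0 (ι i)) * a * x z0 (ι j) := by
    have e2 : ∀ k, (star x * pad n (corner m a)) (ι i) k =
        if k = z0 then star (x z0 (ι i)) * a else 0 := by
      intro k
      rw [CStarMatrix.mul_apply]
      simp only [CStarMatrix.star_apply, hpa]
      rw [Finset.sum_eq_single z0]
      · by_cases hk : k = z0
        · simp [hk]
        · simp [hk]
      · intro l _ hl
        rw [if_neg (fun h1 => hl h1.1), mul_zero]
      · intro h2; exact absurd (Finset.mem_univ _) h2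
    rw [CStarMatrix.mul_apply, Finset.sum_eq_single z0]
    · rw [e2, if_pos rfl]
    · intro l _ hl
      rw [e2, if_neg hl, zero_mul]
    · intro h2; exact absurd (Finset.mem_univ _) h2
  rw [← e1, ← hpc, ← CStarMatrix.sub_apply]
  exact (CStarMatrix.norm_entry_le_norm).trans_lt hx

theorem exists_ideal' {a : A} (hadd : ∀ c c' : A, InfB a c → InfB a c' → InfB a (c + c')) :
    ∃ J : Submodule ℂ A, IsClosed (J : Set A) ∧ (∀ a x : A, x ∈ J → a * x ∈ J) ∧
      (∀ a x : A, x ∈ J → x * a ∈ J) ∧ (∀ x ∈ J, star x ∈ J) ∧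
      ∀ x, x ∈ J ↔ InfB a (star x * x) := by
  refine ideal_of_cone (InfB a) ?_ ?_ ?_ ?_ hadd
  · exact ⟨le_rfl, fun m ε hε => ⟨fun _ => 0, fun i j => by simpa using hε⟩⟩
  · intro c hc h
    exact infB_lim hc h
  · intro c c' l hc hc' hl hle
    exact hc.sub (SubId.of_le hc' hl hle)
  · intro c t hc
    exact hc.sub (SubId.conj hc.1 t)

theorem pi_of_sum (hW : WeaklyPurelyInfinite A)
    (h : ∀ a c c' : A, 0 ≤ a → 0 ≤ c → 0 ≤ c' → AllBelow a c → AllBelow a c' →
      AllBelow a (c + c')) : PurelyInfinite A := by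
  refine pi_of_eltPI ?_
  intro a a0 ε hε
  obtain ⟨J, h1, h2, h3, h4, hJJ⟩ := exists_ideal' (a := a) (fun c c' hc hc' =>
    infB_of_allBelow (add_nonneg hc.1 hc'.1)
      (h a c c' a0 hc.1 hc'.1 (allBelow_of_infB hc) (allBelow_of_infB hc')))
  have hJ : IsClosedIdeal J := ⟨h1, fun a x hx => ⟨h2 a x hx, h3 a x hx⟩⟩
  have haJ : a ∈ J := by
    by_contra haJ
    obtain ⟨c, hc0, hc, hac⟩ := exists_below hW a0 hJ haJ
    have hac' := infB_of_allBelow hc0 hac
    refine hc ?_
    have hqs : star (CFC.sqrt c) = CFC.sqrt c :=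
      (IsSelfAdjoint.of_nonneg (CFC.sqrt_nonneg c)).star_eq
    have hq : CFC.sqrt c ∈ J := by
      rw [hJJ, hqs, CFC.sqrt_mul_sqrt_self c hc0]
      exact hac'
    rw [← CFC.sqrt_mul_sqrt_self c hc0]
    exact h2 _ _ hq
  have hqs : star (CFC.sqrt a) = CFC.sqrt a :=
    (IsSelfAdjoint.of_nonneg (CFC.sqrt_nonneg a)).star_eq
  have hq : CFC.sqrt a ∈ J := by
    refine hJ.of_star_mul_self ?_
    rwa [hqs, CFC.sqrt_mul_sqrt_self a a0]
  have hI : InfB a a := by
    have h1 := (hJJ _).1 hq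
    rwa [hqs, CFC.sqrt_mul_sqrt_self a a0] at h1
  obtain ⟨r, hr⟩ := hI.2 2 ε hε
  refine ⟨r 0, r 1, ?_, ?_, ?_⟩
  · simpa using hr 0 0
  · simpa using hr 1 1
  · simpa using hr 0 1

theorem sum_of_pi (hPI : PurelyInfinite A) (a c c' : A) (a0 : 0 ≤ a) (c0 : 0 ≤ c) (c'0 : 0 ≤ c')
    (h : AllBelow a c) (h' : AllBelow a c') : AllBelow a (c + c') := by
  have hD : Diag A := diag_of_eltPI A (eltPI_of A hPI)
  have hqs : star (CFC.sqrt a) = CFC.sqrt a :=
    (IsSelfAdjoint.of_nonneg (CFC.sqrt_nonneg a)).star_eq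
  have haa : InfB a a := by
    refine ⟨a0, fun m ε hε => ?_⟩
    obtain ⟨d, _, hd⟩ := hD m (fun _ => CFC.sqrt a) ε hε
    refine ⟨d, fun i j => ?_⟩
    have h1 := hd i j
    have e1 : star (CFC.sqrt a * d i) * (CFC.sqrt a * d j) = star (d i) * a * d j := by
      rw [star_mul, hqs]
      calc _ = star (d i) * (CFC.sqrt a * CFC.sqrt a) * d j := by simp only [mul_assoc]
        _ = _ := by rw [CFC.sqrt_mul_sqrt_self a a0]
    rwa [e1, hqs, CFC.sqrt_mul_sqrt_self a a0] at h1
  exact allBelow_of_infB (haa.sub (H832.subId_of_inId' a0 (add_nonneg c0 c'0)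
    ((inId_of_infB (infB_of_allBelow c0 h)).add (inId_of_infB (infB_of_allBelow c'0 h')))))

end

end Vale.Agent.P133.H681
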