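import Vale.Agent.P133.H681.PairBOf

/-! P133 (helper681): dimension free gluing. For a purely infinite `A` and a finite net there are
two continuous functions `G₀, G₁ : A → A`, vanishing at `0`, with `Gᵢ(a)* a² Gⱼ(a) ≈ δᵢⱼ a²` for all
positive contractions `a` near the net. -/

open scoped ComplexOrder

namespace Vale.Agent.P133.H681

universe u

section alg

variable {A : Type u} [NonUnitalCStarAlgebra A]

theorem off_sum {ι : Type} [Fintype ι] [DecidableEq ι] (β : ι → ι → A) (v : ι → ℝ)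
    (hv0 : ∀ m, 0 ≤ v m) (hv1 : ∀ m, v m ≤ 1) {η : ℝ} (hη : 0 ≤ η)
    (hβ : ∀ m m', m ≠ m' → ‖β m m'‖ ≤ η) :
    ‖∑ m, ∑ m', (v m * v m') • β m m' - ∑ m, (v m * v m) • β m m‖ ≤
      (Fintype.card ι : ℝ) ^ 2 * η := by
  have e : ∑ m, ∑ m', (v m * v m') • β m m' - ∑ m, (v m * v m) • β m m =
      ∑ m, ∑ m', if m = m' then 0 else (v m * v m') • β m m' := by
    rw [← Finset.sum_sub_distrib]
    refine Finset.sum_congr rfl fun m _ => ?_
    have h1 : (v m * v m) • β m m = ∑ m', if m = m' then (v m * v m') • β m m' else 0 := by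
      rw [Finset.sum_ite_eq]; simp
    rw [h1, ← Finset.sum_sub_distrib]
    refine Finset.sum_congr rfl fun m' _ => ?_
    split_ifs with h
    · rw [sub_self]
    · rw [sub_zero]
  rw [e]
  calc _ ≤ ∑ m : ι, ∑ m' : ι, η := by
        refine (norm_sum_le _ _).trans (Finset.sum_le_sum fun m _ => ?_)
        refine (norm_sum_le _ _).trans (Finset.sum_le_sum fun m' _ => ?_)
        split_ifs with h
        · rw [norm_zero]; exact hη
        · rw [norm_smul, Real.norm_of_nonneg (mul_nonneg (hv0 _) (hv0 _))]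
          calc v m * v m' * ‖β m m'‖ ≤ 1 * η := by
                refine mul_le_mul ?_ (hβ _ _ h) (norm_nonneg _) zero_le_one
                exact mul_le_one₀ (hv1 _) (hv0 _) (hv1 _)
            _ = η := one_mul _
    _ = (Fintype.card ι : ℝ) ^ 2 * η := by
        simp only [Finset.sum_const, Finset.card_univ, nsmul_eq_mul]; ring

theorem all_sum {ι : Type} [Fintype ι] (β : ι → ι → A) (v : ι → ℝ)
    (hv0 : ∀ m, 0 ≤ v m) (hv1 : ∀ m, v m ≤ 1) {η : ℝ}
    (hβ : ∀ m m', ‖β m m'‖ ≤ η) :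
    ‖∑ m, ∑ m', (v m * v m') • β m m'‖ ≤ (Fintype.card ι : ℝ) ^ 2 * η := by
  calc _ ≤ ∑ m : ι, ∑ m' : ι, η := by
        refine (norm_sum_le _ _).trans (Finset.sum_le_sum fun m _ => ?_)
        refine (norm_sum_le _ _).trans (Finset.sum_le_sum fun m' _ => ?_)
        rw [norm_smul, Real.norm_of_nonneg (mul_nonneg (hv0 _) (hv0 _))]
        calc v m * v m' * ‖β m m'‖ ≤ 1 * η := by
              refine mul_le_mul ?_ (hβ _ _) (norm_nonneg _) zero_le_one
              exact mul_le_one₀ (hv1 _) (hv0 _) (hv1 _)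
          _ = η := one_mul _
    _ = (Fintype.card ι : ℝ) ^ 2 * η := by
        simp only [Finset.sum_const, Finset.card_univ, nsmul_eq_mul]; ring

theorem expand {ι : Type} [Fintype ι] (d d' : ι → A) (v : ι → ℝ) (Y : A) :
    star (∑ m, v m • d m) * Y * (∑ m, v m • d' m) =
      ∑ m, ∑ m', (v m * v m') • (star (d m) * Y * d' m') := by
  rw [star_sum, Finset.sum_mul, Finset.sum_mul]
  refine Finset.sum_congr rfl fun m _ => ?_
  rw [Finset.mul_sum]
  refine Finset.sum_congr rfl fun m' _ => ?_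
  simp only [star_smul, smul_mul_assoc, mul_smul_comm, smul_smul, star_trivial]
  rw [mul_comm (v m')]

theorem expand' {ι : Type} [Fintype ι] (d d' : ι → A) (v : ι → ℝ) :
    star (∑ m, v m • d m) * (∑ m, v m • d' m) =
      ∑ m, ∑ m', (v m * v m') • (star (d m) * d' m') := by
  rw [star_sum, Finset.sum_mul]
  refine Finset.sum_congr rfl fun m _ => ?_
  rw [Finset.mul_sum]
  refine Finset.sum_congr rfl fun m' _ => ?_
  simp only [star_smul, smul_mul_assoc, mul_smul_comm, smul_smul, star_trivial]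
  rw [mul_comm (v m')]

/-- convex combinations -/
theorem wsum_le {ι : Type} [Fintype ι] (β : ι → A) (p : ι → ℝ) (hp : ∀ m, 0 ≤ p m)
    (hp1 : ∑ m, p m ≤ 1) {r : ℝ} (hr : 0 ≤ r) (hβ : ∀ m, p m ≠ 0 → ‖β m‖ ≤ r) :
    ‖∑ m, p m • β m‖ ≤ r := by
  calc ‖∑ m, p m • β m‖ ≤ ∑ m, p m * r := by
        refine (norm_sum_le _ _).trans (Finset.sum_le_sum fun m _ => ?_)
        rw [norm_smul, Real.norm_of_nonneg (hp m)]
        by_cases h : p m = 0
        · rw [h, zero_mul, zero_mul]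
        · exact mul_le_mul_of_nonneg_left (hβ m h) (hp m)
    _ = (∑ m, p m) * r := by rw [Finset.sum_mul]
    _ ≤ 1 * r := mul_le_mul_of_nonneg_right hp1 hr
    _ = r := one_mul _

/-- the data of one point of the gluing -/
structure Pt {ι : Type} [Fintype ι] (x : ι → A) (a : A) (v : ι → ℝ) (v0 e : ℝ) : Prop where
  he0 : 0 ≤ e
  he1 : e ≤ 1 / 2
  ha : ‖a‖ ≤ 1
  hxn : ∀ m, ‖x m‖ ≤ 1
  hv : ∀ m, 0 ≤ v m
  hv0 : 0 ≤ v0
  hsum : ∑ m, v m * v m + v0 = 1
  hx : ∀ m, v m ≠ 0 → ‖a - x m‖ ≤ 2 * e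
  h0 : v0 ≠ 0 → ‖a‖ ≤ 2 * e

namespace Pt

variable {ι : Type} [Fintype ι] {x : ι → A} {a : A} {v : ι → ℝ} {v0 e : ℝ}

theorem sum_le (P : Pt x a v v0 e) : ∑ m, v m * v m ≤ 1 := by
  have := P.hsum; have := P.hv0; linarith

theorem v_le (P : Pt x a v v0 e) (m : ι) : v m ≤ 1 := by
  have h1 : v m * v m ≤ ∑ m, v m * v m :=
    Finset.single_le_sum (f := fun m => v m * v m) (fun i _ => mul_self_nonneg _)
      (Finset.mem_univ m)
  have h2 := P.sum_le
  nlinarith [P.hv m]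

theorem sq_near (P : Pt x a v v0 e) {m : ι} (hm : v m ≠ 0) : ‖a * a - x m * x m‖ ≤ 4 * e := by
  have h := P.hx m hm
  have e1 : a * a - x m * x m = a * (a - x m) + (a - x m) * x m := by
    rw [mul_sub, sub_mul]; abel
  rw [e1]
  calc _ ≤ ‖a * (a - x m)‖ + ‖(a - x m) * x m‖ := norm_add_le _ _
    _ ≤ 1 * (2 * e) + (2 * e) * 1 :=
        add_le_add (norm_mul_le_of_le P.ha h) (norm_mul_le_of_le h (P.hxn m))
    _ = 4 * e := by ring

/-- `y = ∑ v² x²` -/
theorem y_near (P : Pt x a v v0 e) :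
    ‖a * a - ∑ m, (v m * v m) • (x m * x m)‖ ≤ 4 * e := by
  have he := P.he0
  have h1 : a * a = ∑ m, (v m * v m) • (a * a) + v0 • (a * a) := by
    rw [← Finset.sum_smul, ← add_smul, P.hsum, one_smul]
  have h2 : a * a - ∑ m, (v m * v m) • (x m * x m) =
      ∑ o : Option ι, (match o with | none => v0 | some m => v m * v m) •
        (match o with | none => a * a | some m => a * a - x m * x m) := by
    rw [Fintype.sum_option]
    simp only [smul_sub, Finset.sum_sub_distrib]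
    nth_rewrite 1 [h1]
    abel
  rw [h2]
  refine wsum_le _ _ ?_ ?_ (by linarith) ?_
  · rintro (_ | m)
    · exact P.hv0
    · exact mul_self_nonneg _
  · rw [Fintype.sum_option]
    have := P.hsum
    simp only
    linarith
  · rintro (_ | m) hm
    · have h3 := P.h0 hm
      calc ‖a * a‖ ≤ 1 * (2 * e) := norm_mul_le_of_le P.ha h3
        _ ≤ 4 * e := by linarith
    · exact P.sq_near (fun h => hm (by simp [h]))

theorem mid_le (P : Pt x a v v0 e) {η : ℝ} (hη : 0 ≤ η) {d d' : A}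
    (h : ∀ k, ‖star d * (x k * x k) * d'‖ ≤ η) :
    ‖star d * (∑ k, (v k * v k) • (x k * x k)) * d'‖ ≤ η := by
  have e1 : star d * (∑ k, (v k * v k) • (x k * x k)) * d' =
      ∑ k, (v k * v k) • (star d * (x k * x k) * d') := by
    rw [Finset.mul_sum, Finset.sum_mul]
    refine Finset.sum_congr rfl fun k _ => ?_
    simp only [smul_mul_assoc, mul_smul_comm]
  rw [e1]
  exact wsum_le _ _ (fun _ => mul_self_nonneg _) P.sum_le hη (fun k _ => h k)

variable [DecidableEq ι]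

/-- norm of the glued element -/
theorem glued_norm (P : Pt x a v v0 e) {C η : ℝ} (hC : 0 ≤ C) (hη : 0 ≤ η) {d : ι → A}
    (hd : ∀ m, ‖d m‖ ≤ C) (hdd : ∀ m m', m ≠ m' → ‖star (d m) * d m'‖ ≤ η) :
    ‖∑ m, v m • d m‖ ^ 2 ≤ C ^ 2 + (Fintype.card ι : ℝ) ^ 2 * η := by
  rw [sq, ← CStarRing.norm_star_mul_self, expand']
  have h1 := off_sum (fun m m' => star (d m) * d m') v P.hv P.v_le hη hdd
  have h2 : ‖∑ m, (v m * v m) • (star (d m) * d m)‖ ≤ C ^ 2 := by
    refine wsum_le _ _ (fun _ => mul_self_nonneg _) P.sum_le (by positivity) (fun m _ => ?_)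
    rw [CStarRing.norm_star_mul_self]
    calc ‖d m‖ * ‖d m‖ ≤ C * C := mul_le_mul (hd m) (hd m) (norm_nonneg _) hC
      _ = C ^ 2 := by ring
  calc _ = ‖(∑ m, ∑ m', (v m * v m') • (star (d m) * d m') -
        ∑ m, (v m * v m) • (star (d m) * d m)) + ∑ m, (v m * v m) • (star (d m) * d m)‖ := by
        rw [sub_add_cancel]
    _ ≤ _ := norm_add_le _ _
    _ ≤ (Fintype.card ι : ℝ) ^ 2 * η + C ^ 2 := add_le_add h1 h2
    _ = _ := by ring

omit [DecidableEq ι] in
theorem swap_est (P : Pt x a v v0 e) {R : ℝ} {S S' : A} (hS : ‖S‖ ^ 2 ≤ R)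
    (hS' : ‖S'‖ ^ 2 ≤ R) :
    ‖star S * (a * a - ∑ m, (v m * v m) • (x m * x m)) * S'‖ ≤ 4 * e * R := by
  have h := P.y_near
  have he := P.he0
  have h1 : ‖S‖ * ‖S'‖ ≤ R := by nlinarith [norm_nonneg S, norm_nonneg S', sq_nonneg (‖S‖ - ‖S'‖)]
  calc _ ≤ ‖star S * (a * a - ∑ m, (v m * v m) • (x m * x m))‖ * ‖S'‖ := norm_mul_le _ _
    _ ≤ (‖star S‖ * ‖a * a - ∑ m, (v m * v m) • (x m * x m)‖) * ‖S'‖ :=
        mul_le_mul_of_nonneg_right (norm_mul_le _ _) (norm_nonneg _)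
    _ ≤ (‖S‖ * (4 * e)) * ‖S'‖ := by
        rw [norm_star]
        exact mul_le_mul_of_nonneg_right (mul_le_mul_of_nonneg_left h (norm_nonneg _))
          (norm_nonneg _)
    _ = 4 * e * (‖S‖ * ‖S'‖) := by ring
    _ ≤ 4 * e * R := mul_le_mul_of_nonneg_left h1 (by linarith)

/-- the cross estimate -/
theorem cross (P : Pt x a v v0 e) {C η : ℝ} (hC : 0 ≤ C) (hη : 0 ≤ η) {d d' : ι → A}
    (hd : ∀ m, ‖d m‖ ≤ C) (hdd : ∀ m m', m ≠ m' → ‖star (d m) * d m'‖ ≤ η)
    (hd' : ∀ m, ‖d' m‖ ≤ C) (hdd' : ∀ m m', m ≠ m' → ‖star (d' m) * d' m'‖ ≤ η)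
    (hmid : ∀ m m' k, ‖star (d m) * (x k * x k) * d' m'‖ ≤ η) :
    ‖star (∑ m, v m • d m) * (a * a) * (∑ m, v m • d' m)‖ ≤
      4 * e * (C ^ 2 + (Fintype.card ι : ℝ) ^ 2 * η) + (Fintype.card ι : ℝ) ^ 2 * η := by
  have e1 : star (∑ m, v m • d m) * (a * a) * (∑ m, v m • d' m) =
      star (∑ m, v m • d m) * (a * a - ∑ m, (v m * v m) • (x m * x m)) * (∑ m, v m • d' m) +
      star (∑ m, v m • d m) * (∑ m, (v m * v m) • (x m * x m)) * (∑ m, v m • d' m) := by
    rw [← add_mul, ← mul_add, sub_add_cancel]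
  rw [e1]
  refine (norm_add_le _ _).trans (add_le_add ?_ ?_)
  · exact P.swap_est (P.glued_norm hC hη hd hdd) (P.glued_norm hC hη hd' hdd')
  · rw [expand]
    exact all_sum _ v P.hv P.v_le (fun m m' => P.mid_le hη (hmid m m'))

/-- the diagonal estimate -/
theorem diag (P : Pt x a v v0 e) {C η δ : ℝ} (hC : 0 ≤ C) (hη : 0 ≤ η) (hδ : 0 ≤ δ) {d : ι → A}
    (hd : ∀ m, ‖d m‖ ≤ C) (hdd : ∀ m m', m ≠ m' → ‖star (d m) * d m'‖ ≤ η)
    (hmid : ∀ m m' k, m ≠ m' → ‖star (d m) * (x k * x k) * d m'‖ ≤ η)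
    (hdg : ∀ m, ‖star (d m) * (x m * x m) * d m - x m * x m‖ ≤ δ) :
    ‖star (∑ m, v m • d m) * (a * a) * (∑ m, v m • d m) - a * a‖ ≤
      4 * e * (C ^ 2 + (Fintype.card ι : ℝ) ^ 2 * η) + (Fintype.card ι : ℝ) ^ 2 * η +
        (8 * e * C ^ 2 + δ) + 4 * e := by
  set y : A := ∑ m, (v m * v m) • (x m * x m) with hy
  have he := P.he0
  have e1 : star (∑ m, v m • d m) * (a * a) * (∑ m, v m • d m) - a * a =
      star (∑ m, v m • d m) * (a * a - y) * (∑ m, v m • d m) +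
      (star (∑ m, v m • d m) * y * (∑ m, v m • d m) -
        ∑ m, (v m * v m) • (star (d m) * y * d m)) +
      (∑ m, (v m * v m) • (star (d m) * y * d m) - y) + (y - a * a) := by
    have : star (∑ m, v m • d m) * (a * a) * (∑ m, v m • d m) =
      star (∑ m, v m • d m) * (a * a - y) * (∑ m, v m • d m) +
      star (∑ m, v m • d m) * y * (∑ m, v m • d m) := by
        rw [← add_mul, ← mul_add, sub_add_cancel]
    rw [this]; abel
  rw [e1]
  have f1 := P.swap_est (P.glued_norm hC hη hd hdd) (P.glued_norm hC hη hd hdd)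
  have f2 : ‖star (∑ m, v m • d m) * y * (∑ m, v m • d m) -
        ∑ m, (v m * v m) • (star (d m) * y * d m)‖ ≤ (Fintype.card ι : ℝ) ^ 2 * η := by
    rw [expand]
    exact off_sum (fun m m' => star (d m) * y * d m') v P.hv P.v_le hη
      (fun m m' hmm => P.mid_le hη (fun k => hmid m m' k hmm))
  have f3 : ‖∑ m, (v m * v m) • (star (d m) * y * d m) - y‖ ≤ 8 * e * C ^ 2 + δ := by
    have e2 : ∑ m, (v m * v m) • (star (d m) * y * d m) - y =
        ∑ m, (v m * v m) • (star (d m) * (y - x m * x m) * d m +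
          (star (d m) * (x m * x m) * d m - x m * x m)) := by
      nth_rewrite 2 [hy]
      rw [← Finset.sum_sub_distrib]
      refine Finset.sum_congr rfl fun m _ => ?_
      rw [← smul_sub]
      congr 1
      rw [mul_sub, sub_mul]; abel
    rw [e2]
    refine wsum_le _ _ (fun _ => mul_self_nonneg _) P.sum_le (by positivity) (fun m hm => ?_)
    have hvm : v m ≠ 0 := fun h => hm (by simp [h])
    have h3 : ‖y - x m * x m‖ ≤ 8 * e := by
      have h4 : y - x m * x m = -(a * a - y) + (a * a - x m * x m) := by abel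
      rw [h4]
      calc _ ≤ _ := norm_add_le _ _
        _ ≤ 4 * e + 4 * e := by
            rw [norm_neg]
            exact add_le_add P.y_near (P.sq_near hvm)
        _ = 8 * e := by ring
    refine (norm_add_le _ _).trans (add_le_add ?_ (hdg m))
    calc _ ≤ C * (8 * e) * C := by
          refine norm_mul_le_of_le (norm_mul_le_of_le ?_ h3) (hd m)
          rw [norm_star]; exact hd m
      _ = 8 * e * C ^ 2 := by ring
  have f4 : ‖y - a * a‖ ≤ 4 * e := by rw [norm_sub_rev]; exact P.y_near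
  calc _ ≤ _ := norm_add_le _ _
    _ ≤ _ := add_le_add (norm_add₃_le.trans (add_le_add (add_le_add f1 f2) f3)) f4

end Pt

end alg

end Vale.Agent.P133.H681
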