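import Vale.Agent.P133.H681.Glue

/-! P133 (helper681): the continuous functions `G₀, G₁ : A → A`. -/

open scoped ComplexOrder

namespace Vale.Agent.P133.H681

universe u

/-- bump at `x` of radius `e` -/
noncomputable def bump {A : Type u} [NonUnitalCStarAlgebra A] (e : ℝ) (x a : A) : ℝ :=
  max 0 (e - ‖a - x‖)

/-- the total weight, bounded below by `e / 2` -/
noncomputable def tot {A : Type u} [NonUnitalCStarAlgebra A] {n : ℕ} (e : ℝ) (x : Fin n → A)
    (a : A) : ℝ :=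
  max (e / 2) (bump (2 * e) 0 a + ∑ m, bump e (x m) a)

/-- the weights `√ψ` -/
noncomputable def wt {A : Type u} [NonUnitalCStarAlgebra A] {n : ℕ} (e : ℝ) (x : Fin n → A)
    (m : Fin n) (a : A) : ℝ :=
  Real.sqrt (bump e (x m) a / tot e x a)

section

variable {A : Type u} [NonUnitalCStarAlgebra A]

theorem bump_nonneg (e : ℝ) (x a : A) : 0 ≤ bump e x a := le_max_left _ _

theorem bump_cont (e : ℝ) (x : A) : Continuous (bump e x) := by
  unfold bump; fun_prop

theorem tot_cont {n : ℕ} (e : ℝ) (x : Fin n → A) : Continuous (tot e x) := by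
  unfold tot
  refine continuous_const.max ((bump_cont _ _).add ?_)
  exact continuous_finset_sum _ fun m _ => bump_cont _ _

theorem tot_pos {n : ℕ} {e : ℝ} (he : 0 < e) (x : Fin n → A) (a : A) : 0 < tot e x a :=
  lt_of_lt_of_le (by positivity) (le_max_left _ _)

theorem wt_cont {n : ℕ} {e : ℝ} (he : 0 < e) (x : Fin n → A) (m : Fin n) :
    Continuous (wt e x m) := by
  unfold wt
  exact Real.continuous_sqrt.comp ((bump_cont _ _).div (tot_cont _ _)
    (fun a => (tot_pos he x a).ne'))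

theorem wt_zero {n : ℕ} {e : ℝ} (x : Fin n → A) (m : Fin n) (hx : e ≤ ‖x m‖) :
    wt e x m 0 = 0 := by
  unfold wt bump
  rw [zero_sub, norm_neg, max_eq_left (by linarith), zero_div, Real.sqrt_zero]

theorem wt_sq {n : ℕ} {e : ℝ} (he : 0 < e) (x : Fin n → A) (m : Fin n) (a : A) :
    wt e x m a * wt e x m a = bump e (x m) a / tot e x a :=
  Real.mul_self_sqrt (div_nonneg (bump_nonneg _ _ _) (tot_pos he x a).le)

theorem tot_eq {n : ℕ} {e : ℝ} (he : 0 < e) (x : Fin n → A) {a : A}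
    (ha : ‖a‖ < e ∨ ∃ m, ‖a - x m‖ < e / 2) :
    tot e x a = bump (2 * e) 0 a + ∑ m, bump e (x m) a := by
  refine max_eq_right ?_
  rcases ha with ha | ⟨m, hm⟩
  · have h1 : e / 2 ≤ bump (2 * e) 0 a := by
      unfold bump
      rw [sub_zero]
      exact le_trans (by linarith) (le_max_right _ _)
    have h2 : 0 ≤ ∑ m, bump e (x m) a := Finset.sum_nonneg fun _ _ => bump_nonneg _ _ _
    linarith
  · have h1 : e / 2 ≤ bump e (x m) a := le_trans (by linarith) (le_max_right _ _)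
    have h2 : bump e (x m) a ≤ ∑ m, bump e (x m) a :=
      Finset.single_le_sum (f := fun m => bump e (x m) a) (fun _ _ => bump_nonneg _ _ _)
        (Finset.mem_univ m)
    have h3 := bump_nonneg (2 * e) 0 a
    linarith

theorem pt_of {n : ℕ} {e : ℝ} (he : 0 < e) (he1 : e ≤ 1 / 2) (x : Fin n → A)
    (hx1 : ∀ m, ‖x m‖ ≤ 1) {a : A} (ha1 : ‖a‖ ≤ 1)
    (ha : ‖a‖ < e ∨ ∃ m, ‖a - x m‖ < e / 2) :
    Pt x a (fun m => wt e x m a) (bump (2 * e) 0 a / tot e x a) e where
  he0 := he.le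
  he1 := he1
  ha := ha1
  hxn := hx1
  hv m := Real.sqrt_nonneg _
  hv0 := div_nonneg (bump_nonneg _ _ _) (tot_pos he x a).le
  hsum := by
    simp only [wt_sq he]
    rw [← Finset.sum_div, ← add_div, div_eq_one_iff_eq (tot_pos he x a).ne', tot_eq he x ha]
    ring
  hx m hm := by
    have h1 : bump e (x m) a ≠ 0 := by
      intro h
      apply hm
      simp only [wt, h, zero_div, Real.sqrt_zero]
    by_contra hcon
    push Not at hcon
    exact h1 (max_eq_left (by linarith))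
  h0 hm := by
    have h1 : bump (2 * e) 0 a ≠ 0 := by
      intro h
      apply hm
      rw [h, zero_div]
    by_contra hcon
    push Not at hcon
    refine h1 (max_eq_left ?_)
    rw [sub_zero]; linarith

end

/-- dimension free gluing -/
theorem glue (A : Type u) [NonUnitalCStarAlgebra A] [PartialOrder A] [StarOrderedRing A]
    (hpi : ∀ h : A, 0 ≤ h → ∀ ε : ℝ, 0 < ε → ∃ x y : A,
      ‖star x * h * x - h‖ < ε ∧ ‖star y * h * y - h‖ < ε ∧ ‖star x * h * y‖ < ε)
    {ε : ℝ} (hε : 0 < ε) :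
    ∃ e : ℝ, 0 < e ∧ ∀ (n : ℕ) (x : Fin n → A), (∀ m, 0 ≤ x m) → (∀ m, ‖x m‖ ≤ 1) →
      (∀ m, e ≤ ‖x m‖) → ∃ G₀ G₁ : A → A, Continuous G₀ ∧ Continuous G₁ ∧ G₀ 0 = 0 ∧
        G₁ 0 = 0 ∧ ∀ a : A, ‖a‖ ≤ 1 → (‖a‖ < e ∨ ∃ m, ‖a - x m‖ < e / 2) →
          ‖star (G₀ a) * (a * a) * G₀ a - a * a‖ ≤ ε ∧
          ‖star (G₁ a) * (a * a) * G₁ a - a * a‖ ≤ ε ∧
          ‖star (G₀ a) * (a * a) * G₁ a‖ ≤ ε := by
  set δ : ℝ := min (1 / 4) (ε / 24) with hδ
  have hδ0 : 0 < δ := lt_min (by norm_num) (by positivity)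
  have hδ1 : δ ≤ 1 / 4 := min_le_left _ _
  have hδε : δ ≤ ε / 24 := min_le_right _ _
  set C : ℝ := 2 / δ with hC
  have hC0 : 0 ≤ C := by positivity
  set e : ℝ := min (1 / 2) (ε / (64 * (C ^ 2 + 1))) with he
  have he0 : 0 < e := lt_min (by norm_num) (by positivity)
  have he1 : e ≤ 1 / 2 := min_le_left _ _
  have heC : e * (C ^ 2 + 1) ≤ ε / 64 := by
    calc e * (C ^ 2 + 1) ≤ ε / (64 * (C ^ 2 + 1)) * (C ^ 2 + 1) :=
          mul_le_mul_of_nonneg_right (min_le_right _ _) (by positivity)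
      _ = ε / 64 := by field_simp
  have heC2 : 0 ≤ e * C ^ 2 := by positivity
  refine ⟨e, he0, ?_⟩
  intro n x hx0 hx1 hxe
  set η : ℝ := min 1 (ε / 8) / ((n : ℝ) ^ 2 + 1) with hη
  have hm0 : 0 < min 1 (ε / 8) := lt_min one_pos (by positivity)
  have hη0 : 0 < η := by positivity
  have hnη : (n : ℝ) ^ 2 * η ≤ min 1 (ε / 8) := by
    calc (n : ℝ) ^ 2 * η ≤ ((n : ℝ) ^ 2 + 1) * η :=
          mul_le_mul_of_nonneg_right (by linarith) hη0.le
      _ = min 1 (ε / 8) := by rw [hη]; field_simp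
  have hnη1 : (n : ℝ) ^ 2 * η ≤ 1 := hnη.trans (min_le_left _ _)
  have hnη2 : (n : ℝ) ^ 2 * η ≤ ε / 8 := hnη.trans (min_le_right _ _)
  obtain ⟨D, hDn, hDd, hDo, hDm⟩ := family_nonunital A hpi (ι := Fin n × Bool) (κ := Fin n)
    (fun p => x p.1) (fun p => hx0 _) (fun p => hx1 _) (fun k => x k * x k) hδ0 hδ1 hη0
  refine ⟨fun a => ∑ m, wt e x m a • D (m, false), fun a => ∑ m, wt e x m a • D (m, true),
    ?_, ?_, ?_, ?_, ?_⟩
  · exact continuous_finset_sum _ fun m _ => (wt_cont he0 x m).smul continuous_const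
  · exact continuous_finset_sum _ fun m _ => (wt_cont he0 x m).smul continuous_const
  · exact Finset.sum_eq_zero fun m _ => by rw [wt_zero x m (hxe m), zero_smul]
  · exact Finset.sum_eq_zero fun m _ => by rw [wt_zero x m (hxe m), zero_smul]
  · intro a ha1 ha
    have P := pt_of he0 he1 x hx1 ha1 ha
    have hne : ∀ {m m' : Fin n} {c : Bool}, m ≠ m' → (m, c) ≠ (m', c) := by
      intro m m' c h h'
      exact h (congrArg Prod.fst h')
    have hcard : (Fintype.card (Fin n) : ℝ) = n := by simp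
    have hdiag : ∀ c : Bool, ‖star (∑ m, wt e x m a • D (m, c)) * (a * a) *
        (∑ m, wt e x m a • D (m, c)) - a * a‖ ≤ ε := by
      intro c
      refine (P.diag (δ := 3 * δ) hC0 hη0.le (by positivity) (d := fun m => D (m, c))
        (fun m => hDn _) (fun m m' h => hDo _ _ (hne h)) (fun m m' k h => hDm _ _ k (hne h))
        (fun m => hDd _)).trans ?_
      rw [hcard]
      have h1 : 4 * e * (C ^ 2 + (n : ℝ) ^ 2 * η) ≤ 4 * e * (C ^ 2 + 1) :=
        mul_le_mul_of_nonneg_left (by linarith) (by positivity)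
      nlinarith
    refine ⟨hdiag false, hdiag true, ?_⟩
    refine (P.cross hC0 hη0.le (d := fun m => D (m, false)) (d' := fun m => D (m, true))
      (fun m => hDn _) (fun m m' h => hDo _ _ (hne h)) (fun m => hDn _)
      (fun m m' h => hDo _ _ (hne h))
      (fun m m' k => hDm _ _ k (by simp))).trans ?_
    rw [hcard]
    have h1 : 4 * e * (C ^ 2 + (n : ℝ) ^ 2 * η) ≤ 4 * e * (C ^ 2 + 1) :=
      mul_le_mul_of_nonneg_left (by linarith) (by positivity)
    nlinarith

end Vale.Agent.P133.H681
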