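import Mathlib.Analysis.CStarAlgebra.Classes
import Mathlib.LinearAlgebra.Matrix.ConjTranspose
import Mathlib.Analysis.Complex.Basic

/-!
P133 (helper681): nuclear dimension, written without any order or norm on the
finite-dimensional algebras. In a C*-algebra (and in matrices over it) the positive elements are
the elements `star N * N`.
-/

namespace Vale.Agent.P133.ND

universe u v

/-- The finite-dimensional C*-algebra `⨁ b, M_{k b}(ℂ)`. -/
abbrev FD {r : ℕ} (k : Fin r → ℕ) : Type :=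
  (b : Fin r) → Matrix (Fin (k b)) (Fin (k b)) ℂ

/-- Complete positivity of a linear map `φ : B → C`: on `n × n` matrices, for all `n`, it maps
positive elements `M* M` to positive elements `N* N`. -/
def IsCP {B : Type u} {C : Type v} [NonUnitalRing B] [StarRing B] [Module ℂ B]
    [NonUnitalRing C] [StarRing C] [Module ℂ C] (φ : B →ₗ[ℂ] C) : Prop :=
  ∀ (n : ℕ) (M : Matrix (Fin n) (Fin n) B), ∃ N : Matrix (Fin n) (Fin n) C,
    (star M * M).map φ = star N * N

/-- A map on a finite-dimensional C*-algebra has order zero if it maps orthogonal positive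
elements to orthogonal elements. -/
def IsOrderZero {r : ℕ} {k : Fin r → ℕ} {A : Type u} [NonUnitalCStarAlgebra A]
    (φ : FD k →ₗ[ℂ] A) : Prop :=
  ∀ x y : FD k, star x * x * (star y * y) = 0 → φ (star x * x) * φ (star y * y) = 0

/-- `ψ : A → F` is contractive: `ψ(a)* ψ(a) ≤ ‖a‖² 1` for all `a`. -/
def ContrTo {r : ℕ} {k : Fin r → ℕ} {A : Type u} [NonUnitalCStarAlgebra A]
    (ψ : A →ₗ[ℂ] FD k) : Prop :=
  ∀ a : A, ∃ c : FD k, star (ψ a) * ψ a + star c * c = ((‖a‖ ^ 2 : ℝ) : ℂ) • (1 : FD k)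

/-- `φ : F → A` is contractive: `‖φ(x)‖ ≤ 1` for all `x` with `x* x ≤ 1`. -/
def ContrFrom {r : ℕ} {k : Fin r → ℕ} {A : Type u} [NonUnitalCStarAlgebra A]
    (φ : FD k →ₗ[ℂ] A) : Prop :=
  ∀ x c : FD k, star x * x + star c * c = 1 → ‖φ x‖ ≤ 1

/-- `A` has nuclear dimension at most `d`: for every finite subset `T` of `A` and `ε > 0` there are
finite-dimensional C*-algebras `F_0, …, F_d`, completely positive contractions `ψ_l : A → F_l` and
completely positive contractions `φ_l : F_l → A` of order zero with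
`‖φ_0 (ψ_0 a) + ⋯ + φ_d (ψ_d a) - a‖ < ε` for all `a ∈ T`. -/
def NuclearDimensionLE (A : Type u) [NonUnitalCStarAlgebra A] (d : ℕ) : Prop :=
  ∀ (T : Finset A) (ε : ℝ), 0 < ε →
    ∃ (r : Fin (d + 1) → ℕ) (k : (l : Fin (d + 1)) → Fin (r l) → ℕ)
      (ψ : (l : Fin (d + 1)) → (A →ₗ[ℂ] FD (k l))) (φ : (l : Fin (d + 1)) → (FD (k l) →ₗ[ℂ] A)),
      (∀ l, IsCP (ψ l) ∧ ContrTo (ψ l)) ∧
        (∀ l, IsCP (φ l) ∧ ContrFrom (φ l) ∧ IsOrderZero (φ l)) ∧
        ∀ a ∈ T, ‖∑ l, φ l (ψ l a) - a‖ < ε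

end Vale.Agent.P133.ND
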