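import Vale.Agent.P133.H681.FPlusB
import Vale.Agent.P133.H832.PairU

/-! P133 (helper681): `PairB` holds in every purely infinite ideal (from helper832's `pairU_rel`). -/

open scoped ComplexOrder

namespace Vale.Agent.P133.H681

open Vale.Agent.P133

universe u

variable {M : Type u} [CStarAlgebra M] [PartialOrder M] [StarOrderedRing M]

theorem pairB (A : CIdeal M) (hA : PIrel A) : PairB A := by
  intro δ hδ
  set δ' : ℝ := δ / 16 with hδ'
  have hδ'0 : 0 < δ' := by positivity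
  have hinv : 0 < δ'⁻¹ := by positivity
  refine ⟨1 + δ'⁻¹, by linarith, ?_⟩
  intro a ha b hb ha2 hb2 η hη
  set η' : ℝ := min (δ / 8) (η / 4) with hη'
  have hη'0 : 0 < η' := lt_min (by positivity) (by positivity)
  have hη1 : η' ≤ δ / 8 := min_le_left _ _
  have hη2 : η' ≤ η / 4 := min_le_right _ _
  have hn : ∀ {w : M}, ‖w‖ ≤ 2 → ‖(1 / 2 : ℝ) • w‖ ≤ 1 := by
    intro w hw
    rw [norm_smul, Real.norm_of_nonneg (by norm_num)]
    linarith
  obtain ⟨s, hs, t, ht, hs2, ht2, -, -, h1, h2, h3⟩ := H832.pairU_rel A hA hδ'0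
    (A.smul_mem (1 / 2) ha) (A.smul_mem (1 / 2) hb) (hn ha2) (hn hb2) hη'0
  have hb1 : ∀ {w : M}, ‖w‖ ^ 2 ≤ δ'⁻¹ → ‖w‖ ≤ 1 + δ'⁻¹ := by
    intro w hw
    nlinarith [norm_nonneg w, sq_nonneg (‖w‖ - 1)]
  have hdiag : ∀ {w r : M}, ‖star (((1 / 2 : ℝ) • w) * r) * (((1 / 2 : ℝ) • w) * r) -
      star ((1 / 2 : ℝ) • w) * ((1 / 2 : ℝ) • w)‖ ≤ 2 * δ' + η' →
      ‖star (w * r) * (w * r) - star w * w‖ ≤ δ := by
    intro w r h
    have e : star (((1 / 2 : ℝ) • w) * r) * (((1 / 2 : ℝ) • w) * r) -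
        star ((1 / 2 : ℝ) • w) * ((1 / 2 : ℝ) • w) =
        (1 / 4 : ℝ) • (star (w * r) * (w * r) - star w * w) := by
      simp only [smul_mul_assoc, star_smul, mul_smul_comm, smul_smul, smul_sub, star_trivial]
      norm_num
    rw [e, norm_smul, Real.norm_of_nonneg (by norm_num)] at h
    have : 2 * δ' + η' ≤ δ / 4 := by rw [hδ']; linarith
    linarith
  refine ⟨s, t, hb1 hs2, hb1 ht2, hdiag h1, hdiag h2, ?_⟩
  have e : star (((1 / 2 : ℝ) • a) * s) * (((1 / 2 : ℝ) • b) * t) =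
      (1 / 4 : ℝ) • (star (a * s) * (b * t)) := by
    simp only [smul_mul_assoc, star_smul, mul_smul_comm, smul_smul, star_trivial]
    norm_num
  rw [e, norm_smul, Real.norm_of_nonneg (by norm_num)] at h3
  linarith

/-- the family theorem with middle elements, unconditional form. -/
theorem family (A : CIdeal M) (hA : PIrel A) {ι κ : Type} [Fintype ι]
    [DecidableEq ι] [Fintype κ] [DecidableEq κ] (x : ι → M) (hx : ∀ i, PC A (x i)) (F : κ → M)
    {δ : ℝ} (hδ : 0 < δ) (hδ1 : δ ≤ 1 / 4) {η : ℝ} (hη : 0 < η) :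
    ∃ d : ι → M, (∀ i, d i ∈ A) ∧ (∀ i, ‖d i‖ ≤ 2 / δ) ∧
      (∀ i, ‖star (d i) * (x i * x i) * d i - x i * x i‖ ≤ 3 * δ) ∧
      ∀ i j k, i ≠ j → ‖star (d i) * F k * d j‖ ≤ η :=
  fam_plus A hA (pairB A hA) x hx F hδ hδ1 hη

/-- the same in a nonunital purely infinite C*-algebra (elementwise form of pure infiniteness). -/
theorem family_nonunital (A : Type u) [NonUnitalCStarAlgebra A] [PartialOrder A]
    [StarOrderedRing A]
    (hpi : ∀ h : A, 0 ≤ h → ∀ ε : ℝ, 0 < ε → ∃ x y : A,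
      ‖star x * h * x - h‖ < ε ∧ ‖star y * h * y - h‖ < ε ∧ ‖star x * h * y‖ < ε)
    {ι κ : Type} [Fintype ι] [DecidableEq ι] [Fintype κ] [DecidableEq κ] (x : ι → A)
    (hx0 : ∀ i, 0 ≤ x i) (hx1 : ∀ i, ‖x i‖ ≤ 1) (F : κ → A)
    {δ : ℝ} (hδ : 0 < δ) (hδ1 : δ ≤ 1 / 4) {η : ℝ} (hη : 0 < η) :
    ∃ d : ι → A, (∀ i, ‖d i‖ ≤ 2 / δ) ∧
      (∀ i, ‖star (d i) * (x i * x i) * d i - x i * x i‖ ≤ 3 * δ) ∧
      (∀ i j, i ≠ j → ‖star (d i) * d j‖ ≤ η) ∧
      ∀ i j k, i ≠ j → ‖star (d i) * F k * d j‖ ≤ η := by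
  have hP : PIrel (final_ideal A) := by
    intro h hh h0 ε hε
    obtain ⟨h, rfl⟩ := final_mem_iff.1 hh
    rw [Unitization.inr_nonneg_iff] at h0
    obtain ⟨u, v, h1, h2, h3⟩ := hpi h h0 ε hε
    refine ⟨(u : Unitization ℂ A), final_mem_iff.2 ⟨u, rfl⟩, (v : Unitization ℂ A),
      final_mem_iff.2 ⟨v, rfl⟩, ?_, ?_, ?_⟩
    · rw [← Unitization.inr_star, ← Unitization.inr_mul, ← Unitization.inr_mul,
        ← Unitization.inr_sub, final_norm]
      exact h1
    · rw [← Unitization.inr_star, ← Unitization.inr_mul, ← Unitization.inr_mul,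
        ← Unitization.inr_sub, final_norm]
      exact h2
    · rw [← Unitization.inr_star, ← Unitization.inr_mul, ← Unitization.inr_mul, final_norm]
      exact h3
  obtain ⟨d, hdA, hdn, hdd, hdo⟩ := family (final_ideal A) hP (ι := ι) (κ := Option κ)
    (fun i => (x i : Unitization ℂ A))
    (fun i => K.PC.of_norm (final_mem_iff.2 ⟨x i, rfl⟩) (Unitization.inr_nonneg_iff.2 (hx0 i))
      (by rw [final_norm]; exact hx1 i))
    (fun k => match k with
      | none => 1
      | some k => (F k : Unitization ℂ A)) hδ hδ1 hη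
  have hd' : ∀ i, ∃ z : A, d i = (z : Unitization ℂ A) := fun i => final_mem_iff.1 (hdA i)
  choose z hz using hd'
  refine ⟨z, fun i => ?_, fun i => ?_, fun i j hij => ?_, fun i j k hij => ?_⟩
  · rw [← final_norm, ← hz]; exact hdn i
  · have := hdd i
    rw [hz, ← Unitization.inr_star, ← Unitization.inr_mul, ← Unitization.inr_mul,
      ← Unitization.inr_mul, ← Unitization.inr_sub, final_norm] at this
    exact this
  · have := hdo i j none hij
    simp only [mul_one] at this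
    rw [hz, hz, ← Unitization.inr_star, ← Unitization.inr_mul, final_norm] at this
    exact this
  · have := hdo i j (some k) hij
    simp only at this
    rw [hz, hz, ← Unitization.inr_star, ← Unitization.inr_mul, ← Unitization.inr_mul,
      final_norm] at this
    exact this

end Vale.Agent.P133.H681
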