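import Vale.Agent.P133.H681.Fam2

/-! P133 (helper681): orthogonalisation of two elements relative to a middle element. -/

open scoped ComplexOrder

namespace Vale.Agent.P133.H681

open Vale.Agent.P133

universe u

variable {M : Type u} [CStarAlgebra M] [PartialOrder M] [StarOrderedRing M]

/-- the pair property with bounds which depend only on the accuracy `δ`, relative to a closed
ideal `A` of `M`. -/
def PairB (A : CIdeal M) : Prop :=
  ∀ δ : ℝ, 0 < δ → ∃ Λ : ℝ, 1 ≤ Λ ∧ ∀ a ∈ A, ∀ b ∈ A, ‖a‖ ≤ 2 → ‖b‖ ≤ 2 → ∀ η : ℝ, 0 < η →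
    ∃ s t : M, ‖s‖ ≤ Λ ∧ ‖t‖ ≤ Λ ∧
    ‖star (a * s) * (a * s) - star a * a‖ ≤ δ ∧ ‖star (b * t) * (b * t) - star b * b‖ ≤ δ ∧
    ‖star (a * s) * (b * t)‖ ≤ η

omit [PartialOrder M] [StarOrderedRing M] in
theorem mid_est {u v X h : M} {τ : ℝ} (hX : ‖X - h‖ ≤ τ) (hv : ‖(1 - h) * v‖ ≤ τ) :
    ‖star u * X * v - star u * v‖ ≤ ‖u‖ * τ * (‖v‖ + 1) := by
  have e : star u * X * v - star u * v = star u * (X - h) * v - star u * ((1 - h) * v) := by
    noncomm_ring
  have hτ : 0 ≤ τ := (norm_nonneg _).trans hX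
  rw [e]
  calc ‖star u * (X - h) * v - star u * ((1 - h) * v)‖
      ≤ ‖star u * (X - h) * v‖ + ‖star u * ((1 - h) * v)‖ := norm_sub_le _ _
    _ ≤ ‖u‖ * τ * ‖v‖ + ‖u‖ * τ := by
        refine add_le_add ?_ ?_
        · refine (norm_mul_le _ _).trans ?_
          refine mul_le_mul_of_nonneg_right ?_ (norm_nonneg _)
          refine (norm_mul_le _ _).trans ?_
          rw [norm_star]
          exact mul_le_mul_of_nonneg_left hX (norm_nonneg _)
        · refine (norm_mul_le _ _).trans ?_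
          rw [norm_star]
          exact mul_le_mul_of_nonneg_left hv (norm_nonneg _)
    _ = ‖u‖ * τ * (‖v‖ + 1) := by ring

omit [PartialOrder M] [StarOrderedRing M] in
theorem off_est {u v X : M} {τ : ℝ} (hX : ‖X‖ ≤ τ) :
    ‖star u * X * v‖ ≤ ‖u‖ * τ * ‖v‖ := by
  refine (norm_mul_le _ _).trans ?_
  refine mul_le_mul_of_nonneg_right ?_ (norm_nonneg _)
  refine (norm_mul_le _ _).trans ?_
  rw [norm_star]
  exact mul_le_mul_of_nonneg_left hX (norm_nonneg _)

omit [PartialOrder M] [StarOrderedRing M] in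
theorem bdd_conj {s X t : M} {Λ : ℝ} (hΛ : 0 ≤ Λ) (hs : ‖s‖ ≤ Λ) (ht : ‖t‖ ≤ Λ) :
    ‖star s * X * t‖ ≤ Λ ^ 2 * ‖X‖ := by
  calc ‖star s * X * t‖ ≤ ‖star s * X‖ * ‖t‖ := norm_mul_le _ _
    _ ≤ (‖star s‖ * ‖X‖) * ‖t‖ := mul_le_mul_of_nonneg_right (norm_mul_le _ _) (norm_nonneg _)
    _ ≤ (Λ * ‖X‖) * Λ := by
        rw [norm_star]
        exact mul_le_mul (mul_le_mul_of_nonneg_right hs (norm_nonneg _)) ht (norm_nonneg _)
          (by positivity)
    _ = Λ ^ 2 * ‖X‖ := by ring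

/-- the defect operator of a contraction. -/
theorem exists_defect {c : M} (hc : ‖c‖ ≤ 1) :
    ∃ φ : M, star φ = φ ∧ φ * φ = 1 - star c * c ∧ ‖φ‖ ≤ 1 := by
  have h0 : 0 ≤ star c * c := star_mul_self_nonneg c
  have h1 : ‖star c * c‖ ≤ 1 := by
    rw [CStarRing.norm_star_mul_self]
    nlinarith only [hc, norm_nonneg c]
  have hcont : Continuous fun u : ℝ => Real.sqrt (1 - u) := by fun_prop
  refine ⟨cfc (fun u : ℝ => Real.sqrt (1 - u)) (star c * c), star_cfc _ _, ?_, ?_⟩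
  · rw [cfc_mul' hcont hcont]
    have e : cfc (fun s : ℝ => Real.sqrt (1 - s) * Real.sqrt (1 - s)) (star c * c) =
        cfc (fun s : ℝ => 1 - s) (star c * c) := by
      refine cfc_congr fun s hs => ?_
      have := (spec_le_norm hs).trans h1
      exact Real.mul_self_sqrt (by linarith)
    rw [e, cfc_sub (fun _ : ℝ => (1 : ℝ)) (fun s => s) (star c * c) (by fun_prop) (by fun_prop),
      cfc_const_one ℝ (star c * c), cfc_id' ℝ (star c * c)]
  · refine norm_cfc_le' h0 zero_le_one (fun u hu _ => ?_)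
    rw [abs_of_nonneg (Real.sqrt_nonneg _)]
    exact Real.sqrt_le_one.2 (by linarith)

/-- the approximate graph embedding. -/
theorem graph (A : CIdeal M) (hA : PIrel A) {a b c : M} (ha : a ∈ A) (hb : b ∈ A)
    (hc : ‖c‖ ≤ 1) {ε : ℝ} (hε : 0 < ε) :
    ∃ a' b' : M, a' ∈ A ∧ b' ∈ A ∧ ‖star a' * a' - star a * a‖ ≤ ε ∧
      ‖star b' * b' - star b * b‖ ≤ ε ∧ ‖star a' * b' - star a * (c * b)‖ ≤ ε := by
  obtain ⟨φ, hφs, hφ2, hφ1⟩ := exists_defect hc
  set R : ℝ := ‖a‖ + ‖b‖ + 1 with hR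
  have hR1 : 1 ≤ R := by linarith [norm_nonneg a, norm_nonneg b]
  have haR : ‖a‖ ≤ R := by linarith [norm_nonneg b]
  have hbR : ‖b‖ ≤ R := by linarith [norm_nonneg a]
  set U : M := c * b with hU
  set V : M := φ * b with hV
  have hUR : ‖U‖ ≤ R := by
    calc ‖U‖ ≤ 1 * ‖b‖ := norm_mul_le_of_le hc le_rfl
      _ ≤ R := by linarith
  have hVR : ‖V‖ ≤ R := by
    calc ‖V‖ ≤ 1 * ‖b‖ := norm_mul_le_of_le hφ1 le_rfl
      _ ≤ R := by linarith
  have hUV : star U * U + star V * V = star b * b := by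
    have : star U * U + star V * V = star b * (star c * c + φ * φ) * b := by
      rw [hU, hV, star_mul, star_mul, hφs]; noncomm_ring
    rw [this, hφ2]; noncomm_ring
  have hUA : U ∈ A := A.left_mem _ hb
  have hVA : V ∈ A := A.left_mem _ hb
  clear_value U V
  set τ : ℝ := ε / (8 * R ^ 2) with hτ
  have hτ0 : 0 < τ := by positivity
  obtain ⟨h, hh, hhn⟩ := exists_approx_unit (ι := Fin 3) A (c := ![a, U, V])
    (by
      intro i
      fin_cases i
      · exact ha
      · exact hUA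
      · exact hVA) hτ0
  have hha : ‖(1 - h) * a‖ ≤ τ := (hhn 0).2.le
  have hhU : ‖(1 - h) * U‖ ≤ τ := (hhn 1).2.le
  have hhV : ‖(1 - h) * V‖ ≤ τ := (hhn 2).2.le
  obtain ⟨r1, hr1A, r2, hr2A, hr11, hr22, hr12⟩ := hA h hh.mem hh.nonneg τ hτ0
  have hr21 : ‖star r2 * h * r1‖ ≤ τ := by
    have : star r2 * h * r1 = star (star r1 * h * r2) := by
      simp only [star_mul, star_star, hh.star_eq, mul_assoc]
    rw [this, norm_star]; exact hr12.le
  set g : M := cfc Real.sqrt h with hg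
  have hgg : g * g = h := t1_sqrt_mul_sqrt hh.nonneg
  have hgs : star g = g := t1_sqrt_sa h
  have hgA : g ∈ A := cfc_mem_ideal A Real.continuous_sqrt Real.sqrt_zero hh.nonneg.isSelfAdjoint hh.mem
  have e1 : star (g * (r1 * a)) * (g * (r1 * a)) = star a * (star r1 * h * r1) * a := by
    rw [star_mul, hgs, star_mul, ← hgg]; noncomm_ring
  have e2 : star (g * (r1 * a)) * (g * (r1 * U + r2 * V)) =
      star a * (star r1 * h * r1) * U + star a * (star r1 * h * r2) * V := by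
    rw [star_mul, hgs, star_mul, ← hgg]; noncomm_ring
  have e3 : star (g * (r1 * U + r2 * V)) * (g * (r1 * U + r2 * V)) =
      (star U * (star r1 * h * r1) * U + star V * (star r2 * h * r2) * V) +
      (star U * (star r1 * h * r2) * V + star V * (star r2 * h * r1) * U) := by
    rw [star_mul, hgs, star_add, star_mul r1, star_mul r2, ← hgg]; noncomm_ring
  -- estimates
  have mid : ∀ {u v X : M}, ‖u‖ ≤ R → ‖v‖ ≤ R → ‖X - h‖ ≤ τ → ‖(1 - h) * v‖ ≤ τ →
      ‖star u * X * v - star u * v‖ ≤ ε / 4 := by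
    intro u v X hu hv hX hhv
    refine (mid_est hX hhv).trans ?_
    calc ‖u‖ * τ * (‖v‖ + 1) ≤ R * τ * (R + R) := by
          refine mul_le_mul (mul_le_mul_of_nonneg_right hu hτ0.le) (by linarith)
            (by positivity) (by positivity)
      _ = ε / 4 := by rw [hτ]; field_simp; ring
  have off : ∀ {u v X : M}, ‖u‖ ≤ R → ‖v‖ ≤ R → ‖X‖ ≤ τ →
      ‖star u * X * v‖ ≤ ε / 4 := by
    intro u v X hu hv hX
    refine (off_est hX).trans ?_
    calc ‖u‖ * τ * ‖v‖ ≤ R * τ * R := by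
          refine mul_le_mul (mul_le_mul_of_nonneg_right hu hτ0.le) hv
            (by positivity) (by positivity)
      _ = ε / 8 := by rw [hτ]; field_simp
      _ ≤ ε / 4 := by linarith
  refine ⟨g * (r1 * a), g * (r1 * U + r2 * V), A.right_mem hgA _, A.right_mem hgA _, ?_, ?_, ?_⟩
  · rw [e1]; exact (mid haR haR hr11.le hha).trans (by linarith)
  · have : star (g * (r1 * U + r2 * V)) * (g * (r1 * U + r2 * V)) - star b * b =
        ((star U * (star r1 * h * r1) * U - star U * U) +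
        (star V * (star r2 * h * r2) * V - star V * V)) +
        (star U * (star r1 * h * r2) * V + star V * (star r2 * h * r1) * U) := by
      rw [e3, ← hUV]; abel
    rw [this]
    calc _ ≤ ‖(star U * (star r1 * h * r1) * U - star U * U) +
        (star V * (star r2 * h * r2) * V - star V * V)‖ +
        ‖star U * (star r1 * h * r2) * V + star V * (star r2 * h * r1) * U‖ := norm_add_le _ _
      _ ≤ (ε / 4 + ε / 4) + (ε / 4 + ε / 4) := by
          refine add_le_add ((norm_add_le _ _).trans (add_le_add ?_ ?_))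
            ((norm_add_le _ _).trans (add_le_add ?_ ?_))
          · exact mid hUR hUR hr11.le hhU
          · exact mid hVR hVR hr22.le hhV
          · exact off hUR hVR hr12.le
          · exact off hVR hUR hr21
      _ = ε := by ring
  · have : star (g * (r1 * a)) * (g * (r1 * U + r2 * V)) - star a * U =
        (star a * (star r1 * h * r1) * U - star a * U) +
        star a * (star r1 * h * r2) * V := by rw [e2]; abel
    rw [this]
    calc _ ≤ ‖star a * (star r1 * h * r1) * U - star a * U‖ +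
        ‖star a * (star r1 * h * r2) * V‖ := norm_add_le _ _
      _ ≤ ε / 4 + ε / 4 := add_le_add (mid haR hUR hr11.le hhU) (off haR hVR hr12.le)
      _ ≤ ε := by linarith

omit [PartialOrder M] [StarOrderedRing M] in
theorem pull_est {w w' r : M} {Λ δ τ : ℝ} (hΛ : 1 ≤ Λ) (hr : ‖r‖ ≤ Λ)
    (g1 : ‖star w' * w' - star w * w‖ ≤ τ)
    (g2 : ‖star (w' * r) * (w' * r) - star w' * w'‖ ≤ δ) :
    ‖star (w * r) * (w * r) - star w * w‖ ≤ δ + 2 * (Λ ^ 2 * τ) := by
  have e : star (w * r) * (w * r) - star w * w =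
      -(star r * (star w' * w' - star w * w) * r) +
      (star (w' * r) * (w' * r) - star w' * w') + (star w' * w' - star w * w) := by
    simp only [star_mul]; noncomm_ring
  have hτ : 0 ≤ τ := (norm_nonneg _).trans g1
  rw [e]
  calc _ ≤ ‖-(star r * (star w' * w' - star w * w) * r)‖ +
      ‖star (w' * r) * (w' * r) - star w' * w'‖ + ‖star w' * w' - star w * w‖ := norm_add₃_le
    _ ≤ Λ ^ 2 * τ + δ + Λ ^ 2 * τ := by
        rw [norm_neg]
        have h1 := bdd_conj (X := star w' * w' - star w * w) (by linarith) hr hr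
        have h2 : Λ ^ 2 * ‖star w' * w' - star w * w‖ ≤ Λ ^ 2 * τ :=
          mul_le_mul_of_nonneg_left g1 (by positivity)
        have h3 : τ ≤ Λ ^ 2 * τ := le_mul_of_one_le_left hτ (one_le_pow₀ hΛ)
        linarith
    _ = δ + 2 * (Λ ^ 2 * τ) := by ring

/-- orthogonalisation relative to a middle element; `Λ` depends only on `δ`. -/
theorem pc_mid (A : CIdeal M) (hA : PIrel A) (hP : PairB A) {δ : ℝ} (hδ : 0 < δ) :
    ∃ Λ : ℝ, 1 ≤ Λ ∧ ∀ a ∈ A, ∀ b ∈ A, ‖a‖ ≤ 3 / 2 → ‖b‖ ≤ 3 / 2 → ∀ c : M, ‖c‖ ≤ 1 →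
      ∀ η : ℝ, 0 < η → ∃ s t : M, ‖s‖ ≤ Λ ∧ ‖t‖ ≤ Λ ∧
      ‖star (a * s) * (a * s) - star a * a‖ ≤ δ ∧ ‖star (b * t) * (b * t) - star b * b‖ ≤ δ ∧
      ‖star (a * s) * c * (b * t)‖ ≤ η := by
  obtain ⟨Λ, hΛ, H⟩ := hP (δ / 2) (by positivity)
  refine ⟨Λ, hΛ, ?_⟩
  intro a ha b hb ha1 hb1 c hc η hη
  have hΛ0 : 0 < Λ := by linarith
  set τ : ℝ := min 1 (min (δ / 4) (η / 2)) / Λ ^ 2 with hτ
  have hτ0 : 0 < τ := div_pos (lt_min one_pos (lt_min (by positivity) (by positivity)))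
    (by positivity)
  have hτe : Λ ^ 2 * τ = min 1 (min (δ / 4) (η / 2)) := by rw [hτ]; field_simp
  have hτ1 : Λ ^ 2 * τ ≤ 1 := hτe.le.trans (min_le_left _ _)
  have hτδ : Λ ^ 2 * τ ≤ δ / 4 := hτe.le.trans ((min_le_right _ _).trans (min_le_left _ _))
  have hτη : Λ ^ 2 * τ ≤ η / 2 := hτe.le.trans ((min_le_right _ _).trans (min_le_right _ _))
  have hττ : τ ≤ Λ ^ 2 * τ := le_mul_of_one_le_left hτ0.le (one_le_pow₀ hΛ)
  obtain ⟨a', b', ha', hb', h1, h2, h3⟩ := graph A hA ha hb hc hτ0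
  have hn : ∀ {w w' : M}, ‖w‖ ≤ 3 / 2 → ‖star w' * w' - star w * w‖ ≤ τ → ‖w'‖ ≤ 2 := by
    intro w w' hw hww
    have g1 : ‖star w' * w'‖ ≤ ‖star w' * w' - star w * w‖ + ‖star w * w‖ := by
      calc ‖star w' * w'‖ = ‖(star w' * w' - star w * w) + star w * w‖ := by rw [sub_add_cancel]
        _ ≤ _ := norm_add_le _ _
    rw [CStarRing.norm_star_mul_self, CStarRing.norm_star_mul_self] at g1
    nlinarith [norm_nonneg w, norm_nonneg w']
  obtain ⟨s, t, hs, ht, g1, g2, g3⟩ := H a' ha' b' hb' (hn ha1 h1) (hn hb1 h2) (η / 2)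
    (by positivity)
  refine ⟨s, t, hs, ht, (pull_est hΛ hs h1 g1).trans (by linarith),
    (pull_est hΛ ht h2 g2).trans (by linarith), ?_⟩
  have e : star (a * s) * c * (b * t) = -(star s * (star a' * b' - star a * (c * b)) * t) +
      star (a' * s) * (b' * t) := by
    simp only [star_mul]; noncomm_ring
  rw [e]
  calc _ ≤ ‖-(star s * (star a' * b' - star a * (c * b)) * t)‖ + ‖star (a' * s) * (b' * t)‖ :=
        norm_add_le _ _
    _ ≤ Λ ^ 2 * τ + η / 2 := by
        rw [norm_neg]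
        have k1 := bdd_conj (X := star a' * b' - star a * (c * b)) (by linarith) hs ht
        have k2 : Λ ^ 2 * ‖star a' * b' - star a * (c * b)‖ ≤ Λ ^ 2 * τ :=
          mul_le_mul_of_nonneg_left h3 (by positivity)
        linarith
    _ ≤ η := by linarith

end Vale.Agent.P133.H681
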