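import Vale.Agent.P133.H681.Field3
import Mathlib.Analysis.CStarAlgebra.SpecialFunctions.PosPart

/-! P133 (helper681): splitting positive elements in weakly purely infinite algebras. -/

open scoped ComplexOrder CStarAlgebra NNReal

namespace Vale.Agent.P133.H681

open Vale.Agent.P133 Vale.Agent.P133.Statement Vale.Agent.P133.H832 Vale.Agent.P133F

universe u

section

variable {A : Type u} [NonUnitalCStarAlgebra A] [PartialOrder A] [StarOrderedRing A]

/-- elements without two orthogonal functions are multiples of projections -/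
theorem sq_eq_of_no_split {K : A} (hK : 0 ≤ K)
    (hno : ∀ f g : ℝ → ℝ, Continuous f → Continuous g → (∀ t, 0 ≤ f t) → (∀ t, 0 ≤ g t) →
      (∀ t, f t * g t = 0) → (∃ δ : ℝ, 0 < δ ∧ ∀ t ≤ δ, f t = 0 ∧ g t = 0) →
      cfcₙ f K = 0 ∨ cfcₙ g K = 0) : K * K = ‖K‖ • K := by
  have hsa : IsSelfAdjoint K := IsSelfAdjoint.of_nonneg hK
  have hspec : ∀ t ∈ quasispectrum ℝ K, t = 0 ∨ t = ‖K‖ := by
    intro t ht
    by_contra hcon
    push Not at hcon
    obtain ⟨h1, h2⟩ := hcon
    have ht0 : 0 ≤ t := quasispectrum_nonneg_of_nonneg K hK t ht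
    have ht1 : t ≤ ‖K‖ := by
      have h3 : ‖t‖ ≤ ‖cfcₙ (fun x : ℝ => x) K‖ :=
        norm_apply_le_norm_cfcₙ (fun x : ℝ => x) K ht
      rw [cfcₙ_id' ℝ K] at h3
      exact (Real.le_norm_self t).trans h3
    have htp : 0 < t := lt_of_le_of_ne ht0 (Ne.symm h1)
    have htn : t < ‖K‖ := lt_of_le_of_ne ht1 h2
    set r : ℝ := min (t / 2) ((‖K‖ - t) / 2) with hr
    have hr0 : 0 < r := lt_min (by linarith) (by linarith)
    have hr1 : r ≤ t / 2 := min_le_left _ _
    have hr2 : r ≤ (‖K‖ - t) / 2 := min_le_right _ _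
    rcases hno (fun x => max 0 (r - |x - t|)) (fun x => max 0 (x - (t + r)))
      (by fun_prop) (by fun_prop) (fun x => le_max_left _ _) (fun x => le_max_left _ _)
      (fun x => by
        rcases le_total x (t + r) with h | h
        · have : max 0 (x - (t + r)) = 0 := max_eq_left (by linarith)
          rw [this, mul_zero]
        · have : max 0 (r - |x - t|) = 0 := max_eq_left (by
            rw [abs_of_nonneg (by linarith)]; linarith)
          rw [this, zero_mul])
      ⟨t / 2, by linarith, fun x hx => ⟨max_eq_left (by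
        rw [abs_of_nonpos (by linarith)]; linarith), max_eq_left (by linarith)⟩⟩ with h | h
    · have h3 : cfcₙ (fun x : ℝ => max 0 (r - |x - t|)) K = cfcₙ (fun _ : ℝ => (0 : ℝ)) K := by
        rw [h]; simp
      have h4 := (cfcₙ_eq_cfcₙ_iff_eqOn (a := K) (hf := (by fun_prop)) (hg := (by fun_prop))
        (hf0 := by
          simp only [zero_sub, abs_neg]
          refine max_eq_left ?_
          rw [abs_of_pos htp]; linarith)).1 h3 ht
      simp only [sub_self, abs_zero, sub_zero] at h4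
      rw [max_eq_right hr0.le] at h4
      linarith
    · have h3 : cfcₙ (fun x : ℝ => max 0 (x - (t + r))) K = cfcₙ (fun _ : ℝ => (0 : ℝ)) K := by
        rw [h]; simp
      have h4 := (cfcₙ_eq_cfcₙ_iff_eqOn (a := K) (hf := (by fun_prop)) (hg := (by fun_prop))
        (hf0 := by
          refine max_eq_left ?_
          linarith)).1 h3
      have h5 : ∀ x ∈ quasispectrum ℝ K, ‖x‖ ≤ t + r := by
        intro x hx
        have h6 := h4 hx
        simp only at h6
        have h7 : x - (t + r) ≤ 0 := by rw [← h6]; exact le_max_right _ _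
        rw [Real.norm_of_nonneg (quasispectrum_nonneg_of_nonneg K hK x hx)]
        linarith
      have h6 : ‖cfcₙ (fun x : ℝ => x) K‖ ≤ t + r := norm_cfcₙ_le h5
      rw [cfcₙ_id' ℝ K] at h6
      linarith
  calc K * K = cfcₙ (fun x : ℝ => x * x) K := by
        rw [cfcₙ_mul (fun x : ℝ => x) (fun x : ℝ => x) K, cfcₙ_id' ℝ K]
    _ = cfcₙ (fun x : ℝ => ‖K‖ • x) K := by
        refine cfcₙ_congr fun x hx => ?_
        rcases hspec x hx with h | h
        · simp [h]
        · simp only [h, smul_eq_mul]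
    _ = ‖K‖ • K := cfcₙ_smul_id ‖K‖ K

/-- `h` splits: there are two nonzero orthogonal positive elements in `h A`. -/
def Sp (h : A) : Prop :=
  ∃ a b : A, 0 ≤ a ∧ 0 ≤ b ∧ a ≠ 0 ∧ b ≠ 0 ∧ a * b = 0 ∧ (∃ a', a = h * a') ∧ ∃ b', b = h * b'

theorem cfcₙ_factor {K : A} {f : ℝ → ℝ} (hf : Continuous f) {δ : ℝ} (hδ : 0 < δ)
    (hf0 : ∀ t ≤ δ, f t = 0) : ∃ c : A, cfcₙ f K = K * c := by
  have hc : Continuous fun t => f t / max t δ := by
    refine hf.div (continuous_id.max continuous_const) fun t => ?_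
    exact (lt_of_lt_of_le hδ (le_max_right _ _)).ne'
  have hc0 : f 0 / max 0 δ = 0 := by rw [hf0 0 hδ.le, zero_div]
  by_cases hK : IsSelfAdjoint K
  · refine ⟨cfcₙ (fun t => f t / max t δ) K, ?_⟩
    have h1 : cfcₙ f K = cfcₙ (fun t : ℝ => t * (f t / max t δ)) K := by
      refine cfcₙ_congr fun t _ => ?_
      rcases le_total t δ with h | h
      · rw [hf0 t h, zero_div, mul_zero]
      · rw [max_eq_left h, mul_div_cancel₀]
        exact (lt_of_lt_of_le hδ h).ne'
    rw [h1, cfcₙ_mul (fun t : ℝ => t) (fun t => f t / max t δ) K (by fun_prop) rfl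
      hc.continuousOn hc0, cfcₙ_id' ℝ K]
  · refine ⟨0, ?_⟩
    rw [cfcₙ_apply_of_not_predicate K hK, mul_zero]

theorem no_split_conj {h : A} (h0 : 0 ≤ h) (hns : ¬ Sp h) {k : A} (hk : 0 ≤ k) :
    (h * k * h) * (h * k * h) = ‖h * k * h‖ • (h * k * h) := by
  have hsa : star h = h := (IsSelfAdjoint.of_nonneg h0).star_eq
  have hK : 0 ≤ h * k * h := by
    have := star_left_conjugate_nonneg hk h
    rwa [hsa] at this
  refine sq_eq_of_no_split hK fun f g hf hg hf0 hg0 hfg ⟨δ, hδ, hfg0⟩ => ?_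
  by_contra hcon
  push Not at hcon
  refine hns ⟨cfcₙ f (h * k * h), cfcₙ g (h * k * h), cfcₙ_nonneg fun t _ => hf0 t,
    cfcₙ_nonneg fun t _ => hg0 t, hcon.1, hcon.2, ?_, ?_, ?_⟩
  · rw [← cfcₙ_mul f g _ hf.continuousOn (hfg0 0 hδ.le).1 hg.continuousOn (hfg0 0 hδ.le).2]
    have : (fun x => f x * g x) = fun _ => (0 : ℝ) := funext hfg
    rw [this, cfcₙ_const_zero]
  · obtain ⟨c, hc⟩ := cfcₙ_factor (K := h * k * h) hf hδ fun t ht => (hfg0 t ht).1
    exact ⟨k * h * c, by rw [hc]; simp only [mul_assoc]⟩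
  · obtain ⟨c, hc⟩ := cfcₙ_factor (K := h * k * h) hg hδ fun t ht => (hfg0 t ht).2
    exact ⟨k * h * c, by rw [hc]; simp only [mul_assoc]⟩

/-- without splitting there is a minimal projection -/
theorem exists_minimal {h : A} (h0 : 0 ≤ h) (hh : h ≠ 0) (hns : ¬ Sp h) :
    ∃ e : A, 0 ≤ e ∧ ‖e‖ = 1 ∧ e * e = e ∧ ∀ w : A, ∃ l : ℂ, e * w * e = l • e := by
  have hsa : star h = h := (IsSelfAdjoint.of_nonneg h0).star_eq
  set K : A := h * h * h with hKdef
  have hK0 : 0 ≤ K := by
    have := star_left_conjugate_nonneg h0 h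
    rwa [hsa] at this
  have hKne : K ≠ 0 := by
    intro hK
    have h1 : (h * h) * (h * h) = 0 := by
      have : (h * h) * (h * h) = K * h := by rw [hKdef]; simp only [mul_assoc]
      rw [this, hK, zero_mul]
    have h2 : ‖star (h * h) * (h * h)‖ = 0 := by
      rw [star_mul, hsa, h1, norm_zero]
    rw [CStarRing.norm_star_mul_self] at h2
    have h3 : h * h = 0 := norm_eq_zero.1 (mul_self_eq_zero.1 h2)
    have h4 : ‖star h * h‖ = 0 := by rw [hsa, h3, norm_zero]
    rw [CStarRing.norm_star_mul_self] at h4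
    exact hh (norm_eq_zero.1 (mul_self_eq_zero.1 h4))
  have hn : 0 < ‖K‖ := norm_pos_iff.2 hKne
  set e : A := ‖K‖⁻¹ • K with he
  have hee : e * e = e := by
    have h1 := no_split_conj h0 hns h0
    rw [← hKdef] at h1
    rw [he, smul_mul_smul_comm, h1, smul_smul]
    congr 1
    field_simp
  have he0 : 0 ≤ e := smul_nonneg (by positivity) hK0
  have hes : star e = e := (IsSelfAdjoint.of_nonneg he0).star_eq
  have he1 : ‖e‖ = 1 := by
    rw [he, norm_smul, Real.norm_of_nonneg (by positivity), inv_mul_cancel₀ hn.ne']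
  -- `e = h e₁ = e₁ h`
  set e1 : A := ‖K‖⁻¹ • (h * h) with he1def
  have hee1 : e = h * e1 := by rw [he, he1def, mul_smul_comm, hKdef]; simp only [mul_assoc]
  have hee2 : e = e1 * h := by rw [he, he1def, smul_mul_assoc, hKdef]
  have he1s : star e1 = e1 := by
    rw [he1def, star_smul, star_mul, hsa, star_trivial]
  have hpos : ∀ k : A, 0 ≤ k → e * k * e = ‖e * k * e‖ • e := by
    intro k hk
    by_cases hz : e * k * e = 0
    · rw [hz, norm_zero, zero_smul]
    have hc : 0 ≤ e1 * k * e1 := by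
      have := star_left_conjugate_nonneg hk e1
      rwa [he1s] at this
    have hform : e * k * e = h * (e1 * k * e1) * h := by
      nth_rewrite 1 [hee1]
      rw [hee2]; simp only [mul_assoc]
    have h1 := no_split_conj h0 hns hc
    rw [← hform] at h1
    have hm : 0 < ‖e * k * e‖ := norm_pos_iff.2 hz
    set m : ℝ := ‖e * k * e‖ with hmdef
    set q : A := m⁻¹ • (e * k * e) with hq
    have hqq : q * q = q := by
      rw [hq, smul_mul_smul_comm, h1, smul_smul]
      congr 1
      field_simp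
    have heq : e * q = q := by
      rw [hq, mul_smul_comm, ← mul_assoc, ← mul_assoc, hee]
    have hqe : q * e = q := by
      rw [hq, smul_mul_assoc, mul_assoc, hee]
    have hq0 : 0 ≤ q := smul_nonneg (by positivity) (by
      have := star_left_conjugate_nonneg hk e
      rwa [hes] at this)
    have hqs : star q = q := (IsSelfAdjoint.of_nonneg hq0).star_eq
    have hd : star (e - q) * (e - q) = e - q := by
      rw [star_sub, hes, hqs, sub_mul, mul_sub, mul_sub, hee, heq, hqe, hqq]
      abel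
    have hd0 : 0 ≤ e - q := by rw [← hd]; exact star_mul_self_nonneg _
    by_contra hne
    refine hns ⟨q, e - q, hq0, hd0, ?_, ?_, ?_, ?_, ?_⟩
    · intro h2
      have : e * k * e = m • q := by
        rw [hq, smul_smul, mul_inv_cancel₀ hm.ne', one_smul]
      rw [h2, smul_zero] at this
      exact hz this
    · intro h2
      refine hne ?_
      have h3 : e = q := sub_eq_zero.1 h2
      calc e * k * e = m • q := by rw [hq, smul_smul, mul_inv_cancel₀ hm.ne', one_smul]
        _ = m • e := by rw [← h3]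
    · rw [mul_sub, hqe, hqq, sub_self]
    · exact ⟨e1 * q, by rw [← mul_assoc, ← hee1, heq]⟩
    · exact ⟨e1 * (e - q), by rw [← mul_assoc, ← hee1, mul_sub, hee, heq]⟩
  refine ⟨e, he0, he1, hee, fun w => ?_⟩
  have hw : w ∈ Submodule.span ℂ {a : A | 0 ≤ a} := by
    rw [CStarAlgebra.span_nonneg]; trivial
  induction hw using Submodule.span_induction with
  | mem x hx =>
    refine ⟨((‖e * x * e‖ : ℝ) : ℂ), ?_⟩
    rw [Complex.coe_smul]
    exact hpos x hx
  | zero => exact ⟨0, by simp⟩
  | add x y _ _ hx hy =>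
    obtain ⟨l, hl⟩ := hx
    obtain ⟨m, hm⟩ := hy
    exact ⟨l + m, by rw [mul_add, add_mul, hl, hm, add_smul]⟩
  | smul c x _ hx =>
    obtain ⟨l, hl⟩ := hx
    exact ⟨c * l, by rw [mul_smul_comm c e x, smul_mul_assoc c (e * x) e, hl, smul_smul]⟩

end

end Vale.Agent.P133.H681
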