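import Vale.Agent.P133.H681.Simple1
import Mathlib.Algebra.Order.Chebyshev

/-! P133 (helper681): weakly purely infinite algebras have no minimal projections; simple
algebras. -/

open scoped ComplexOrder CStarAlgebra NNReal

namespace Vale.Agent.P133.H681

open Vale.Agent.P133 Vale.Agent.P133.Statement Vale.Agent.P133.H832 Vale.Agent.P133F

universe u

section

variable {A : Type u} [NonUnitalCStarAlgebra A] [PartialOrder A] [StarOrderedRing A]

theorem no_minimal {n : ℕ} (hW : WPI A n) {e : A} (he0 : 0 ≤ e) (he1 : ‖e‖ = 1) (hee : e * e = e)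
    (hmin : ∀ w : A, ∃ l : ℂ, e * w * e = l • e) : False := by
  have hes : star e = e := (IsSelfAdjoint.of_nonneg he0).star_eq
  set ε : ℝ := 1 / (2 * ((n : ℝ) + 1)) with hε
  have hε0 : 0 < ε := by positivity
  obtain ⟨z, hz⟩ := hW e he0 (n + 1) ε hε0
  choose l hl using fun i j => hmin (z i j)
  -- the scalar relation
  have hs : ∀ j j', ‖∑ i, star (l i j) * l i j' - (if j = j' then (1 : ℂ) else 0)‖ ≤ ε := by
    intro j j'
    have h1 : e * (∑ i, star (z i j) * e * z i j' - (if j = j' then e else 0)) * e =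
        (∑ i, star (l i j) * l i j' - (if j = j' then (1 : ℂ) else 0)) • e := by
      rw [mul_sub, sub_mul, Finset.mul_sum, Finset.sum_mul, sub_smul, Finset.sum_smul]
      congr 1
      · refine Finset.sum_congr rfl fun i _ => ?_
        have h2 : star (e * z i j * e) * (e * z i j' * e) =
            e * (star (z i j) * e * z i j') * e := by
          rw [star_mul, star_mul, hes]
          calc e * (star (z i j) * e) * (e * z i j' * e)
              = e * (star (z i j) * (e * e)) * (z i j' * e) := by simp only [mul_assoc]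
            _ = _ := by rw [hee]; simp only [mul_assoc]
        rw [← h2, hl, hl, star_smul, hes, smul_mul_smul_comm, hee]
      · split_ifs
        · rw [hee, hee, one_smul]
        · rw [mul_zero, zero_mul, zero_smul]
    have h2 : ‖(∑ i, star (l i j) * l i j' - (if j = j' then (1 : ℂ) else 0)) • e‖ ≤ ε := by
      rw [← h1]
      calc _ ≤ 1 * ‖∑ i, star (z i j) * e * z i j' - (if j = j' then e else 0)‖ * 1 :=
            norm_mul_le_of_le (norm_mul_le_of_le he1.le le_rfl) he1.le
        _ ≤ ε := by rw [one_mul, mul_one]; exact (hz j j').le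
    rwa [norm_smul, he1, mul_one] at h2
  -- a vector in the kernel
  let L : (Fin (n + 1) → ℂ) →ₗ[ℂ] (Fin n → ℂ) :=
    { toFun := fun c i => ∑ j, l i j * c j
      map_add' := fun c d => by
        funext i; simp [mul_add, Finset.sum_add_distrib]
      map_smul' := fun c d => by
        funext i; simp only [Pi.smul_apply, smul_eq_mul, RingHom.id_apply, Finset.mul_sum]
        exact Finset.sum_congr rfl fun j _ => by ring }
  have hker : LinearMap.ker L ≠ ⊥ := LinearMap.ker_ne_bot_of_finrank_lt (by simp)
  obtain ⟨c, hc, hc0⟩ := Submodule.exists_mem_ne_zero_of_ne_bot hker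
  have hLc : ∀ i, ∑ j, l i j * c j = 0 := fun i => congrFun (LinearMap.mem_ker.1 hc) i
  have hzero : ∑ j, ∑ j', star (c j) * c j' * (∑ i, star (l i j) * l i j') = 0 := by
    have : ∑ j, ∑ j', star (c j) * c j' * (∑ i, star (l i j) * l i j') =
        ∑ i, star (∑ j, l i j * c j) * (∑ j', l i j' * c j') := by
      have e1 : ∀ i, star (∑ j, l i j * c j) * (∑ j', l i j' * c j') =
          ∑ j, ∑ j', star (c j) * c j' * (star (l i j) * l i j') := by
        intro i
        rw [star_sum, Finset.sum_mul_sum]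
        refine Finset.sum_congr rfl fun j _ => Finset.sum_congr rfl fun j' _ => ?_
        rw [star_mul]; ring
      simp only [e1, Finset.mul_sum]
      calc _ = ∑ j, ∑ i, ∑ j', star (c j) * c j' * (star (l i j) * l i j') :=
            Finset.sum_congr rfl fun j _ => Finset.sum_comm
        _ = _ := Finset.sum_comm
    rw [this]
    exact Finset.sum_eq_zero fun i _ => by rw [hLc, mul_zero]
  have hS : ∑ j, ‖c j‖ ^ 2 ≤ ε * ((n : ℝ) + 1) * ∑ j, ‖c j‖ ^ 2 := by
    have h1 : ((∑ j, ‖c j‖ ^ 2 : ℝ) : ℂ) = -∑ j, ∑ j', star (c j) * c j' *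
        (∑ i, star (l i j) * l i j' - (if j = j' then (1 : ℂ) else 0)) := by
      simp only [mul_sub, Finset.sum_sub_distrib]
      rw [hzero, zero_sub, neg_neg]
      push_cast
      refine Finset.sum_congr rfl fun j _ => ?_
      simp only [mul_ite, mul_one, mul_zero, Finset.sum_ite_eq, Finset.mem_univ, if_true]
      rw [RCLike.star_def, Complex.conj_mul']
    have h2 : (∑ j, ‖c j‖ ^ 2 : ℝ) ≤ ∑ j, ∑ j', ‖c j‖ * ‖c j'‖ * ε := by
      calc (∑ j, ‖c j‖ ^ 2 : ℝ) = ‖((∑ j, ‖c j‖ ^ 2 : ℝ) : ℂ)‖ := by
            rw [Complex.norm_real, Real.norm_of_nonneg (Finset.sum_nonneg fun j _ => sq_nonneg _)]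
        _ ≤ _ := by
            rw [h1, norm_neg]
            refine (norm_sum_le _ _).trans (Finset.sum_le_sum fun j _ =>
              (norm_sum_le _ _).trans (Finset.sum_le_sum fun j' _ => ?_))
            rw [norm_mul, norm_mul, norm_star]
            exact mul_le_mul_of_nonneg_left (hs j j') (by positivity)
    refine h2.trans ?_
    have h3 : ∑ j, ∑ j', ‖c j‖ * ‖c j'‖ * ε = ε * (∑ j, ‖c j‖) ^ 2 := by
      rw [sq, Finset.sum_mul_sum, Finset.mul_sum]
      refine Finset.sum_congr rfl fun j _ => ?_
      rw [Finset.mul_sum]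
      exact Finset.sum_congr rfl fun j' _ => by ring
    rw [h3, mul_assoc]
    refine mul_le_mul_of_nonneg_left ?_ hε0.le
    have h4 := sq_sum_le_card_mul_sum_sq (s := (Finset.univ : Finset (Fin (n + 1))))
      (f := fun j => ‖c j‖)
    simpa using h4
  have hpos : 0 < ∑ j, ‖c j‖ ^ 2 := by
    obtain ⟨j, hj⟩ : ∃ j, c j ≠ 0 := by
      by_contra hcon
      push Not at hcon
      exact hc0 (funext hcon)
    exact Finset.sum_pos' (fun j _ => sq_nonneg _) ⟨j, Finset.mem_univ _, by
      have := norm_pos_iff.2 hj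
      positivity⟩
  have h5 : ε * ((n : ℝ) + 1) = 1 / 2 := by rw [hε]; field_simp
  rw [h5] at hS
  linarith

/-- In a weakly purely infinite algebra every nonzero positive element splits. -/
theorem split_of_wpi {n : ℕ} (hW : WPI A n) {h : A} (h0 : 0 ≤ h) (hh : h ≠ 0) : Sp h := by
  by_contra hns
  obtain ⟨e, he0, he1, hee, hmin⟩ := exists_minimal h0 hh hns
  exact no_minimal hW he0 he1 hee hmin

/-- many orthogonal elements -/
theorem exists_orth {n : ℕ} (hW : WPI A n) (N : ℕ) : ∀ {h : A}, 0 ≤ h → h ≠ 0 →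
    ∃ a : Fin N → A, (∀ i, 0 ≤ a i) ∧ (∀ i, a i ≠ 0) ∧ (∀ i j, i ≠ j → a i * a j = 0) ∧
      ∀ i, ∃ a', a i = h * a' := by
  induction N with
  | zero => exact fun _ _ => ⟨Fin.elim0, fun i => i.elim0, fun i => i.elim0, fun i => i.elim0,
      fun i => i.elim0⟩
  | succ N ih =>
    intro h h0 hh
    obtain ⟨a, b, ha0, hb0, ha, hb, hab, ⟨a', ha'⟩, ⟨b', hb'⟩⟩ := split_of_wpi hW h0 hh
    obtain ⟨c, hc0, hc, hcc, hcb⟩ := ih hb0 hb
    have hac : ∀ i, a * c i = 0 := fun i => by
      obtain ⟨d, hd⟩ := hcb i
      rw [hd, ← mul_assoc, hab, zero_mul]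
    have hca : ∀ i, c i * a = 0 := fun i => by
      have h1 := congrArg star (hac i)
      rwa [star_mul, star_zero, (IsSelfAdjoint.of_nonneg ha0).star_eq,
        (IsSelfAdjoint.of_nonneg (hc0 i)).star_eq] at h1
    refine ⟨Fin.cons a c, fun i => ?_, fun i => ?_, fun i j hij => ?_, fun i => ?_⟩
    · refine Fin.cases ?_ (fun i => ?_) i
      · exact ha0
      · exact hc0 i
    · refine Fin.cases ?_ (fun i => ?_) i
      · exact ha
      · exact hc i
    · induction i using Fin.cases with
      | zero =>
        induction j using Fin.cases with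
        | zero => exact absurd rfl hij
        | succ j => exact hac j
      | succ i =>
        induction j using Fin.cases with
        | zero => exact hca i
        | succ j => exact hcc i j fun h => hij (by rw [h])
    · induction i using Fin.cases with
      | zero => exact ⟨a', ha'⟩
      | succ i =>
        obtain ⟨d, hd⟩ := hcb i
        exact ⟨b' * d, by rw [Fin.cons_succ, hd, hb', mul_assoc]⟩

end

end Vale.Agent.P133.H681
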