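import Vale.Agent.P133.H681.Simple2
import Vale.Agent.P133.H832.SimpleDef

/-! P133 (helper681): simple C*-algebras. -/

open scoped ComplexOrder CStarAlgebra NNReal

namespace Vale.Agent.P133.H681

open Vale.Agent.P133 Vale.Agent.P133.Statement Vale.Agent.P133.H832 Vale.Agent.P133F

universe u

section

variable {A : Type u} [NonUnitalCStarAlgebra A] [PartialOrder A] [StarOrderedRing A]

omit [PartialOrder A] [StarOrderedRing A] in
theorem mul_self_ne_zero' {a : A} (ha : star a = a) (hne : a ≠ 0) : a * a ≠ 0 := by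
  intro h
  have h1 : ‖star a * a‖ = 0 := by rw [ha, h, norm_zero]
  rw [CStarRing.norm_star_mul_self] at h1
  exact hne (norm_eq_zero.1 (mul_self_eq_zero.1 h1))

omit [PartialOrder A] [StarOrderedRing A] in
/-- simple algebras are prime -/
theorem exists_prime (hA : IsSimpleC A) {c a : A} (hc : c ≠ 0) (ha : star a = a) (hane : a ≠ 0) :
    ∃ w : A, c * w * a ≠ 0 := by
  by_contra hcon
  push Not at hcon
  have h1 : ∀ ε : ℝ, 0 < ε → ‖a * a‖ ≤ ε * ‖a‖ := by
    intro ε hε
    obtain ⟨m, r, s, hrs⟩ := hA c a hc ε hε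
    have h2 : (∑ k, r k * c * s k) * a = 0 := by
      rw [Finset.sum_mul]
      refine Finset.sum_eq_zero fun k _ => ?_
      rw [mul_assoc (r k), mul_assoc (r k), hcon (s k), mul_zero]
    have h3 : a * a = -((∑ k, r k * c * s k - a) * a) := by
      rw [sub_mul, h2]; abel
    rw [h3, norm_neg]
    exact norm_mul_le_of_le hrs.le le_rfl
  have h4 : ‖a * a‖ ≤ 0 := by
    refine le_of_forall_pos_le_add fun ε hε => ?_
    have h5 := h1 (ε / (‖a‖ + 1)) (by positivity)
    refine h5.trans ?_
    rw [zero_add, div_mul_eq_mul_div, div_le_iff₀ (by positivity)]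
    nlinarith [norm_nonneg a]
  exact mul_self_ne_zero' ha hane (norm_eq_zero.1 (le_antisymm h4 (norm_nonneg _)))

/-- equivalent elements below given ones -/
theorem exists_common (hA : IsSimpleC A) {w0 : A} (hw0 : w0 ≠ 0) (N : ℕ) :
    ∀ a : Fin N → A, (∀ i, 0 ≤ a i) → (∀ i, a i ≠ 0) → ∃ (c : A) (y : Fin N → A), 0 ≤ c ∧ c ≠ 0 ∧
      (∀ i, star (y i) * y i = c) ∧ ∀ i, ∃ y', y i = a i * y' := by
  induction N with
  | zero =>
    intro a _ _
    refine ⟨star w0 * w0, Fin.elim0, star_mul_self_nonneg _, fun h => ?_, fun i => i.elim0,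
      fun i => i.elim0⟩
    have h1 : ‖star w0 * w0‖ = 0 := by rw [h, norm_zero]
    rw [CStarRing.norm_star_mul_self] at h1
    exact hw0 (norm_eq_zero.1 (mul_self_eq_zero.1 h1))
  | succ N ih =>
    intro a ha0 ha
    obtain ⟨c, y, hc0, hc, hy, hya⟩ := ih (fun i => a i.succ) (fun i => ha0 _) (fun i => ha _)
    have has : star (a 0) = a 0 := (IsSelfAdjoint.of_nonneg (ha0 0)).star_eq
    obtain ⟨w, hw⟩ := exists_prime hA hc has (ha 0)
    set c1 : A := a 0 * star w * c * w * a 0 with hc1
    have hc1form : c1 = star (CFC.sqrt c * w * a 0) * (CFC.sqrt c * w * a 0) := by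
      have h1 : CFC.sqrt c * CFC.sqrt c = c := CFC.sqrt_mul_sqrt_self c hc0
      have h2 : star (CFC.sqrt c) = CFC.sqrt c :=
        (IsSelfAdjoint.of_nonneg (CFC.sqrt_nonneg c)).star_eq
      rw [star_mul, star_mul, has, h2, hc1]
      calc a 0 * star w * c * w * a 0 = a 0 * star w * (CFC.sqrt c * CFC.sqrt c) * w * a 0 := by
            rw [h1]
        _ = _ := by simp only [mul_assoc]
    have hc10 : 0 ≤ c1 := by rw [hc1form]; exact star_mul_self_nonneg _
    have hc1s : star c1 = c1 := (IsSelfAdjoint.of_nonneg hc10).star_eq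
    have hc1ne : c1 ≠ 0 := by
      intro h
      have h1 : ‖star (CFC.sqrt c * w * a 0) * (CFC.sqrt c * w * a 0)‖ = 0 := by
        rw [← hc1form, h, norm_zero]
      rw [CStarRing.norm_star_mul_self] at h1
      have h2 : CFC.sqrt c * w * a 0 = 0 := norm_eq_zero.1 (mul_self_eq_zero.1 h1)
      refine hw ?_
      calc c * w * a 0 = CFC.sqrt c * (CFC.sqrt c * w * a 0) := by
            rw [← mul_assoc, ← mul_assoc, CFC.sqrt_mul_sqrt_self c hc0]
        _ = 0 := by rw [h2, mul_zero]
    set q : A := CFC.sqrt c1 with hq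
    have hqq : q * q = c1 := CFC.sqrt_mul_sqrt_self c1 hc10
    have hqs : star q = q := (IsSelfAdjoint.of_nonneg (CFC.sqrt_nonneg c1)).star_eq
    refine ⟨c1 * c1, Fin.cons c1 fun i => y i * (w * a 0 * q), ?_,
      mul_self_ne_zero' hc1s hc1ne, fun i => ?_, fun i => ?_⟩
    · nth_rewrite 1 [← hc1s]
      exact star_mul_self_nonneg _
    · induction i using Fin.cases with
      | zero => rw [Fin.cons_zero, hc1s]
      | succ i =>
        rw [Fin.cons_succ, star_mul, star_mul, star_mul, hqs, has]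
        calc q * (a 0 * star w) * star (y i) * (y i * (w * a 0 * q))
            = q * (a 0 * star w * (star (y i) * y i) * w * a 0) * q := by
              simp only [mul_assoc]
          _ = q * c1 * q := by rw [hy, ← hc1]
          _ = c1 * c1 := by
              rw [← hqq]; simp only [mul_assoc]
    · induction i using Fin.cases with
      | zero => exact ⟨star w * c * w * a 0, by rw [Fin.cons_zero, hc1]; simp only [mul_assoc]⟩
      | succ i =>
        obtain ⟨y', hy'⟩ := hya i
        exact ⟨y' * (w * a 0 * q), by rw [Fin.cons_succ, hy', mul_assoc]⟩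

/-- `full_pos` as a hypothesis -/
def FullPos (A : Type u) [NonUnitalCStarAlgebra A] [PartialOrder A] [StarOrderedRing A] : Prop :=
  ∀ a h : A, 0 ≤ a → a ≠ 0 → 0 ≤ h → ∀ ε : ℝ, 0 < ε → ∃ (m : ℕ) (t : Fin m → A),
    ‖∑ k, star (t k) * a * t k - h‖ < ε

theorem wpi_simple_of (hA : IsSimpleC A) (hF : FullPos A) (hW : WeaklyPurelyInfinite A) :
    EltPI A := by
  obtain ⟨n, hn⟩ := wpi_elementwise hW
  intro h h0 ε hε
  by_cases hh : h = 0
  · subst hh
    exact ⟨0, 0, by simpa using hε, by simpa using hε, by simpa using hε⟩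
  set k : A := CFC.sqrt h with hk
  have hkk : k * k = h := CFC.sqrt_mul_sqrt_self h h0
  have hk0 : 0 ≤ k := CFC.sqrt_nonneg h
  have hks : star k = k := (IsSelfAdjoint.of_nonneg hk0).star_eq
  have hkne : k ≠ 0 := by
    intro h1
    exact hh (by rw [← hkk, h1, mul_zero])
  obtain ⟨a, ha0, ha, haa, hak⟩ := exists_orth hn n hk0 hkne
  obtain ⟨c, y, hc0, hc, hyy, hya⟩ := exists_common hA hh n a ha0 ha
  have hyo : ∀ i j, i ≠ j → star (y i) * y j = 0 := by
    intro i j hij
    obtain ⟨y1, h1⟩ := hya i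
    obtain ⟨y2, h2⟩ := hya j
    rw [h1, h2, star_mul, (IsSelfAdjoint.of_nonneg (ha0 i)).star_eq]
    calc star y1 * a i * (a j * y2) = star y1 * (a i * a j) * y2 := by simp only [mul_assoc]
      _ = 0 := by rw [haa i j hij, mul_zero, zero_mul]
  have hyk : ∀ i, ∃ Y, y i = k * Y := by
    intro i
    obtain ⟨y1, h1⟩ := hya i
    obtain ⟨a1, h2⟩ := hak i
    exact ⟨a1 * y1, by rw [h1, h2, mul_assoc]⟩
  choose Y hY using hyk
  obtain ⟨m, t, ht⟩ := hF c h hc0 hc h0 (ε / 2) (by positivity)
  set T : ℝ := ∑ l, ‖t l‖ + 1 with hT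
  have hT0 : 0 < T := add_pos_of_nonneg_of_pos (Finset.sum_nonneg fun _ _ => norm_nonneg _) one_pos
  obtain ⟨z, hz⟩ := hn c hc0 (m + m) (ε / (4 * T ^ 2)) (by positivity)
  set V : Fin (m + m) → A := fun j => ∑ i, Y i * z i j with hV
  have hkV : ∀ j, k * V j = ∑ i, y i * z i j := by
    intro j
    rw [hV, Finset.mul_sum]
    exact Finset.sum_congr rfl fun i _ => by rw [hY i, mul_assoc]
  have hVV : ∀ j j', ‖star (k * V j) * (k * V j') - (if j = j' then c else 0)‖ ≤
      ε / (4 * T ^ 2) := by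
    intro j j'
    have h1 : star (k * V j) * (k * V j') = ∑ i, star (z i j) * c * z i j' := by
      rw [hkV, hkV, star_sum, Finset.sum_mul_sum]
      refine Finset.sum_congr rfl fun i _ => ?_
      rw [Finset.sum_eq_single i]
      · rw [star_mul, ← hyy i]; simp only [mul_assoc]
      · intro i' _ hi'
        rw [star_mul]
        calc star (z i j) * star (y i) * (y i' * z i' j')
            = star (z i j) * (star (y i) * y i') * z i' j' := by simp only [mul_assoc]
          _ = 0 := by rw [hyo i i' (Ne.symm hi'), mul_zero, zero_mul]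
      · intro h2; exact absurd (Finset.mem_univ i) h2
    rw [h1]
    exact (hz j j').le
  -- the two elements
  have main : ∀ (b b' : Fin m → Fin (m + m)),
      ‖star (∑ l, V (b l) * t l) * h * (∑ l, V (b' l) * t l) -
        ∑ l, ∑ l', star (t l) * (if b l = b' l' then c else 0) * t l'‖ ≤ ε / 4 := by
    intro b b'
    have h1 : star (∑ l, V (b l) * t l) * h * (∑ l, V (b' l) * t l) =
        ∑ l, ∑ l', star (t l) * (star (k * V (b l)) * (k * V (b' l'))) * t l' := by
      rw [star_sum, ← hkk, Finset.sum_mul, Finset.sum_mul]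
      refine Finset.sum_congr rfl fun l _ => ?_
      rw [Finset.mul_sum]
      refine Finset.sum_congr rfl fun l' _ => ?_
      rw [star_mul, star_mul, hks]
      simp only [mul_assoc]
    rw [h1, ← Finset.sum_sub_distrib]
    refine (norm_sum_le _ _).trans ?_
    have h2 : ∀ l, ‖∑ l', star (t l) * (star (k * V (b l)) * (k * V (b' l'))) * t l' -
        ∑ l', star (t l) * (if b l = b' l' then c else 0) * t l'‖ ≤
        ∑ l', ‖t l‖ * (ε / (4 * T ^ 2)) * ‖t l'‖ := by
      intro l
      rw [← Finset.sum_sub_distrib]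
      refine (norm_sum_le _ _).trans (Finset.sum_le_sum fun l' _ => ?_)
      rw [← sub_mul, ← mul_sub]
      exact norm_mul_le_of_le (norm_mul_le_of_le (norm_star _).le (hVV _ _)) le_rfl
    refine (Finset.sum_le_sum fun l _ => h2 l).trans ?_
    have h3 : ∑ l, ∑ l', ‖t l‖ * (ε / (4 * T ^ 2)) * ‖t l'‖ =
        (ε / (4 * T ^ 2)) * (∑ l, ‖t l‖) ^ 2 := by
      rw [sq (∑ l, ‖t l‖), Finset.sum_mul_sum, Finset.mul_sum]
      refine Finset.sum_congr rfl fun l _ => ?_
      rw [Finset.mul_sum]
      exact Finset.sum_congr rfl fun l' _ => by ring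
    rw [h3]
    have h4 : (∑ l, ‖t l‖) ^ 2 ≤ T ^ 2 :=
      pow_le_pow_left₀ (Finset.sum_nonneg fun _ _ => norm_nonneg _) (by rw [hT]; linarith) 2
    calc (ε / (4 * T ^ 2)) * (∑ l, ‖t l‖) ^ 2 ≤ (ε / (4 * T ^ 2)) * T ^ 2 :=
          mul_le_mul_of_nonneg_left h4 (by positivity)
      _ = ε / 4 := by field_simp
  have hdiag : ∀ b : Fin m → Fin (m + m), Function.Injective b →
      ∑ l, ∑ l', star (t l) * (if b l = b l' then c else 0) * t l' =
        ∑ l, star (t l) * c * t l := by
    intro b hb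
    refine Finset.sum_congr rfl fun l _ => ?_
    rw [Finset.sum_eq_single l]
    · rw [if_pos rfl]
    · intro l' _ hl'
      rw [if_neg fun h1 => hl' (hb h1).symm, mul_zero, zero_mul]
    · intro h2; exact absurd (Finset.mem_univ l) h2
  have hfin : ∀ b : Fin m → Fin (m + m), Function.Injective b →
      ‖star (∑ l, V (b l) * t l) * h * (∑ l, V (b l) * t l) - h‖ < ε := by
    intro b hb
    have h1 := main b b
    rw [hdiag b hb] at h1
    calc _ = ‖(star (∑ l, V (b l) * t l) * h * (∑ l, V (b l) * t l) -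
          ∑ l, star (t l) * c * t l) + (∑ l, star (t l) * c * t l - h)‖ := by
          congr 1; abel
      _ ≤ _ := norm_add_le _ _
      _ < ε := by linarith
  refine ⟨∑ l, V (Fin.castAdd m l) * t l, ∑ l, V (Fin.natAdd m l) * t l,
    hfin _ (Fin.castAdd_injective m m), hfin _ (Fin.natAdd_injective m m), ?_⟩
  have h1 := main (Fin.castAdd m) (Fin.natAdd m)
  have h2 : ∑ l : Fin m, ∑ l' : Fin m, star (t l) *
      (if Fin.castAdd m l = Fin.natAdd m l' then c else 0) * t l' = 0 := by
    refine Finset.sum_eq_zero fun l _ => Finset.sum_eq_zero fun l' _ => ?_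
    rw [if_neg, mul_zero, zero_mul]
    intro h3
    have h4 := congrArg Fin.val h3
    simp only [Fin.val_castAdd, Fin.val_natAdd] at h4
    omega
  rw [h2, sub_zero] at h1
  linarith

end

end Vale.Agent.P133.H681
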