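import Vale.Agent.P133.H681.Chain2
import Vale.Agent.P133.H832.ChainE

/-! P133 (helper681): splitting off orthogonal copies. -/

open scoped ComplexOrder CStarAlgebra NNReal

namespace Vale.Agent.P133.H681

open Vale.Agent.P133 Vale.Agent.P133.Statement Vale.Agent.P133.H832 Vale.Agent.P133F

universe u

section

variable {A : Type u} [NonUnitalCStarAlgebra A] [PartialOrder A] [StarOrderedRing A]

/-- functions of `y y*` -/
theorem cut_data (y : A) {κ : ℝ} (hκ : 0 < κ) :
    ∃ U b ψ s : A, star U = U ∧ star b = b ∧ b * U = b ∧ U = y * star y * ψ ∧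
      ‖ψ‖ ≤ 1 / κ ∧ ‖U‖ ≤ 1 ∧ b = y * star y * s ∧
      (y * star y) * (y * star y) - κ • (y * star y) ≤ (b * b) * (b * b) := by
  set V : A := y * star y with hV
  have hV0 : 0 ≤ V := mul_star_self_nonneg y
  have hVs : IsSelfAdjoint V := IsSelfAdjoint.of_nonneg hV0
  set f1 : ℝ → ℝ := fun t => t / (max t κ) ^ 2 with hf1
  have hmax : ∀ t : ℝ, 0 < max t κ := fun t => lt_of_lt_of_le hκ (le_max_right _ _)
  have hf1c : Continuous f1 :=
    Continuous.div (by fun_prop) (by fun_prop) fun t => (pow_pos (hmax t) 2).ne'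
  have hf10 : f1 0 = 0 := by simp [hf1]
  set f : ℝ → ℝ := fun t => t * f1 t with hf
  have hfc : Continuous f := continuous_id.mul hf1c
  have hf0 : f 0 = 0 := by simp [hf]
  set f0 : ℝ → ℝ := fun t => √(√(max (t * t - κ * t) 0)) with hf0def
  have hf0c : Continuous f0 := by
    rw [hf0def]
    exact (Real.continuous_sqrt.comp (Real.continuous_sqrt.comp (by fun_prop)))
  have hf00 : f0 0 = 0 := by simp [hf0def]
  have hf0z : ∀ t : ℝ, 0 ≤ t → t ≤ κ → f0 t = 0 := by
    intro t h1 h2
    have : t * t - κ * t ≤ 0 := by nlinarith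
    simp only [hf0def]
    rw [max_eq_right this]; simp
  have hfone : ∀ t : ℝ, κ ≤ t → f t = 1 := by
    intro t h1
    have h2 : t ≠ 0 := by linarith
    simp only [hf, hf1]
    rw [max_eq_left h1]
    field_simp
  set s : ℝ → ℝ := fun t => f0 t / max t κ with hs
  have hsc : Continuous s := Continuous.div hf0c (by fun_prop) fun t => (hmax t).ne'
  have hs0 : s 0 = 0 := by simp only [hs, hf00, zero_div]
  have hq : ∀ t ∈ quasispectrum ℝ V, 0 ≤ t := fun t ht =>
    quasispectrum_nonneg_of_nonneg V hV0 t ht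
  refine ⟨cfcₙ f V, cfcₙ f0 V, cfcₙ f1 V, cfcₙ s V,
    (cfcₙ_predicate (p := IsSelfAdjoint) f V).star_eq,
    (cfcₙ_predicate (p := IsSelfAdjoint) f0 V).star_eq, ?_, ?_, ?_, ?_, ?_, ?_⟩
  · rw [← cfcₙ_mul f0 f V hf0c.continuousOn hf00 hfc.continuousOn hf0]
    refine cfcₙ_congr fun t ht => ?_
    rcases le_total t κ with h | h
    · simp only [hf0z t (hq t ht) h, zero_mul]
    · simp only [hfone t h, mul_one]
  · rw [hf, cfcₙ_mul (fun t => t) f1 V (by fun_prop) rfl hf1c.continuousOn hf10, cfcₙ_id' ℝ V]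
  · refine norm_cfcₙ_le fun t ht => ?_
    have ht0 := hq t ht
    simp only [hf1]
    rw [Real.norm_of_nonneg (by positivity), div_le_div_iff₀ (pow_pos (hmax t) 2) hκ, one_mul, sq]
    exact mul_le_mul (le_max_left _ _) (le_max_right _ _) hκ.le (hmax t).le
  · refine norm_cfcₙ_le fun t ht => ?_
    have ht0 := hq t ht
    simp only [hf, hf1]
    rw [Real.norm_of_nonneg (by positivity), mul_div_assoc', div_le_one (pow_pos (hmax t) 2), sq]
    exact mul_le_mul (le_max_left _ _) (le_max_left _ _) ht0 (hmax t).le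
  · have : V * cfcₙ s V = cfcₙ (fun t => t * s t) V := by
      rw [cfcₙ_mul (fun t => t) s V (by fun_prop) rfl hsc.continuousOn hs0, cfcₙ_id' ℝ V]
    rw [this]
    refine cfcₙ_congr fun t ht => ?_
    rcases le_total t κ with h | h
    · simp only [hs, hf0z t (hq t ht) h, zero_div, mul_zero]
    · have h2 : t ≠ 0 := by linarith
      simp only [hs]
      rw [max_eq_left h]
      field_simp
  · have e1 : cfcₙ f0 V * cfcₙ f0 V * (cfcₙ f0 V * cfcₙ f0 V) =
        cfcₙ (fun t => f0 t * f0 t * (f0 t * f0 t)) V := by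
      rw [cfcₙ_mul (fun t => f0 t * f0 t) (fun t => f0 t * f0 t) V (hf0c.mul hf0c).continuousOn
        (by simp [hf00]) (hf0c.mul hf0c).continuousOn (by simp [hf00]),
        cfcₙ_mul f0 f0 V hf0c.continuousOn hf00 hf0c.continuousOn hf00]
    have e2 : V * V - κ • V = cfcₙ (fun t => t * t - κ * t) V := by
      rw [cfcₙ_sub (fun t : ℝ => t * t) (fun t => κ * t) V (by fun_prop) (by simp)
        (by fun_prop) (by simp), cfcₙ_mul (fun t : ℝ => t) (fun t => t) V (by fun_prop) rfl
        (by fun_prop) rfl, cfcₙ_id' ℝ V]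
      congr 1
      have := cfcₙ_smul κ (fun t : ℝ => t) V (by fun_prop) rfl
      simp only [smul_eq_mul] at this
      rw [this, cfcₙ_id' ℝ V]
    rw [e1, e2]
    refine cfcₙ_mono (fun t ht => ?_) (by fun_prop)
      ((hf0c.mul hf0c).mul (hf0c.mul hf0c)).continuousOn (by simp) (by simp [hf00])
    have h1 : f0 t * f0 t = √(max (t * t - κ * t) 0) := Real.mul_self_sqrt (Real.sqrt_nonneg _)
    simp only [h1]
    rw [Real.mul_self_sqrt (le_max_right _ _)]
    exact le_max_left _ _

theorem scalar_cut {y E b : A} (hE : 0 ≤ E) {δ : ℝ} (hδ : 0 < δ) (hbs : star b = b)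
    (hb : (y * star y) * (y * star y) - (δ / 2) • (y * star y) ≤ (b * b) * (b * b))
    (hη : ‖(star y * y * (star y * y) * (star y * y) - (δ / 2) • (star y * y * (star y * y))) -
      (E * E * E - (δ / 2) • (E * E))‖ ≤ δ ^ 3 / 4) {τ : ℝ} (hτ : 0 < τ) :
    ∃ w : A, ‖star (b * (b * (y * w))) * (b * (b * (y * w))) -
      cfcₙ (fun t : ℝ => max (t - δ) 0) E‖ ≤ τ := by
  set l : A := cfcₙ (fun t : ℝ => max (t - δ) 0) E with hl
  set g : ℝ → ℝ := fun t => max (t - δ) 0 with hg
  have hgc : Continuous g := by fun_prop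
  have hg0 : g 0 = 0 := by simp only [hg, zero_sub]; exact max_eq_right (by linarith)
  have hgn : ∀ t, 0 ≤ g t := fun t => le_max_right _ _
  set k : A := cfcₙ (fun t => √(g t)) E with hk
  have hkc : Continuous (fun t => √(g t)) := hgc.sqrt
  have hk0 : (fun t => √(g t)) 0 = 0 := by simp only [hg0, Real.sqrt_zero]
  have hks : star k = k := (cfcₙ_predicate (p := IsSelfAdjoint) (fun t => √(g t)) E).star_eq
  have hkk : k * k = l := by
    rw [hk, ← cfcₙ_mul (fun t => √(g t)) (fun t => √(g t)) E hkc.continuousOn hk0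
      hkc.continuousOn hk0, hl]
    exact cfcₙ_congr fun t _ => Real.mul_self_sqrt (hgn t)
  have hl0 : 0 ≤ l := by rw [hl]; exact cfcₙ_nonneg fun s _ => hgn s
  have hEs : IsSelfAdjoint E := IsSelfAdjoint.of_nonneg hE
  set Γ : A := star y * y with hΓ
  have hΓs : star Γ = Γ := by rw [hΓ, star_mul, star_star]
  set R : A := (Γ * Γ * Γ - (δ / 2) • (Γ * Γ)) - (E * E * E - (δ / 2) • (E * E)) with hR
  have hRs : IsSelfAdjoint R := by
    rw [IsSelfAdjoint, hR]
    simp only [star_sub, star_smul, star_trivial (δ / 2), star_mul, hΓs, hEs.star_eq, mul_assoc]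
  -- the lower bound
  have h1 : k * (Γ * Γ * Γ - (δ / 2) • (Γ * Γ)) * k ≤ k * (star y * ((b * b) * (b * b)) * y) * k := by
    have e1 : Γ * Γ * Γ - (δ / 2) • (Γ * Γ) =
        star y * ((y * star y) * (y * star y) - (δ / 2) • (y * star y)) * y := by
      rw [mul_sub, sub_mul, mul_smul_comm, smul_mul_assoc, hΓ]
      simp only [mul_assoc]
    rw [e1]
    have h2 := star_left_conjugate_le_conjugate (star_left_conjugate_le_conjugate hb y) k
    rwa [hks] at h2
  have h2 : -((δ ^ 3 / 4) • l) ≤ k * R * k := by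
    have h3 := CStarAlgebra.star_left_conjugate_le_norm_smul (a := k) (b := -R) hRs.neg
    rw [hks, hkk, norm_neg] at h3
    have h4 : ‖R‖ • l ≤ (δ ^ 3 / 4) • l := smul_le_smul_of_nonneg_right hη hl0
    have h5 := h3.trans h4
    rw [mul_neg, neg_mul] at h5
    exact neg_le.1 h5
  have h3 : (δ ^ 3 / 2) • l ≤ k * (E * E * E - (δ / 2) • (E * E)) * k := by
    have e1 : E * E * E - (δ / 2) • (E * E) = cfcₙ (fun t => t * t * t - δ / 2 * (t * t)) E := by
      rw [cfcₙ_sub (fun t : ℝ => t * t * t) (fun t => δ / 2 * (t * t)) E (by fun_prop) (by simp)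
        (by fun_prop) (by simp), cfcₙ_mul (fun t : ℝ => t * t) (fun t => t) E (by fun_prop)
        (by simp) (by fun_prop) rfl, cfcₙ_mul (fun t : ℝ => t) (fun t => t) E (by fun_prop) rfl
        (by fun_prop) rfl, cfcₙ_id' ℝ E]
      congr 1
      have := cfcₙ_smul (δ / 2) (fun t : ℝ => t * t) E (by fun_prop) (by simp)
      simp only [smul_eq_mul] at this
      rw [this, cfcₙ_mul (fun t : ℝ => t) (fun t => t) E (by fun_prop) rfl
        (by fun_prop) rfl, cfcₙ_id' ℝ E]
    have e2 : k * (E * E * E - (δ / 2) • (E * E)) * k =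
        cfcₙ (fun t => √(g t) * (t * t * t - δ / 2 * (t * t)) * √(g t)) E := by
      rw [e1, cfcₙ_mul (fun t => √(g t) * (t * t * t - δ / 2 * (t * t))) (fun t => √(g t)) E
        (hkc.mul (by fun_prop)).continuousOn (by simp) hkc.continuousOn hk0,
        cfcₙ_mul (fun t => √(g t)) (fun t => t * t * t - δ / 2 * (t * t)) E
        hkc.continuousOn hk0 (by fun_prop) (by simp)]
    rw [e2, hl, ← cfcₙ_smul (δ ^ 3 / 2) (fun t : ℝ => max (t - δ) 0) E hgc.continuousOn hg0]
    refine cfcₙ_mono (fun t ht => ?_) (by fun_prop)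
      ((hkc.mul (by fun_prop)).mul hkc).continuousOn
      (by show (δ ^ 3 / 2) • g 0 = 0; rw [hg0, smul_zero]) (by simp [hg0])
    have ht0 : 0 ≤ t := quasispectrum_nonneg_of_nonneg E hE t ht
    have e3 : √(g t) * (t * t * t - δ / 2 * (t * t)) * √(g t) =
        g t * (t * t * t - δ / 2 * (t * t)) := by
      calc _ = (√(g t) * √(g t)) * (t * t * t - δ / 2 * (t * t)) := by ring
        _ = _ := by rw [Real.mul_self_sqrt (hgn t)]
    simp only [smul_eq_mul]
    rw [e3]
    rcases le_total t δ with h4 | h4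
    · have : g t = 0 := max_eq_right (by linarith)
      have h5 : max (t - δ) 0 = 0 := this
      rw [this, h5]; simp
    · have h5 : 0 ≤ g t := hgn t
      have h6 : δ ^ 3 / 2 ≤ t * t * t - δ / 2 * (t * t) := by
        have h7 : δ * δ ≤ t * t := by nlinarith
        have h8 : δ / 2 ≤ t - δ / 2 := by linarith
        have h9 : (δ * δ) * (δ / 2) ≤ (t * t) * (t - δ / 2) :=
          mul_le_mul h7 h8 (by positivity) (by positivity)
        nlinarith
      calc δ ^ 3 / 2 * g t ≤ (t * t * t - δ / 2 * (t * t)) * g t :=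
            mul_le_mul_of_nonneg_right h6 h5
        _ = _ := by ring
  have h4 : (δ ^ 3 / 4) • l ≤ k * (star y * ((b * b) * (b * b)) * y) * k := by
    refine le_trans ?_ h1
    have e1 : k * (Γ * Γ * Γ - (δ / 2) • (Γ * Γ)) * k =
        k * (E * E * E - (δ / 2) • (E * E)) * k + k * R * k := by
      rw [hR, mul_sub k (Γ * Γ * Γ - (δ / 2) • (Γ * Γ)), sub_mul]
      abel
    rw [e1]
    have e2 : (δ ^ 3 / 4) • l = (δ ^ 3 / 2) • l + -((δ ^ 3 / 4) • l) := by
      rw [← neg_smul, ← add_smul]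
      congr 1; ring
    rw [e2]
    exact add_le_add h3 h2
  obtain ⟨D, hD⟩ := order_factor (smul_nonneg (by positivity) hl0) h4
    (δ := τ * (δ ^ 3 / 4)) (by positivity)
  set c : ℝ := √(4 / δ ^ 3) with hc
  have hcc : c * c = 4 / δ ^ 3 := Real.mul_self_sqrt (by positivity)
  refine ⟨c • (k * D), ?_⟩
  have e1 : star (b * (b * (y * (c • (k * D))))) * (b * (b * (y * (c • (k * D))))) =
      (4 / δ ^ 3) • (star D * (k * (star y * ((b * b) * (b * b)) * y) * k) * D) := by
    rw [mul_smul_comm, mul_smul_comm, mul_smul_comm, star_smul, star_trivial,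
      smul_mul_smul_comm, hcc]
    congr 1
    simp only [star_mul, hks, hbs, mul_assoc]
  have e2 : l = (4 / δ ^ 3) • ((δ ^ 3 / 4) • l) := by
    rw [smul_smul]
    have : 4 / δ ^ 3 * (δ ^ 3 / 4) = 1 := by field_simp
    rw [this, one_smul]
  have e3 : (4 / δ ^ 3) • (star D * (k * (star y * ((b * b) * (b * b)) * y) * k) * D) - l =
      (4 / δ ^ 3) • (star D * (k * (star y * ((b * b) * (b * b)) * y) * k) * D -
        (δ ^ 3 / 4) • l) := by rw [smul_sub, ← e2]
  rw [e1, e3, norm_smul, Real.norm_of_nonneg (by positivity)]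
  calc 4 / δ ^ 3 * _ ≤ 4 / δ ^ 3 * (τ * (δ ^ 3 / 4)) :=
        mul_le_mul_of_nonneg_left hD (by positivity)
    _ = τ := by field_simp

end

end Vale.Agent.P133.H681
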