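import Vale.Agent.P133.H681.Tame1

/-! P133 (helper681): splitting off orthogonal copies, II. -/

open scoped ComplexOrder CStarAlgebra NNReal

namespace Vale.Agent.P133.H681

open Vale.Agent.P133 Vale.Agent.P133.Statement Vale.Agent.P133.H832 Vale.Agent.P133F

universe u

/-- membership in the right ideal generated by `y` -/
def InR {A : Type u} [NonUnitalCStarAlgebra A] {N : ℕ} (y : Fin N → A) (x : A) : Prop :=
  ∀ R : AddSubgroup A, (∀ x ∈ R, ∀ a, x * a ∈ R) → (∀ k, y k ∈ R) → x ∈ R

section

variable {A : Type u} [NonUnitalCStarAlgebra A]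

/-- elements annihilated by `b` from the left -/
def annR (b : A) : AddSubgroup A where
  carrier := {x | b * x = 0}
  zero_mem' := mul_zero b
  add_mem' := by
    intro x y hx hy
    have h1 : b * x = 0 := hx
    have h2 : b * y = 0 := hy
    show b * (x + y) = 0
    rw [mul_add, h1, h2, add_zero]
  neg_mem' := by
    intro x hx
    have h1 : b * x = 0 := hx
    show b * -x = 0
    rw [mul_neg, h1, neg_zero]

theorem annR_mul {b x : A} (hx : x ∈ annR b) (a : A) : x * a ∈ annR b := by
  have h1 : b * x = 0 := hx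
  show b * (x * a) = 0
  rw [← mul_assoc, h1, zero_mul]

variable [PartialOrder A] [StarOrderedRing A]

theorem seq_split (N : ℕ) {E : A} (hE : 0 ≤ E) {δ : ℝ} (hδ : 0 < δ) :
    ∃ η : ℝ, 0 < η ∧ ∀ y : Fin N → A,
      (∀ i j, ‖star (y i) * y j - (if i = j then E else 0)‖ ≤ η) →
      ∃ b P : A, star b = b ∧ b * P = b ∧ InR y b ∧ InR y P ∧
        ∀ τ : ℝ, 0 < τ → ∃ T : Fin N → A, (∀ i, InR y (T i)) ∧
          ∀ i j, ‖star (b * T i) * (b * T j) -
            (if i = j then cfcₙ (fun t : ℝ => max (t - δ) 0) E else 0)‖ ≤ τ := by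
  induction N with
  | zero =>
    exact ⟨1, one_pos, fun y _ => ⟨0, 0, star_zero _, mul_zero _, fun R _ _ => R.zero_mem,
      fun R _ _ => R.zero_mem, fun τ _ => ⟨Fin.elim0, fun i => i.elim0, fun i => i.elim0⟩⟩⟩
  | succ N ih =>
    obtain ⟨η', hη', H⟩ := ih
    have hcont : Continuous fun Γ : A => Γ * Γ * Γ - (δ / 2) • (Γ * Γ) := by fun_prop
    obtain ⟨η1, hη1, hc1⟩ := Metric.continuousAt_iff.1 (hcont.continuousAt (x := E))
      (δ ^ 3 / 4) (by positivity)
    set κ : ℝ := δ / 2 with hκdef
    have hκ : 0 < κ := by positivity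
    set C : ℝ := ‖E‖ + 1 with hC
    have hC1 : 1 ≤ C := by rw [hC]; linarith [norm_nonneg E]
    have hCp : 0 < C := by linarith
    set η : ℝ := min (min 1 (η1 / 2)) (η' / (1 + 3 * C / κ)) with hη
    have hη0 : 0 < η := lt_min (lt_min one_pos (by positivity)) (by positivity)
    have hηle1 : η ≤ 1 := (min_le_left _ _).trans (min_le_left _ _)
    have hηle2 : η ≤ η1 / 2 := (min_le_left _ _).trans (min_le_right _ _)
    have hηle3 : η * (1 + 3 * C / κ) ≤ η' := by
      rw [← le_div_iff₀ (by positivity)]; exact min_le_right _ _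
    refine ⟨η, hη0, fun y hy => ?_⟩
    obtain ⟨U, b0, ψ, s, hUs, hb0s, hb0U, hUy, hψ, hU1, hb0y, hlow⟩ := cut_data (y 0) hκ
    -- norms
    have hyn : ∀ i, ‖y i‖ * ‖y i‖ ≤ C := by
      intro i
      rw [← CStarRing.norm_star_mul_self]
      have h1 := hy i i
      rw [if_pos rfl] at h1
      calc ‖star (y i) * y i‖ = ‖(star (y i) * y i - E) + E‖ := by rw [sub_add_cancel]
        _ ≤ ‖star (y i) * y i - E‖ + ‖E‖ := norm_add_le _ _
        _ ≤ C := by rw [hC]; linarith
    have hyy : ∀ i j, ‖y i‖ * ‖y j‖ ≤ C := by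
      intro i j
      nlinarith [hyn i, hyn j, sq_nonneg (‖y i‖ - ‖y j‖)]
    set y' : Fin N → A := fun i => y i.succ - U * y i.succ with hy'def
    have hy' : ∀ i j, ‖star (y' i) * y' j - (if i = j then E else 0)‖ ≤ η' := by
      intro i j
      have e1 : star (y' i) * y' j = star (y i.succ) * y j.succ -
          (star (y i.succ) * y 0) * (star (y 0) * (ψ + ψ - ψ * U) * y j.succ) := by
        have e2 : star (y' i) * y' j = star (y i.succ) * y j.succ -
            star (y i.succ) * (U + U - U * U) * y j.succ := by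
          simp only [hy'def, star_sub, star_mul, hUs]
          noncomm_ring
        have e3 : U + U - U * U = y 0 * star (y 0) * (ψ + ψ - ψ * U) := by
          rw [mul_sub, mul_add, ← mul_assoc (y 0 * star (y 0)) ψ U, ← hUy]
        rw [e2, e3]
        simp only [mul_assoc]
      have h0 : ‖star (y i.succ) * y 0‖ ≤ η := by
        have := hy i.succ 0
        rwa [if_neg (Fin.succ_ne_zero i), sub_zero] at this
      have hψ3 : ‖ψ + ψ - ψ * U‖ ≤ 3 / κ := by
        calc ‖ψ + ψ - ψ * U‖ ≤ ‖ψ‖ + ‖ψ‖ + ‖ψ‖ * ‖U‖ :=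
              (norm_sub_le _ _).trans (add_le_add (norm_add_le _ _) (norm_mul_le _ _))
          _ ≤ 1 / κ + 1 / κ + 1 / κ * 1 := by gcongr
          _ = 3 / κ := by ring
      have h1 : ‖star (y 0) * (ψ + ψ - ψ * U) * y j.succ‖ ≤ 3 * C / κ := by
        calc _ ≤ ‖y 0‖ * (3 / κ) * ‖y j.succ‖ :=
              norm_mul_le_of_le (norm_mul_le_of_le (norm_star _).le hψ3) le_rfl
          _ = (‖y 0‖ * ‖y j.succ‖) * (3 / κ) := by ring
          _ ≤ C * (3 / κ) := by gcongr; exact hyy _ _
          _ = 3 * C / κ := by ring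
      have h2 : ‖star (y i.succ) * y j.succ - (if i = j then E else 0)‖ ≤ η := by
        have := hy i.succ j.succ
        simpa only [Fin.succ_inj] using this
      rw [e1]
      calc _ = ‖(star (y i.succ) * y j.succ - (if i = j then E else 0)) -
            (star (y i.succ) * y 0) * (star (y 0) * (ψ + ψ - ψ * U) * y j.succ)‖ := by
            congr 1; abel
        _ ≤ η + η * (3 * C / κ) := (norm_sub_le _ _).trans
            (add_le_add h2 (norm_mul_le_of_le h0 h1))
        _ = η * (1 + 3 * C / κ) := by ring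
        _ ≤ η' := hηle3
    obtain ⟨b', P', hb's, hbP', hRb, hRP, HT⟩ := H y' hy'
    have hann : ∀ x, InR y' x → b0 * x = 0 := by
      intro x hx
      refine hx (annR b0) (fun x hx a => annR_mul hx a) fun k => ?_
      show b0 * (y k.succ - U * y k.succ) = 0
      rw [mul_sub, ← mul_assoc, hb0U, sub_self]
    have hsub : ∀ x, InR y' x → InR y x := by
      intro x hx R hR hyR
      refine hx R hR fun k => R.sub_mem (hyR _) ?_
      rw [hUy, mul_assoc (y 0) (star (y 0)) ψ, mul_assoc (y 0)]
      exact hR _ (hyR 0) _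
    have hb0b' : b0 * b' = 0 := hann _ hRb
    have hb'b0 : b' * b0 = 0 := by
      have := congrArg star hb0b'
      rwa [star_mul, star_zero, hb's, hb0s] at this
    have hb0P' : b0 * P' = 0 := hann _ hRP
    have hRb0 : InR y b0 := by
      intro R hR hyR
      rw [hb0y, mul_assoc (y 0)]
      exact hR _ (hyR 0) _
    have hRU : InR y U := by
      intro R hR hyR
      rw [hUy, mul_assoc (y 0)]
      exact hR _ (hyR 0) _
    have hb'U0 : ∀ x, b' * (b0 * x) = 0 := fun x => by rw [← mul_assoc, hb'b0, zero_mul]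
    refine ⟨b0 + b', U + P' - P' * U, ?_, ?_, ?_, ?_, fun τ hτ => ?_⟩
    · rw [star_add, hb0s, hb's]
    · have e1 : (b0 + b') * (U + P' - P' * U) =
          b0 * U + b0 * P' - b0 * P' * U + (b' * U + b' * P' - b' * P' * U) := by
        noncomm_ring
      rw [e1, hb0U, hb0P', hbP', zero_mul]
      abel
    · intro R hR hyR
      exact R.add_mem (hRb0 R hR hyR) (hsub _ hRb R hR hyR)
    · intro R hR hyR
      exact R.sub_mem (R.add_mem (hRU R hR hyR) (hsub _ hRP R hR hyR))
        (hR _ (hsub _ hRP R hR hyR) _)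
    · obtain ⟨T', hT', hTT⟩ := HT τ hτ
      have hηc : ‖(star (y 0) * y 0 * (star (y 0) * y 0) * (star (y 0) * y 0) -
          (δ / 2) • (star (y 0) * y 0 * (star (y 0) * y 0))) -
          (E * E * E - (δ / 2) • (E * E))‖ ≤ δ ^ 3 / 4 := by
        have h1 : dist (star (y 0) * y 0) E < η1 := by
          have := hy 0 0
          rw [if_pos rfl] at this
          rw [dist_eq_norm]
          linarith
        have h2 := (hc1 h1).le
        rwa [dist_eq_norm] at h2
      obtain ⟨w, hw⟩ := scalar_cut hE hδ hb0s hlow hηc hτ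
      have hbT0 : (b0 + b') * (b0 * (y 0 * w)) = b0 * (b0 * (y 0 * w)) := by
        rw [add_mul, hb'U0, add_zero]
      have hbT : ∀ i, (b0 + b') * T' i = b' * T' i := by
        intro i
        rw [add_mul, hann _ (hT' i), zero_add]
      refine ⟨Fin.cons (b0 * (y 0 * w)) T', fun i => ?_, fun i j => ?_⟩
      · refine Fin.cases ?_ (fun i => ?_) i
        · intro R hR hyR
          exact hR _ (hRb0 R hR hyR) _
        · exact hsub _ (hT' i)
      · refine Fin.cases ?_ (fun i => ?_) i
        · refine Fin.cases ?_ (fun j => ?_) j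
          · rw [Fin.cons_zero, hbT0, if_pos rfl]
            exact hw
          · rw [Fin.cons_zero, Fin.cons_succ, hbT0, hbT, if_neg (Fin.succ_ne_zero j).symm, sub_zero]
            have : star (b0 * (b0 * (y 0 * w))) * (b' * T' j) = 0 := by
              rw [star_mul, hb0s]
              calc _ = star (b0 * (y 0 * w)) * (b0 * b') * T' j := by simp only [mul_assoc]
                _ = 0 := by rw [hb0b', mul_zero, zero_mul]
            rw [this, norm_zero]
            exact hτ.le
        · refine Fin.cases ?_ (fun j => ?_) j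
          · rw [Fin.cons_zero, Fin.cons_succ, hbT0, hbT, if_neg (Fin.succ_ne_zero i), sub_zero]
            have : star (b' * T' i) * (b0 * (b0 * (y 0 * w))) = 0 := by
              rw [star_mul, hb's]
              calc _ = star (T' i) * (b' * b0) * (b0 * (y 0 * w)) := by simp only [mul_assoc]
                _ = 0 := by rw [hb'b0, mul_zero, zero_mul]
            rw [this, norm_zero]
            exact hτ.le
          · rw [Fin.cons_succ, Fin.cons_succ, hbT, hbT]
            simpa only [Fin.succ_inj] using hTT i j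

end

end Vale.Agent.P133.H681
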