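import Vale.Agent.P133.H681.Tame2

/-! P133 (helper681): auxiliary facts for the merging lemma. -/

open scoped ComplexOrder CStarAlgebra NNReal

namespace Vale.Agent.P133.H681

open Vale.Agent.P133 Vale.Agent.P133.Statement Vale.Agent.P133.H832 Vale.Agent.P133F

universe u

section

variable {A : Type u} [NonUnitalCStarAlgebra A]

/-- right multiples of `q` -/
def mulRight (q : A) : AddSubgroup A where
  carrier := {x | ∃ z, x = q * z}
  zero_mem' := ⟨0, (mul_zero q).symm⟩
  add_mem' := by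
    rintro x y ⟨z, rfl⟩ ⟨w, rfl⟩
    exact ⟨z + w, (mul_add _ _ _).symm⟩
  neg_mem' := by
    rintro x ⟨z, rfl⟩
    exact ⟨-z, (mul_neg _ _).symm⟩

/-- the ideal generated by `e`, as an additive group -/
def idG (e : A) : AddSubgroup A where
  carrier := {x | InId e x}
  zero_mem' := InId.zero e
  add_mem' := fun hx hy => InId.add hx hy
  neg_mem' := by
    intro x hx
    have := InId.smul (-1) (show InId e x from hx)
    rwa [neg_one_smul] at this

theorem InId.neg' {e x : A} (h : InId e x) : InId e (-x) := (idG e).neg_mem h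

theorem InId.sub' {e x y : A} (h : InId e x) (h' : InId e y) : InId e (x - y) :=
  (idG e).sub_mem h h'

theorem InId.mulL' {e x : A} (he : star e = e) (h : InId e x) (a : A) : InId e (a * x) := by
  have h1 := InId.star_right he ((InId.star_right he h).mulR (star a))
  rwa [star_mul, star_star, star_star] at h1

/-- the closed ideal generated by `l` -/
def idSub (l : A) : Submodule ℂ A where
  carrier := {x | InId l x}
  zero_mem' := InId.zero l
  add_mem' := fun hx hy => InId.add hx hy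
  smul_mem' := fun c _ hx => InId.smul c hx

theorem idSub_closed (l : A) : IsClosed (idSub l : Set A) := by
  rw [← isSeqClosed_iff_isClosed]
  intro u x hu hux
  have hu' : ∀ n, InId l (u n) := hu
  refine InId.lim fun ε hε => ?_
  obtain ⟨n, hn⟩ := (Metric.tendsto_atTop.1 hux) ε hε
  exact ⟨u n, hu' n, by rw [← dist_eq_norm]; exact hn n le_rfl⟩

variable [PartialOrder A] [StarOrderedRing A]

theorem InId.refl' {x : A} (hx : 0 ≤ x) : InId x x := by
  refine InId.lim fun ε hε => ?_
  obtain ⟨d, hd⟩ := order_factor hx le_rfl (half_pos hε)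
  exact ⟨_, InId.term x (star d) d, by linarith⟩

/-- approximate units of singly generated ideals -/
theorem unit_for {ι : Type} [Fintype ι] {l : A} (hl : star l = l) (x : ι → A)
    (hx : ∀ i, InId l (x i)) {ε : ℝ} (hε : 0 < ε) :
    ∃ g : A, 0 ≤ g ∧ ‖g‖ ≤ 1 ∧ InId l g ∧ ∀ i, ‖(x i - g * x i) - (x i - g * x i) * g‖ ≤ ε := by
  have hL : ∀ a x : A, x ∈ idSub l → a * x ∈ idSub l := fun a x hx => InId.mulL' hl hx a
  have hR : ∀ a x : A, x ∈ idSub l → x * a ∈ idSub l := fun a x hx => InId.mulR hx a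
  have hS : ∀ x ∈ idSub l, star x ∈ idSub l := fun x hx => InId.star_right hl hx
  obtain ⟨ν, hν, hνn⟩ := exists_approx_unit (ι := ι)
    (idealU (idSub l) (idSub_closed l) hL hR hS)
    (c := fun i => (x i : Unitization ℂ A)) (fun i => mem_idealU.2 (hx i))
    (ε := ε / 2) (by positivity)
  have hνf : ν ∈ final_ideal A := hν.mem.1
  obtain ⟨g, rfl⟩ := final_mem_iff.1 hνf
  have hg0 : 0 ≤ g := by
    have := hν.nonneg
    rwa [Unitization.inr_nonneg_iff] at this
  have hg1 : ‖g‖ ≤ 1 := by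
    rw [← final_norm]; exact hν.norm_le
  refine ⟨g, hg0, hg1, mem_idealU.1 hν.mem, fun i => ?_⟩
  have k2 := (hνn i).2
  have e2 : ‖x i - g * x i‖ < ε / 2 := by
    rw [← final_norm, Unitization.inr_sub, Unitization.inr_mul]
    have : (x i : Unitization ℂ A) - (g : Unitization ℂ A) * (x i : Unitization ℂ A) =
      (1 - (g : Unitization ℂ A)) * (x i : Unitization ℂ A) := by noncomm_ring
    rw [this]; exact k2
  calc _ ≤ ‖x i - g * x i‖ + ‖(x i - g * x i) * g‖ := norm_sub_le _ _
    _ ≤ ε / 2 + ε / 2 * 1 := add_le_add e2.le (norm_mul_le_of_le e2.le hg1)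
    _ = ε := by ring

theorem local_unit {j : A} (hj : 0 ≤ j) {ε : ℝ} (hε : 0 < ε) :
    ∃ w s : A, star w = w ∧ ‖w‖ ≤ 1 ∧ w = j * s ∧ ‖w * j * w - j‖ ≤ ε := by
  set f1 : ℝ → ℝ := fun t => t / (max t ε) ^ 2 with hf1
  have hmax : ∀ t : ℝ, 0 < max t ε := fun t => lt_of_lt_of_le hε (le_max_right _ _)
  have hf1c : Continuous f1 :=
    Continuous.div (by fun_prop) (by fun_prop) fun t => (pow_pos (hmax t) 2).ne'
  have hf10 : f1 0 = 0 := by simp [hf1]
  set f : ℝ → ℝ := fun t => t * f1 t with hf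
  have hfc : Continuous f := continuous_id.mul hf1c
  have hf0 : f 0 = 0 := by simp [hf]
  have hq : ∀ t ∈ quasispectrum ℝ j, 0 ≤ t := fun t ht =>
    quasispectrum_nonneg_of_nonneg j hj t ht
  have hjs : IsSelfAdjoint j := IsSelfAdjoint.of_nonneg hj
  have hfb : ∀ t : ℝ, 0 ≤ t → 0 ≤ f t ∧ f t ≤ 1 := by
    intro t ht
    simp only [hf, hf1]
    refine ⟨by positivity, ?_⟩
    rw [mul_div_assoc', div_le_one (pow_pos (hmax t) 2), sq]
    exact mul_le_mul (le_max_left _ _) (le_max_left _ _) ht (hmax t).le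
  refine ⟨cfcₙ f j, cfcₙ f1 j, (cfcₙ_predicate (p := IsSelfAdjoint) f j).star_eq, ?_, ?_, ?_⟩
  · refine norm_cfcₙ_le fun t ht => ?_
    obtain ⟨h1, h2⟩ := hfb t (hq t ht)
    rw [Real.norm_of_nonneg h1]; exact h2
  · rw [hf, cfcₙ_mul (fun t => t) f1 j (by fun_prop) rfl hf1c.continuousOn hf10, cfcₙ_id' ℝ j]
  · have e1 : cfcₙ f j * j * cfcₙ f j - j = cfcₙ (fun t => f t * t * f t - t) j := by
      rw [cfcₙ_sub (fun t => f t * t * f t) (fun t => t) j
        ((hfc.mul continuous_id).mul hfc).continuousOn (by simp) (by fun_prop) rfl,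
        cfcₙ_mul (fun t => f t * t) f j (hfc.mul continuous_id).continuousOn (by simp)
        hfc.continuousOn hf0, cfcₙ_mul f (fun t => t) j hfc.continuousOn hf0 (by fun_prop) rfl,
        cfcₙ_id' ℝ j]
    rw [e1]
    refine norm_cfcₙ_le fun t ht => ?_
    have ht0 := hq t ht
    obtain ⟨h1, h2⟩ := hfb t ht0
    rcases le_total t ε with h | h
    · rw [Real.norm_eq_abs, abs_le]
      constructor
      · nlinarith [mul_nonneg (mul_nonneg h1 ht0) h1]
      · have h3 : f t * t * f t ≤ 1 * t * 1 := by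
          gcongr
        linarith
    · have h3 : f t = 1 := by
        have : t ≠ 0 := by linarith
        simp only [hf, hf1]
        rw [max_eq_left h]
        field_simp
      rw [h3]
      simpa using hε.le

theorem inId_sqrt {l h : A} (h0 : 0 ≤ h) (hl : InId l h) : InId l (CFC.sqrt h) := by
  set k : A := CFC.sqrt h with hk
  have hk0 : 0 ≤ k := CFC.sqrt_nonneg h
  have hkk : k * k = h := CFC.sqrt_mul_sqrt_self h h0
  have hks : IsSelfAdjoint k := IsSelfAdjoint.of_nonneg hk0
  refine InId.lim fun ε hε => ?_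
  have hδ : 0 < ε / 2 := half_pos hε
  refine ⟨cfcₙ (fun s : ℝ => max (s - ε / 2) 0) k, ?_, by
    have := (cutdown_le hk0 hδ).2.2; linarith⟩
  set χ : ℝ → ℝ := fun s => max (s - ε / 2) 0 / (max s (ε / 2)) ^ 2 with hχ
  have hkpos : ∀ s : ℝ, 0 < (max s (ε / 2)) ^ 2 := fun s => by
    have : ε / 2 ≤ max s (ε / 2) := le_max_right _ _
    positivity
  have hkc : Continuous χ := Continuous.div (by fun_prop) (by fun_prop) fun s => (hkpos s).ne'
  have hχ0 : χ 0 = 0 := by
    simp only [hχ, zero_sub]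
    rw [max_eq_right (by linarith), zero_div]
  have e1 : cfcₙ (fun s : ℝ => max (s - ε / 2) 0) k = k * k * cfcₙ χ k := by
    have e2 : k * k = cfcₙ (fun s : ℝ => s * s) k := by
      rw [cfcₙ_mul (fun x : ℝ => x) (fun x : ℝ => x) k (by fun_prop) rfl (by fun_prop) rfl,
        cfcₙ_id' ℝ k]
    rw [e2, ← cfcₙ_mul (fun s : ℝ => s * s) χ k (by fun_prop) (by simp) hkc.continuousOn hχ0]
    refine cfcₙ_congr fun s hs => ?_
    have hs0 : 0 ≤ s := quasispectrum_nonneg_of_nonneg k hk0 s hs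
    simp only [hχ]
    rcases le_total s (ε / 2) with h2 | h2
    · rw [max_eq_right (by linarith : s - ε / 2 ≤ 0)]; simp
    · rw [max_eq_left h2]
      have : s ≠ 0 := by linarith
      field_simp
  rw [e1, hkk]
  exact hl.mulR _

theorem subId_of_inId' {l m : A} (hl : 0 ≤ l) (hm : 0 ≤ m) (h : InId l m) : SubId l m := by
  refine subId_of_inId hl hm (InId.trans ?_ (inId_sqrt hm h))
  have h1 := (InId.refl' (CFC.sqrt_nonneg l)).mulR (CFC.sqrt l)
  rwa [CFC.sqrt_mul_sqrt_self l hl] at h1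

/-- order lemma with a norm bound -/
theorem order_unital' {U : Type u} [CStarAlgebra U] [PartialOrder U] [StarOrderedRing U]
    {r g : U} (hr : star r = r) (hrg : r * r ≤ g) {δ : ℝ} (hδ : 0 < δ) :
    ∃ u : U, ‖u‖ * ‖u‖ ≤ 1 / δ ∧ ‖star (u * r) * g * (u * r) - r * r‖ ≤ δ := by
  have hrr : 0 ≤ r * r := by
    have := star_mul_self_nonneg r
    rwa [hr] at this
  have hg : 0 ≤ g := hrr.trans hrg
  set f : ℝ → ℝ := fun t => 1 / Real.sqrt (max t 0 + δ) with hf
  have hpos : ∀ t : ℝ, 0 < Real.sqrt (max t 0 + δ) := fun t =>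
    Real.sqrt_pos.2 (add_pos_of_nonneg_of_pos (le_max_right _ _) hδ)
  have hfc : Continuous f := by
    rw [hf]
    refine continuous_const.div (by fun_prop) fun t => (hpos t).ne'
  set u : U := cfc f g with hu
  have hus : star u = u := by
    rw [hu]
    exact (cfc_predicate f g : IsSelfAdjoint (cfc f g)).star_eq
  have hgsa : IsSelfAdjoint g := IsSelfAdjoint.of_nonneg hg
  have hspec : ∀ t ∈ spectrum ℝ g, 0 ≤ t := fun t ht => spectrum_nonneg_of_nonneg hg ht
  have hugu : u * g * u = cfc (fun t : ℝ => f t * t * f t) g := by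
    rw [cfc_mul (fun t : ℝ => f t * t) f g (by fun_prop) (by fun_prop),
      cfc_mul f (fun t : ℝ => t) g (by fun_prop) (by fun_prop), cfc_id' ℝ g]
  have huu : u * u = cfc (fun t : ℝ => f t * f t) g := by
    rw [cfc_mul f f g (by fun_prop) (by fun_prop)]
  have hval : ∀ t : ℝ, 0 ≤ t → f t * f t = 1 / (t + δ) := by
    intro t ht
    rw [hf]
    simp only
    rw [max_eq_left ht, div_mul_div_comm, one_mul, Real.mul_self_sqrt (by linarith)]
  have hone : 1 - u * g * u = (δ : ℝ) • (u * u) := by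
    rw [hugu, huu, ← cfc_const_one ℝ g, ← cfc_sub (fun _ : ℝ => (1 : ℝ))
      (fun t : ℝ => f t * t * f t) g (by fun_prop) (by fun_prop),
      ← cfc_smul (δ : ℝ) (fun t : ℝ => f t * f t) g (by fun_prop)]
    refine cfc_congr fun t ht => ?_
    have ht0 := hspec t ht
    simp only [smul_eq_mul]
    rw [hval t ht0, mul_right_comm, hval t ht0]
    field_simp
    ring
  have hn1 : ‖u * g * u‖ ≤ 1 := by
    rw [hugu]
    refine norm_cfc_le zero_le_one fun t ht => ?_
    have ht0 := hspec t ht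
    rw [mul_right_comm, hval t ht0, Real.norm_of_nonneg (by positivity),
      one_div_mul_eq_div, div_le_one (by positivity)]
    linarith
  have hn3 : ‖u‖ * ‖u‖ ≤ 1 / δ := by
    rw [← CStarRing.norm_star_mul_self, hus, huu]
    refine norm_cfc_le (by positivity) fun t ht => ?_
    have ht0 := hspec t ht
    rw [hval t ht0, Real.norm_of_nonneg (by positivity)]
    exact one_div_le_one_div_of_le hδ (by linarith)
  have hn2 : ‖u * r‖ * ‖u * r‖ ≤ 1 := by
    rw [← CStarRing.norm_self_mul_star (x := u * r), star_mul, hr, hus]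
    have h1 : u * r * (r * u) = star u * (r * r) * u := by rw [hus]; simp only [mul_assoc]
    have h2 : star u * (r * r) * u ≤ star u * g * u := star_left_conjugate_le_conjugate hrg u
    have h3 : 0 ≤ star u * (r * r) * u := star_left_conjugate_nonneg hrr u
    rw [h1]
    refine (CStarAlgebra.norm_le_norm_of_nonneg_of_le h3 h2).trans ?_
    rw [hus]; exact hn1
  refine ⟨u, hn3, ?_⟩
  have h1 : star (u * r) * g * (u * r) - r * r = -((δ : ℝ) • (star (u * r) * (u * r))) := by
    have h2 : star (u * r) * g * (u * r) = r * (u * g * u) * r := by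
      rw [star_mul, hr, hus]; simp only [mul_assoc]
    have h3 : (δ : ℝ) • (star (u * r) * (u * r)) = r * ((δ : ℝ) • (u * u)) * r := by
      rw [star_mul, hr, hus, mul_smul_comm, smul_mul_assoc]; simp only [mul_assoc]
    rw [h2, h3, ← hone, mul_sub, sub_mul, mul_one]
    abel
  rw [h1, norm_neg, norm_smul, CStarRing.norm_star_mul_self, Real.norm_of_nonneg hδ.le]
  nlinarith

theorem order_lemma' {r g : A} (hr : star r = r) (hrg : r * r ≤ g) {δ : ℝ} (hδ : 0 < δ) :
    ∃ d : A, ‖d‖ * ‖d‖ ≤ ‖r‖ * ‖r‖ / δ ∧ ‖star d * g * d - r * r‖ ≤ δ := by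
  have h1 : (r : Unitization ℂ A) * (r : Unitization ℂ A) ≤ (g : Unitization ℂ A) := by
    rw [← sub_nonneg, ← Unitization.inr_mul, ← Unitization.inr_sub, Unitization.inr_nonneg_iff]
    exact sub_nonneg.2 hrg
  obtain ⟨u, hun, hu⟩ := order_unital' (r := (r : Unitization ℂ A))
    (by rw [← Unitization.inr_star, hr]) h1 hδ
  obtain ⟨d, hd⟩ := final_mem_iff.1 ((final_ideal A).left_mem u (final_mem_iff.2 ⟨r, rfl⟩))
  have hdn : ‖d‖ ≤ ‖u‖ * ‖r‖ := by
    rw [← final_norm d, ← hd, ← final_norm r]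
    exact norm_mul_le _ _
  refine ⟨d, ?_, ?_⟩
  · calc ‖d‖ * ‖d‖ ≤ (‖u‖ * ‖r‖) * (‖u‖ * ‖r‖) :=
          mul_le_mul hdn hdn (norm_nonneg _) (by positivity)
      _ = (‖u‖ * ‖u‖) * (‖r‖ * ‖r‖) := by ring
      _ ≤ (1 / δ) * (‖r‖ * ‖r‖) := mul_le_mul_of_nonneg_right hun (by positivity)
      _ = _ := by ring
  · rw [hd, ← Unitization.inr_star, ← Unitization.inr_mul, ← Unitization.inr_mul,
      ← Unitization.inr_mul, ← Unitization.inr_sub, final_norm] at hu
    exact hu

end

end Vale.Agent.P133.H681
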