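import Vale.Agent.P133.H681.Tame3

/-! P133 (helper681): the merging lemma. -/

open scoped ComplexOrder CStarAlgebra NNReal

namespace Vale.Agent.P133.H681

open Vale.Agent.P133 Vale.Agent.P133.Statement Vale.Agent.P133.H832 Vale.Agent.P133F

universe u

section

variable {A : Type u} [NonUnitalCStarAlgebra A] [PartialOrder A] [StarOrderedRing A]

theorem split_off {n : ℕ} (hW : WPI A n) {a e : A} (ha : 0 ≤ a) (he : 0 ≤ e) (h : InfB a e)
    {δ : ℝ} (hδ : 0 < δ) :
    ∃ b P b1 P1 : A, star b = b ∧ b * P = b ∧ b = CFC.sqrt a * b1 ∧ P = CFC.sqrt a * P1 ∧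
      InId e P ∧ InfB (b * b) (cfcₙ (fun t : ℝ => max (t - δ) 0) (e * e * e)) := by
  have hes : star e = e := (IsSelfAdjoint.of_nonneg he).star_eq
  set q : A := CFC.sqrt a with hq
  have hqs : star q = q := (IsSelfAdjoint.of_nonneg (CFC.sqrt_nonneg a)).star_eq
  have hqq : q * q = a := CFC.sqrt_mul_sqrt_self a ha
  set E : A := e * e * e with hE
  have hE0 : 0 ≤ E := by
    have := star_left_conjugate_nonneg he e
    rwa [hes] at this
  obtain ⟨η, hη, H⟩ := seq_split n hE0 hδ
  obtain ⟨x, hx⟩ := h.2 n (η / (‖e‖ * ‖e‖ + 1)) (by positivity)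
  set y : Fin n → A := fun i => q * x i * e with hy
  have hG : ∀ i j, ‖star (y i) * y j - (if i = j then E else 0)‖ ≤ η := by
    intro i j
    have e1 : star (y i) * y j - (if i = j then E else 0) =
        e * (star (x i) * a * x j - (if i = j then e else 0)) * e := by
      rw [mul_sub, sub_mul]
      congr 1
      · simp only [hy, star_mul, hes, hqs, ← hqq, mul_assoc]
      · split_ifs
        · rw [hE]
        · rw [mul_zero, zero_mul]
    rw [e1]
    calc _ ≤ ‖e‖ * (η / (‖e‖ * ‖e‖ + 1)) * ‖e‖ :=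
          norm_mul_le_of_le (norm_mul_le_of_le le_rfl (hx i j).le) le_rfl
      _ = (‖e‖ * ‖e‖) / (‖e‖ * ‖e‖ + 1) * η := by ring
      _ ≤ 1 * η := by
          gcongr
          rw [div_le_one (by positivity)]
          linarith
      _ = η := one_mul _
  obtain ⟨b, P, hbs, hbP, hRb, hRP, HT⟩ := H y hG
  have hmulR : ∀ z, InR y z → ∃ z1, z = q * z1 := fun z hz =>
    hz (mulRight q) (by rintro _ ⟨w, rfl⟩ c; exact ⟨w * c, mul_assoc _ _ _⟩)
      fun k => ⟨x k * e, mul_assoc _ _ _⟩
  obtain ⟨b1, hb1⟩ := hmulR b hRb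
  obtain ⟨P1, hP1⟩ := hmulR P hRP
  have hPe : InId e P := hRP (idG e) (fun z hz c => InId.mulR hz c)
    fun k => InId.mulL' hes (InId.refl' he) (q * x k)
  refine ⟨b, P, b1, P1, hbs, hbP, hb1, hP1, hPe, infB_of_wpi hW (cfcₙ_nonneg fun s _ =>
    le_max_right _ _) fun τ hτ => ?_⟩
  obtain ⟨T, _, hT⟩ := HT τ hτ
  refine ⟨T, fun i j => ?_⟩
  have e1 : star (T i) * (b * b) * T j = star (b * T i) * (b * T j) := by
    rw [star_mul, hbs]; simp only [mul_assoc]
  rw [e1]
  exact hT i j

theorem merge {B : Type u} [NonUnitalCStarAlgebra B] (φ : A →⋆ₙₐ[ℂ] B) {n : ℕ} (hW : WPI A n)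
    {a e : A} (ha : 0 ≤ a) (he : 0 ≤ e)
    (hJa : ∀ x, φ x = 0 → InfB a (star x * x)) (hae : InfB a e) {δ : ℝ} (hδ : 0 < δ)
    (hl : ∀ x, φ x = 0 → InId e x → InId (cfcₙ (fun t : ℝ => max (t - δ) 0) (e * e * e)) x)
    {j : A} (hj0 : 0 ≤ j) (hj : φ j = 0) :
    InfB a (j + cfcₙ (fun t : ℝ => max (t - δ) 0) (e * e * e)) := by
  obtain ⟨b, P, b1, P1, hbs, hbP, hb1, hP1, hPe, hbl⟩ := split_off hW ha he hae hδ
  set l : A := cfcₙ (fun t : ℝ => max (t - δ) 0) (e * e * e) with hldef
  have hl0 : 0 ≤ l := cfcₙ_nonneg fun s _ => le_max_right _ _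
  have hls : star l = l := (IsSelfAdjoint.of_nonneg hl0).star_eq
  have hes : star e = e := (IsSelfAdjoint.of_nonneg he).star_eq
  set q : A := CFC.sqrt a with hq
  have hqs : star q = q := (IsSelfAdjoint.of_nonneg (CFC.sqrt_nonneg a)).star_eq
  have hqq : q * q = a := CFC.sqrt_mul_sqrt_self a ha
  have hjl0 : 0 ≤ j + l := add_nonneg hj0 hl0
  -- `j` itself
  have hInfj : InfB a j := by
    have hsj : star (CFC.sqrt j) = CFC.sqrt j :=
      (IsSelfAdjoint.of_nonneg (CFC.sqrt_nonneg j)).star_eq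
    have h1 : φ (CFC.sqrt j) = 0 := by
      by_contra hne
      refine mul_self_ne_zero' (a := φ (CFC.sqrt j)) (by rw [← map_star, hsj]) hne ?_
      rw [← map_mul, CFC.sqrt_mul_sqrt_self j hj0, hj]
    have h2 := hJa _ h1
    rwa [hsj, CFC.sqrt_mul_sqrt_self j hj0] at h2
  set r : A := CFC.sqrt (j + l) with hr
  have hrs : star r = r := (IsSelfAdjoint.of_nonneg (CFC.sqrt_nonneg _)).star_eq
  have hrr : r * r = j + l := CFC.sqrt_mul_sqrt_self _ hjl0
  refine infB_of_wpi hW hjl0 fun τ hτ => ?_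
  set K : ℝ := ‖r‖ * ‖r‖ / (τ / 2) + 1 with hK
  have hK0 : 0 < K := by positivity
  set ε : ℝ := τ / (40 * K) with hε
  have hε0 : 0 < ε := by positivity
  -- copies of `j` in the kernel
  obtain ⟨w, s, hws, hw1, hwj, hwjw⟩ := local_unit hj0 hε0
  obtain ⟨t0, ht0⟩ := hInfj.2 n ε hε0
  set t : Fin n → A := fun i => t0 i * w with ht
  have hφt : ∀ i, φ (t i) = 0 := fun i => by
    rw [ht, hwj]
    simp only [map_mul, hj, zero_mul, mul_zero]
  set z : Fin n → A := fun i => q * t i with hz
  have hzz : ∀ i k, ‖star (z i) * z k - (if i = k then j else 0)‖ ≤ 2 * ε := by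
    intro i k
    have e1 : star (z i) * z k - (if i = k then j else 0) =
        w * (star (t0 i) * a * t0 k - (if i = k then j else 0)) * w +
          ((if i = k then w * j * w - j else 0)) := by
      have e2 : star (z i) * z k = w * (star (t0 i) * a * t0 k) * w := by
        simp only [hz, ht, star_mul, hws, hqs, ← hqq, mul_assoc]
      rw [e2]
      split_ifs
      · rw [mul_sub, sub_mul]; abel
      · rw [sub_zero, sub_zero, add_zero]
    rw [e1]
    have h1 : ‖w * (star (t0 i) * a * t0 k - (if i = k then j else 0)) * w‖ ≤ ε := by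
      calc _ ≤ 1 * ε * 1 := norm_mul_le_of_le (norm_mul_le_of_le hw1 (ht0 i k).le) hw1
        _ = ε := by ring
    have h2 : ‖(if i = k then w * j * w - j else 0)‖ ≤ ε := by
      split_ifs
      · exact hwjw
      · rw [norm_zero]; exact hε0.le
    calc _ ≤ _ := norm_add_le _ _
      _ ≤ 2 * ε := by linarith
  -- the defect
  set x : Fin n × Fin n → A := fun p => star (z p.1) * (P + star P - star P * P) * z p.2 with hx
  have hxl : ∀ p, InId l (x p) := by
    intro p
    refine hl _ ?_ ?_
    · simp only [hx, hz, map_mul, hφt, mul_zero]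
    · exact InId.mul (InId.sub' (InId.add hPe (InId.star_right hes hPe))
        (InId.mulL' hes hPe (star P))) _ _
  obtain ⟨g, hg0, hg1, hlg, hgx⟩ := unit_for hls x hxl hε0
  have hgs : star g = g := (IsSelfAdjoint.of_nonneg hg0).star_eq
  -- the remaining part
  set m : A := g * j * g + l with hm
  have hgjg : 0 ≤ g * j * g := by
    have := star_left_conjugate_nonneg hj0 g
    rwa [hgs] at this
  have hm0 : 0 ≤ m := add_nonneg hgjg hl0
  have hlm : InId l m := InId.add ((hlg.mulR j).mulR g) (InId.refl' hl0)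
  obtain ⟨u, hu⟩ := (hbl.sub (subId_of_inId' hl0 hm0 hlm)).2 n ε hε0
  -- the total
  set Q : A := ((j - g * j) - (j - g * j) * g) + m with hQ
  have hQle : r * r ≤ (2 : ℝ) • Q := by
    have e1 : (2 : ℝ) • Q - r * r =
        star (CFC.sqrt j - (2 : ℝ) • (CFC.sqrt j * g)) *
          (CFC.sqrt j - (2 : ℝ) • (CFC.sqrt j * g)) + l := by
      have hsj : star (CFC.sqrt j) = CFC.sqrt j :=
        (IsSelfAdjoint.of_nonneg (CFC.sqrt_nonneg j)).star_eq
      have e2 : star (CFC.sqrt j - (2 : ℝ) • (CFC.sqrt j * g)) *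
          (CFC.sqrt j - (2 : ℝ) • (CFC.sqrt j * g)) =
          CFC.sqrt j * CFC.sqrt j - (2 : ℝ) • (CFC.sqrt j * CFC.sqrt j * g) -
            (2 : ℝ) • (g * (CFC.sqrt j * CFC.sqrt j)) +
            (2 : ℝ) • ((2 : ℝ) • (g * (CFC.sqrt j * CFC.sqrt j) * g)) := by
        rw [star_sub, star_smul, star_trivial (2 : ℝ), star_mul, hsj, hgs, sub_mul, mul_sub,
          mul_sub, mul_smul_comm, smul_mul_assoc, smul_mul_smul_comm, smul_smul]
        simp only [mul_assoc]
        abel
      rw [e2, CFC.sqrt_mul_sqrt_self j hj0, hQ, hm, hrr]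
      simp only [two_smul, sub_mul, mul_sub]
      simp only [mul_assoc]
      abel
    rw [← sub_nonneg, e1]
    exact add_nonneg (star_mul_self_nonneg _) hl0
  obtain ⟨D, hDn, hD⟩ := order_lemma' hrs hQle (half_pos hτ)
  have hDK : ‖D‖ * ‖D‖ ≤ K := hDn.trans (by rw [hK]; linarith)
  -- the vectors
  set t' : Fin n → A := fun i => t i - P1 * z i with ht'
  have hqt' : ∀ i, q * t' i = z i - P * z i := by
    intro i
    show q * (t i - P1 * z i) = z i - P * z i
    rw [mul_sub, ← mul_assoc q P1 (z i), ← hP1]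
  set T : Fin n → A := fun i => (t' i - t' i * g) + b1 * u i with hT
  have hqT : ∀ i, q * T i = ((z i - P * z i) - (z i - P * z i) * g) + b * u i := by
    intro i
    show q * ((t' i - t' i * g) + b1 * u i) = _
    rw [mul_add, mul_sub, ← mul_assoc q (t' i) g, ← mul_assoc q b1 (u i), hqt', ← hb1]
  have hbz : ∀ i, b * (z i - P * z i) = 0 := fun i => by
    rw [mul_sub, ← mul_assoc b P (z i), hbP, sub_self]
  have hbv : ∀ i, b * ((z i - P * z i) - (z i - P * z i) * g) = 0 := fun i => by
    rw [mul_sub, ← mul_assoc b (z i - P * z i) g, hbz, zero_mul, sub_zero]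
  have hvb : ∀ i, star ((z i - P * z i) - (z i - P * z i) * g) * b = 0 := fun i => by
    have := congrArg star (hbv i)
    rwa [star_mul, star_zero, hbs] at this
  have hTT : ∀ i k, ‖star (T i) * a * T k - (if i = k then Q else 0)‖ ≤ 10 * ε := by
    intro i k
    set G : A := star (z i) * z k - (if i = k then j else 0) with hG
    have e1 : star (T i) * a * T k = star (q * T i) * (q * T k) := by
      rw [star_mul, hqs, ← hqq]; simp only [mul_assoc]
    have e2 : star (q * T i) * (q * T k) =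
        star ((z i - P * z i) - (z i - P * z i) * g) * ((z k - P * z k) - (z k - P * z k) * g) +
          star (u i) * (b * b) * u k := by
      rw [hqT, hqT, star_add, add_mul, mul_add, mul_add]
      have h1 : star ((z i - P * z i) - (z i - P * z i) * g) * (b * u k) = 0 := by
        rw [← mul_assoc, hvb, zero_mul]
      have h2 : star (b * u i) * ((z k - P * z k) - (z k - P * z k) * g) = 0 := by
        rw [star_mul, hbs, mul_assoc, hbv, mul_zero]
      have h3 : star (b * u i) * (b * u k) = star (u i) * (b * b) * u k := by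
        rw [star_mul, hbs]; simp only [mul_assoc]
      rw [h1, h2, h3, add_zero, zero_add]
    have e3 : star ((z i - P * z i) - (z i - P * z i) * g) *
        ((z k - P * z k) - (z k - P * z k) * g) =
        ((star (z i) * z k - x (i, k)) - g * (star (z i) * z k - x (i, k))) -
          ((star (z i) * z k - x (i, k)) - g * (star (z i) * z k - x (i, k))) * g := by
      have h1 : star (z i) * z k - x (i, k) = star (z i - P * z i) * (z k - P * z k) := by
        simp only [hx, star_sub, star_mul]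
        noncomm_ring
      rw [h1, star_sub, star_mul _ g, hgs]
      noncomm_ring
    have e4 : star (T i) * a * T k - (if i = k then Q else 0) =
        ((G - g * G) - (G - g * G) * g) - ((x (i, k) - g * x (i, k)) -
          (x (i, k) - g * x (i, k)) * g) +
          (star (u i) * (b * b) * u k - (if i = k then m else 0)) := by
      rw [e1, e2, e3, hG, hQ]
      split_ifs
      · noncomm_ring
      · simp only [sub_zero]
        noncomm_ring
    have hGn : ‖(G - g * G) - (G - g * G) * g‖ ≤ 8 * ε := by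
      have h1 : ‖G‖ ≤ 2 * ε := hzz i k
      have h2 : ‖G - g * G‖ ≤ 4 * ε := by
        calc _ ≤ ‖G‖ + ‖g * G‖ := norm_sub_le _ _
          _ ≤ 2 * ε + 1 * (2 * ε) := add_le_add h1 (norm_mul_le_of_le hg1 h1)
          _ = 4 * ε := by ring
      calc _ ≤ ‖G - g * G‖ + ‖(G - g * G) * g‖ := norm_sub_le _ _
        _ ≤ 4 * ε + 4 * ε * 1 := add_le_add h2 (norm_mul_le_of_le h2 hg1)
        _ = 8 * ε := by ring
    rw [e4]
    calc _ ≤ ‖((G - g * G) - (G - g * G) * g) - ((x (i, k) - g * x (i, k)) -
          (x (i, k) - g * x (i, k)) * g)‖ +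
          ‖star (u i) * (b * b) * u k - (if i = k then m else 0)‖ := norm_add_le _ _
      _ ≤ (8 * ε + ε) + ε := add_le_add ((norm_sub_le _ _).trans (add_le_add hGn (hgx (i, k))))
          (hu i k).le
      _ = 10 * ε := by ring
  -- the final vectors
  have h22 : √(2 : ℝ) * √2 = 2 := Real.mul_self_sqrt (by norm_num)
  refine ⟨fun i => √(2 : ℝ) • (T i * D), fun i k => ?_⟩
  have e1 : star (√(2 : ℝ) • (T i * D)) * a * (√(2 : ℝ) • (T k * D)) -
      (if i = k then j + l else 0) =
      (2 : ℝ) • (star D * (star (T i) * a * T k - (if i = k then Q else 0)) * D) +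
        (if i = k then star D * ((2 : ℝ) • Q) * D - r * r else 0) := by
    rw [star_smul, star_trivial (√(2 : ℝ)), smul_mul_assoc, smul_mul_smul_comm, h22, star_mul]
    split_ifs
    · rw [mul_sub, sub_mul, smul_sub, hrr, mul_smul_comm, smul_mul_assoc]
      simp only [mul_assoc]
      abel
    · simp only [sub_zero, add_zero, mul_assoc]
  rw [e1]
  have h1 : ‖(2 : ℝ) • (star D * (star (T i) * a * T k - (if i = k then Q else 0)) * D)‖ ≤
      τ / 2 := by
    rw [norm_smul, Real.norm_of_nonneg (by norm_num)]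
    calc 2 * ‖star D * (star (T i) * a * T k - (if i = k then Q else 0)) * D‖
        ≤ 2 * (‖D‖ * (10 * ε) * ‖D‖) := by
          gcongr
          exact norm_mul_le_of_le (norm_mul_le_of_le (norm_star _).le (hTT i k)) le_rfl
      _ = 20 * ε * (‖D‖ * ‖D‖) := by ring
      _ ≤ 20 * ε * K := by gcongr
      _ = τ / 2 := by rw [hε]; field_simp; norm_num
  have h2 : ‖(if i = k then star D * ((2 : ℝ) • Q) * D - r * r else 0)‖ ≤ τ / 2 := by
    split_ifs
    · exact hD
    · rw [norm_zero]; positivity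
  calc _ ≤ _ := norm_add_le _ _
    _ ≤ τ := by linarith

end

end Vale.Agent.P133.H681
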