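import Vale.Agent.P133.H681.TopDimDef
import Vale.Agent.P133.H832.Tame2

/-! P133 (helper681): topological dimension zero implies tame. -/

open scoped ComplexOrder

namespace Vale.Agent.P133.H681

open Vale.Agent.P133 Vale.Agent.P133.H832

universe u

variable {A : Type u} [NonUnitalCStarAlgebra A] [PartialOrder A] [StarOrderedRing A]

theorem tame_of_topDimZero (hA : IsTopDimZero A) : IsTameC A := by
  intro J hJ a haJ
  set b : A := star a * a with hb
  have hb0 : 0 ≤ b := star_mul_self_nonneg a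
  have hbJ : b ∉ J := fun h => haJ (hJ.of_star_mul_self h)
  obtain ⟨ε, hε, hd⟩ : ∃ δ : ℝ, 0 < δ ∧ cfcₙ (fun t : ℝ => max (t - δ) 0) b ∉ J := by
    by_contra hcon
    push Not at hcon
    refine hbJ (hJ.lim fun ε hε => ⟨_, hcon (ε / 2) (half_pos hε), ?_⟩)
    have := (cutdown_le hb0 (half_pos hε)).2.2
    linarith
  obtain ⟨v, hv0, δ, hδ, hbv, hvb, hvv⟩ := hA b hb0 ε hε
  have hvJ : v ∉ J := fun h => hd (hJ.inId h hvb)
  set f : ℝ → ℝ := fun t => min (max t 0 / δ) 1 with hf
  have hfc : Continuous f := by fun_prop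
  have hf0 : f 0 = 0 := by simp [hf]
  have hdc : Continuous (fun t : ℝ => max (t - δ) 0) := by fun_prop
  have hd0 : (fun t : ℝ => max (t - δ) 0) 0 = 0 := by
    simp only [zero_sub]; exact max_eq_right (by linarith)
  have hed : cfcₙ f v * cfcₙ (fun t : ℝ => max (t - δ) 0) v =
      cfcₙ (fun t : ℝ => max (t - δ) 0) v := by
    rw [← cfcₙ_mul f (fun t : ℝ => max (t - δ) 0) v hfc.continuousOn hf0 hdc.continuousOn hd0]
    refine cfcₙ_congr fun t _ => ?_
    simp only [hf]
    rcases le_total (t - δ) 0 with h | h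
    · rw [max_eq_right h, mul_zero]
    · have h1 : 1 ≤ max t 0 / δ := by
        rw [le_div_iff₀ hδ, one_mul]; exact (by linarith : δ ≤ t).trans (le_max_left _ _)
      rw [min_eq_right h1, one_mul]
  have hve : InId v (cfcₙ f v) := by
    obtain ⟨I, hI, hI'⟩ := isClosedIdeal_inId v
    rw [← hI']
    have hvI : v ∈ I := (hI' v).2 (InId.refl v)
    refine hI.of_le (y := (1 / δ) • v) (cfcₙ_nonneg fun t _ => le_min (by positivity) (by norm_num))
      ?_ ?_
    · have h1 : (1 / δ) • v = cfcₙ (fun t : ℝ => (1 / δ) • t) v := by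
        rw [cfcₙ_smul (1 / δ) (fun t : ℝ => t) v (by fun_prop) rfl, cfcₙ_id' ℝ v]
      rw [h1]
      refine cfcₙ_mono (fun t ht => ?_) hfc.continuousOn (by fun_prop) hf0 (by simp)
      have ht0 : 0 ≤ t := quasispectrum_nonneg_of_nonneg v hv0 t ht
      simp only [hf, max_eq_left ht0, smul_eq_mul]
      exact (min_le_left _ _).trans (le_of_eq (by ring))
    · have h1 : (1 / δ) • v = ((1 / δ : ℝ) : ℂ) • v := by rw [Complex.coe_smul]
      rw [h1]
      exact I.smul_mem _ hvI
  refine ⟨cfcₙ f v, cfcₙ (fun t : ℝ => max (t - δ) 0) v, cfcₙ_nonneg fun t _ =>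
    le_min (by positivity) (by norm_num), hed, ?_, fun he => hvJ ?_, fun x _ hx => ?_⟩
  · exact ((InId.refl a).mulL (star a)).trans (hbv.trans hve)
  · refine hJ.inId ?_ hvv
    rw [← hed]; exact (hJ.2 _ _ he).2
  · exact (hvv.trans hve).trans hx

end Vale.Agent.P133.H681
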