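import Vale.Agent.P133.H832.TameDef
import Mathlib.Analysis.CStarAlgebra.ContinuousFunctionalCalculus.Instances

/-! P133 (helper681): topological dimension zero. -/

open scoped ComplexOrder

namespace Vale.Agent.P133.H681

open Vale.Agent.P133.H832

universe u

/-- `A` has topological dimension zero, i.e. its primitive ideal space has a basis of compact
open sets, in terms of ideals: for every positive `a` and `ε > 0` there is a closed ideal `⟨v⟩`
between `⟨(a - ε)₊⟩` and `⟨a⟩` that is compact, i.e. generated by `(v - δ)₊` for some `δ > 0`. -/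
def IsTopDimZero (A : Type u) [NonUnitalCStarAlgebra A] [PartialOrder A] : Prop :=
  ∀ a : A, 0 ≤ a → ∀ ε : ℝ, 0 < ε → ∃ v : A, 0 ≤ v ∧ ∃ δ : ℝ, 0 < δ ∧
    InId a v ∧ InId v (cfcₙ (fun t : ℝ => max (t - ε) 0) a) ∧
    InId (cfcₙ (fun t : ℝ => max (t - δ) 0) v) v

end Vale.Agent.P133.H681
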