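import Vale.Agent.P133.H681.C0
import Vale.Agent.P133F.Conv

/-! P133 (helper681): weak pure infiniteness passes to quotients; question (b) for bounded products
and for algebras of continuous functions. -/

open scoped ComplexOrder ZeroAtInfty ENNReal

namespace Vale.Agent.P133.H681

open Vale.Agent.P133 Vale.Agent.P133.Statement Vale.Agent.P133.H832 Vale.Agent.P133F

universe u v w

section

variable {C : Type u} [NonUnitalCStarAlgebra C] {B : Type v} [NonUnitalCStarAlgebra B]

theorem mapM_apply {k : ℕ} (φ : C →⋆ₙₐ[ℂ] B) (M : CStarMatrix (Fin k) (Fin k) C) (i j : Fin k) :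
    CStarMatrix.mapₙₐ φ M i j = φ (M i j) := rfl

theorem mapM_pad {k : ℕ} (n : ℕ) (φ : C →⋆ₙₐ[ℂ] B) (M : CStarMatrix (Fin k) (Fin k) C) :
    CStarMatrix.mapₙₐ φ (pad n M) = pad n (CStarMatrix.mapₙₐ φ M) := by
  ext i j
  rw [mapM_apply, pad_apply, pad_apply]
  split_ifs with h
  · rw [mapM_apply]
  · exact map_zero φ

theorem dsum_apply {k l : ℕ} (u : CStarMatrix (Fin k) (Fin k) C)
    (v : CStarMatrix (Fin l) (Fin l) C) (i j : Fin (k + l)) :
    dsum u v i j = Matrix.fromBlocks (CStarMatrix.ofMatrix.symm u) 0 0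
      (CStarMatrix.ofMatrix.symm v) (finSumFinEquiv.symm i) (finSumFinEquiv.symm j) := rfl

theorem mapM_dsum {k l : ℕ} (φ : C →⋆ₙₐ[ℂ] B) (u : CStarMatrix (Fin k) (Fin k) C)
    (v : CStarMatrix (Fin l) (Fin l) C) :
    CStarMatrix.mapₙₐ φ (dsum u v) =
      dsum (CStarMatrix.mapₙₐ φ u) (CStarMatrix.mapₙₐ φ v) := by
  ext i j
  rw [mapM_apply, dsum_apply, dsum_apply]
  rcases finSumFinEquiv.symm i with a | a <;> rcases finSumFinEquiv.symm j with b | b
  · rfl
  · exact map_zero φ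
  · exact map_zero φ
  · rfl

theorem mapM_diagN (n : ℕ) (φ : C →⋆ₙₐ[ℂ] B) (h : C) :
    CStarMatrix.mapₙₐ φ (diagN n h) = diagN n (φ h) := by
  ext i j
  rw [mapM_apply]
  show φ (Matrix.diagonal (fun _ => h) i j) = Matrix.diagonal (fun _ => φ h) i j
  rw [Matrix.diagonal_apply, Matrix.diagonal_apply]
  split_ifs
  · rfl
  · exact map_zero φ

theorem cuntzLE_map {k : ℕ} [PartialOrder C] [StarOrderedRing C] [PartialOrder B]
    [StarOrderedRing B] (φ : C →⋆ₙₐ[ℂ] B) {u v : CStarMatrix (Fin k) (Fin k) C}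
    (h : CuntzLE u v) : CuntzLE (CStarMatrix.mapₙₐ φ u) (CStarMatrix.mapₙₐ φ v) := by
  intro ε hε
  obtain ⟨n, x, hx⟩ := h ε hε
  refine ⟨n, CStarMatrix.mapₙₐ φ x, ?_⟩
  rw [← mapM_pad, ← mapM_pad, ← map_star, ← map_mul, ← map_mul, ← map_sub]
  exact lt_of_le_of_lt (NonUnitalStarAlgHom.norm_apply_le _ _) hx

/-- quotients of weakly purely infinite algebras are weakly purely infinite. -/
theorem wpi_of_surj [PartialOrder C] [StarOrderedRing C] [PartialOrder B]
    [StarOrderedRing B] (φ : C →⋆ₙₐ[ℂ] B) (hφ : Function.Surjective φ)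
    (hC : WeaklyPurelyInfinite C) : WeaklyPurelyInfinite B := by
  obtain ⟨n, hn, H⟩ := hC
  refine ⟨n, hn, fun h h0 => ?_⟩
  obtain ⟨k, rfl⟩ := CStarAlgebra.nonneg_iff_eq_star_mul_self.1 h0
  obtain ⟨k', rfl⟩ := hφ k
  have h1 := cuntzLE_map φ (H (star k' * k') (star_mul_self_nonneg _))
  rw [mapM_dsum, mapM_dsum, mapM_diagN, map_zero, map_mul, map_star] at h1
  exact h1

end

/-- evaluation at a point -/
def evalHom {X : Type v} [TopologicalSpace X] {A : Type u} [NonUnitalCStarAlgebra A] (t : X) :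
    C₀(X, A) →⋆ₙₐ[ℂ] A where
  toFun f := f t
  map_smul' _ _ := rfl
  map_zero' := rfl
  map_add' _ _ := rfl
  map_mul' _ _ := rfl
  map_star' _ := rfl

theorem evalHom_surj {X : Type v} [TopologicalSpace X] [LocallyCompactSpace X] [T2Space X]
    {A : Type u} [NonUnitalCStarAlgebra A] (t : X) :
    Function.Surjective (evalHom (A := A) t) := by
  intro k
  obtain ⟨f, hf1, -, hf3, -⟩ := exists_continuous_one_zero_of_isCompact
    (isCompact_singleton (x := t)) isClosed_empty (Set.disjoint_empty _)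
  refine ⟨bumpC f hf3 k, ?_⟩
  show f t • k = k
  rw [hf1 rfl, Pi.one_apply, one_smul]

/-- coordinates of a bounded product -/
def coordHom {I : Type v} {B : I → Type u} [∀ i, NonUnitalCStarAlgebra (B i)] (i : I) :
    lp B ∞ →⋆ₙₐ[ℂ] B i where
  toFun f := f i
  map_smul' _ _ := rfl
  map_zero' := rfl
  map_add' _ _ := rfl
  map_mul' _ _ := rfl
  map_star' _ := rfl

theorem coordHom_surj {I : Type v} {B : I → Type u} [∀ i, NonUnitalCStarAlgebra (B i)] (i : I) :
    Function.Surjective (coordHom (B := B) i) := by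
  classical
  intro k
  refine ⟨lp.single ∞ i k, ?_⟩
  show lp.single ∞ i k i = k
  simp

/-- Question (b) passes to `C₀(X, A)`. -/
theorem b_c0 (A : Type u) [NonUnitalCStarAlgebra A] [PartialOrder A] [StarOrderedRing A]
    (X : Type v) [TopologicalSpace X] [Nonempty X] [LocallyCompactSpace X] [T2Space X]
    [PartialOrder C₀(X, A)] [StarOrderedRing C₀(X, A)]
    (hA : WeaklyPurelyInfinite A → PurelyInfinite A) (h : WeaklyPurelyInfinite C₀(X, A)) :
    PurelyInfinite C₀(X, A) := by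
  obtain ⟨t⟩ := (inferInstance : Nonempty X)
  exact (c0_iff A X).2 (hA (wpi_of_surj (evalHom t) (evalHom_surj t) h))

/-- Question (b) passes to bounded products. -/
theorem b_lp {I : Type v} (B : I → Type u) [∀ i, NonUnitalCStarAlgebra (B i)]
    [∀ i, PartialOrder (B i)] [∀ i, StarOrderedRing (B i)]
    [PartialOrder (lp B ∞)] [StarOrderedRing (lp B ∞)]
    (hB : ∀ i, WeaklyPurelyInfinite (B i) → PurelyInfinite (B i))
    (h : WeaklyPurelyInfinite (lp B ∞)) : PurelyInfinite (lp B ∞) :=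
  (lp_iff B).2 fun i => hB i (wpi_of_surj (coordHom i) (coordHom_surj i) h)

end Vale.Agent.P133.H681
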