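import Vale.Agent.P133.H681.Wpi
import Mathlib.Analysis.CStarAlgebra.Hom

/-! P133 (helper681): weak pure infiniteness passes to closed two-sided ideals. -/

open scoped ComplexOrder

namespace Vale.Agent.P133.H681

open Vale.Agent.P133 Vale.Agent.P133.Statement Vale.Agent.P133F Vale.Agent.P133.H832

universe u v

section

variable {A : Type u} [NonUnitalCStarAlgebra A] [PartialOrder A] [StarOrderedRing A]

/-- one more row of zeros -/
theorem WPI_succ {n : ℕ} (hA : WPI A n) : WPI A (n + 1) := by
  intro h h0 M ε hε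
  obtain ⟨z, hz⟩ := hA h h0 M ε hε
  refine ⟨fun i j => Fin.lastCases (0 : A) (fun i => z i j) i, fun j j' => ?_⟩
  rw [Fin.sum_univ_castSucc]
  simp only [Fin.lastCases_castSucc, Fin.lastCases_last, star_zero, zero_mul, add_zero]
  exact hz j j'

theorem star_mul_dsum_mul {N : ℕ} (h : A) (x : CStarMatrix (Fin (N + N)) (Fin (N + N)) A)
    (z : Fin N → Fin (N + N) → A) (hx : ∀ i b, x (finSumFinEquiv (Sum.inl i)) b = z i b)
    (a b : Fin (N + N)) :
    (star x * dsum (diagN N h) (0 : CStarMatrix (Fin N) (Fin N) A) * x) a b =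
      ∑ i, star (z i a) * h * z i b := by
  have key : ∀ c : Fin (N + N), (star x * dsum (diagN N h)
      (0 : CStarMatrix (Fin N) (Fin N) A)) a c =
      match finSumFinEquiv.symm c with
      | Sum.inl i => star (z i a) * h
      | Sum.inr _ => 0 := by
    intro c
    rw [CStarMatrix.mul_apply, ← Equiv.sum_comp (finSumFinEquiv : Fin N ⊕ Fin N ≃ Fin (N + N)),
      Fintype.sum_sum_type]
    have h1 : ∀ i : Fin N, dsum (diagN N h) (0 : CStarMatrix (Fin N) (Fin N) A)
        (finSumFinEquiv (Sum.inr i)) c = 0 := by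
      intro i
      rw [dsum_apply, Equiv.symm_apply_apply]
      rcases finSumFinEquiv.symm c with d | d <;> rfl
    have h2 : ∀ i : Fin N, dsum (diagN N h) (0 : CStarMatrix (Fin N) (Fin N) A)
        (finSumFinEquiv (Sum.inl i)) c = match finSumFinEquiv.symm c with
          | Sum.inl d => if i = d then h else 0
          | Sum.inr _ => 0 := by
      intro i
      rw [dsum_apply, Equiv.symm_apply_apply]
      rcases finSumFinEquiv.symm c with d | d
      · show Matrix.diagonal (fun _ => h) i d = _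
        rw [Matrix.diagonal_apply]
      · rfl
    simp only [h1, h2, mul_zero, Finset.sum_const_zero, add_zero, CStarMatrix.star_apply, hx]
    rcases finSumFinEquiv.symm c with d | d
    · simp only [mul_ite, mul_zero, Finset.sum_ite_eq', Finset.mem_univ, if_true]
    · simp only [mul_zero, Finset.sum_const_zero]
  rw [CStarMatrix.mul_apply, ← Equiv.sum_comp (finSumFinEquiv : Fin N ⊕ Fin N ≃ Fin (N + N)),
    Fintype.sum_sum_type]
  simp only [key, Equiv.symm_apply_apply, hx, zero_mul, Finset.sum_const_zero, add_zero]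

/-- the elementwise form implies the matrix form -/
theorem wpi_of_elt {n : ℕ} (hA : WPI A n) : WeaklyPurelyInfinite A := by
  have hA' := WPI_succ hA
  set N := n + 1 with hN
  refine ⟨N, by omega, fun h h0 ε hε => ?_⟩
  obtain ⟨z, hz⟩ := hA' h h0 (N + N) (ε / (((N + N : ℕ) : ℝ) ^ 2 + 1)) (by positivity)
  set x : CStarMatrix (Fin (N + N)) (Fin (N + N)) A := CStarMatrix.ofMatrix fun i j =>
    Sum.elim (fun i => z i j) (fun _ => 0) (finSumFinEquiv.symm i) with hxdef
  have hx : ∀ i b, x (finSumFinEquiv (Sum.inl i)) b = z i b := by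
    intro i b
    show Sum.elim (fun i => z i b) (fun _ => 0) (finSumFinEquiv.symm
      (finSumFinEquiv (Sum.inl i))) = z i b
    rw [Equiv.symm_apply_apply, Sum.elim_inl]
  have hpad : ∀ M : CStarMatrix (Fin (N + N)) (Fin (N + N)) A, pad 0 M = M := by
    intro M
    ext i j
    rw [pad_apply, dif_pos ⟨i.2, j.2⟩]
    rfl
  refine ⟨0, x, ?_⟩
  rw [hpad, hpad]
  refine lt_of_le_of_lt (norm_le_sum _) ?_
  have e : ∀ a b : Fin (N + N), ‖(star x * dsum (diagN N h)
      (0 : CStarMatrix (Fin N) (Fin N) A) * x - dsum (diagN N h) (diagN N h)) a b‖ ≤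
      ε / (((N + N : ℕ) : ℝ) ^ 2 + 1) := by
    intro a b
    rw [CStarMatrix.sub_apply, star_mul_dsum_mul h x z hx a b]
    have hd : dsum (diagN N h) (diagN N h) a b = if a = b then h else 0 := by
      rw [dsum_apply]
      obtain ⟨a, rfl⟩ := finSumFinEquiv.surjective a
      obtain ⟨b, rfl⟩ := finSumFinEquiv.surjective b
      rw [Equiv.symm_apply_apply, Equiv.symm_apply_apply]
      rcases a with a | a <;> rcases b with b | b
      · show Matrix.diagonal (fun _ => h) a b = _
        rw [Matrix.diagonal_apply]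
        simp
      · rw [if_neg (fun hh => by simpa using finSumFinEquiv.injective hh)]
        rfl
      · rw [if_neg (fun hh => by simpa using finSumFinEquiv.injective hh)]
        rfl
      · show Matrix.diagonal (fun _ => h) a b = _
        rw [Matrix.diagonal_apply]
        simp
    rw [hd]
    exact (hz a b).le
  refine lt_of_le_of_lt (Finset.sum_le_sum fun j _ => Finset.sum_le_sum fun i _ => e i j) ?_
  have hK : ∀ K : ℝ, 0 ≤ K → K * (K * (ε / (K ^ 2 + 1))) < ε := by
    intro K hK
    have h1 : K * (K * (ε / (K ^ 2 + 1))) = (K ^ 2 * ε) / (K ^ 2 + 1) := by ring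
    rw [h1, div_lt_iff₀ (by positivity)]
    linarith
  simp only [Finset.sum_const, Finset.card_univ, Fintype.card_fin, nsmul_eq_mul]
  exact hK _ (Nat.cast_nonneg _)

end

/-- closed two-sided ideals of weakly purely infinite algebras are weakly purely infinite. -/
theorem wpi_of_ideal {I : Type u} [NonUnitalCStarAlgebra I] [PartialOrder I] [StarOrderedRing I]
    {A : Type v} [NonUnitalCStarAlgebra A] [PartialOrder A] [StarOrderedRing A]
    (φ : I →⋆ₙₐ[ℂ] A) (hφ : Function.Injective φ)
    (hid : ∀ (a : A) (x : I), ∃ y, φ y = a * φ x)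
    (hA : WeaklyPurelyInfinite A) : WeaklyPurelyInfinite I := by
  obtain ⟨n, hn⟩ := wpi_elementwise hA
  refine wpi_of_elt (n := n) ?_
  intro h h0 M ε hε
  have h0' : 0 ≤ φ h := by
    obtain ⟨k, rfl⟩ := CStarAlgebra.nonneg_iff_eq_star_mul_self.1 h0
    rw [map_mul, map_star]
    exact star_mul_self_nonneg _
  obtain ⟨ν, hν, hνn⟩ := exists_approx_unit (ι := Unit) (final_ideal I)
    (c := fun _ => (h : Unitization ℂ I)) (fun _ => final_mem_iff.2 ⟨h, rfl⟩)
    (ε := ε / 4) (by positivity)
  obtain ⟨g, rfl⟩ := final_mem_iff.1 hν.mem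
  have hgs : star g = g := by
    have := hν.star_eq
    rw [← Unitization.inr_star] at this
    exact Unitization.inr_injective this
  have hg1 : ‖g‖ ≤ 1 := by
    rw [← final_norm]; exact hν.norm_le
  have hgh : ‖g * h * g - h‖ ≤ ε / 2 := by
    obtain ⟨k1, k2⟩ := hνn ()
    have e1 : ‖h - h * g‖ < ε / 4 := by
      rw [← final_norm, Unitization.inr_sub, Unitization.inr_mul]
      have : (h : Unitization ℂ I) - (h : Unitization ℂ I) * (g : Unitization ℂ I) =
        (h : Unitization ℂ I) * (1 - (g : Unitization ℂ I)) := by noncomm_ring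
      rw [this]; exact k1
    have e2 : ‖h - g * h‖ < ε / 4 := by
      rw [← final_norm, Unitization.inr_sub, Unitization.inr_mul]
      have : (h : Unitization ℂ I) - (g : Unitization ℂ I) * (h : Unitization ℂ I) =
        (1 - (g : Unitization ℂ I)) * (h : Unitization ℂ I) := by noncomm_ring
      rw [this]; exact k2
    have e3 : g * h * g - h = -((h - g * h) * g) - (h - h * g) := by
      rw [sub_mul]; abel
    rw [e3]
    calc _ ≤ ‖-((h - g * h) * g)‖ + ‖h - h * g‖ := norm_sub_le _ _
      _ ≤ ε / 4 * 1 + ε / 4 := by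
          rw [norm_neg]
          exact add_le_add (norm_mul_le_of_le e2.le hg1) e1.le
      _ = ε / 2 := by ring
  obtain ⟨z, hz⟩ := hn (φ h) h0' M (ε / 2) (by positivity)
  choose y hy using fun (i : Fin n) (j : Fin M) => hid (z i j) g
  refine ⟨y, fun j j' => ?_⟩
  have hnorm : ∀ w : I, ‖w‖ = ‖φ w‖ := fun w =>
    (NonUnitalStarAlgHom.norm_map φ hφ w).symm
  have hG : star (φ g) = φ g := by rw [← map_star, hgs]
  have hG1 : ‖φ g‖ ≤ 1 := by rw [← hnorm]; exact hg1
  have e : φ (∑ i, star (y i j) * h * y i j' - (if j = j' then h else 0)) =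
      φ g * (∑ i, star (z i j) * φ h * z i j' - (if j = j' then φ h else 0)) * φ g +
      (if j = j' then φ (g * h * g - h) else 0) := by
    rw [map_sub, map_sum]
    have e1 : ∀ i, φ (star (y i j) * h * y i j') = φ g * (star (z i j) * φ h * z i j') * φ g := by
      intro i
      rw [map_mul, map_mul, map_star, hy, hy, star_mul, hG]
      simp only [mul_assoc]
    simp only [e1]
    rw [mul_sub, sub_mul, Finset.mul_sum, Finset.sum_mul]
    split_ifs with hj
    · rw [map_sub, map_mul, map_mul]; abel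
    · simp
  rw [hnorm, e]
  calc _ ≤ ‖φ g * (∑ i, star (z i j) * φ h * z i j' - (if j = j' then φ h else 0)) * φ g‖ +
      ‖(if j = j' then φ (g * h * g - h) else 0)‖ := norm_add_le _ _
    _ < ε / 2 + ε / 2 := by
        refine add_lt_add_of_lt_of_le ?_ ?_
        · refine lt_of_le_of_lt ?_ (hz j j')
          calc _ ≤ 1 * ‖∑ i, star (z i j) * φ h * z i j' - (if j = j' then φ h else 0)‖ * 1 :=
                norm_mul_le_of_le (norm_mul_le_of_le hG1 le_rfl) hG1
            _ = _ := by ring
        · split_ifs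
          · rw [← hnorm]; exact hgh
          · rw [norm_zero]; positivity
    _ = ε := by ring

/-- quotients -/
theorem eltPI_of_surj {A : Type u} [NonUnitalCStarAlgebra A] [PartialOrder A] [StarOrderedRing A]
    {B : Type v} [NonUnitalCStarAlgebra B] [PartialOrder B] [StarOrderedRing B]
    (φ : A →⋆ₙₐ[ℂ] B) (hφ : Function.Surjective φ) (hA : EltPI A) : EltPI B := by
  intro h h0 ε hε
  obtain ⟨k, rfl⟩ := CStarAlgebra.nonneg_iff_eq_star_mul_self.1 h0
  obtain ⟨k', rfl⟩ := hφ k
  obtain ⟨x, y, h1, h2, h3⟩ := hA (star k' * k') (star_mul_self_nonneg _) ε hε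
  refine ⟨φ x, φ y, ?_, ?_, ?_⟩
  · refine lt_of_le_of_lt (le_of_eq_of_le ?_ (NonUnitalStarAlgHom.norm_apply_le φ _)) h1
    simp only [map_sub, map_mul, map_star]
  · refine lt_of_le_of_lt (le_of_eq_of_le ?_ (NonUnitalStarAlgHom.norm_apply_le φ _)) h2
    simp only [map_sub, map_mul, map_star]
  · refine lt_of_le_of_lt (le_of_eq_of_le ?_ (NonUnitalStarAlgHom.norm_apply_le φ _)) h3
    simp only [map_mul, map_star]

/-- approximate units -/
theorem exists_g {I : Type u} [NonUnitalCStarAlgebra I] (h : I) {ε : ℝ} (hε : 0 < ε) :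
    ∃ g : I, star g = g ∧ ‖g‖ ≤ 1 ∧ ‖g * h * g - h‖ ≤ ε := by
  obtain ⟨ν, hν, hνn⟩ := exists_approx_unit (ι := Unit) (final_ideal I)
    (c := fun _ => (h : Unitization ℂ I)) (fun _ => final_mem_iff.2 ⟨h, rfl⟩)
    (ε := ε / 2) (by positivity)
  obtain ⟨g, rfl⟩ := final_mem_iff.1 hν.mem
  have hgs : star g = g := by
    have := hν.star_eq
    rw [← Unitization.inr_star] at this
    exact Unitization.inr_injective this
  have hg1 : ‖g‖ ≤ 1 := by
    rw [← final_norm]; exact hν.norm_le
  refine ⟨g, hgs, hg1, ?_⟩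
  obtain ⟨k1, k2⟩ := hνn ()
  have e1 : ‖h - h * g‖ < ε / 2 := by
    rw [← final_norm, Unitization.inr_sub, Unitization.inr_mul]
    have : (h : Unitization ℂ I) - (h : Unitization ℂ I) * (g : Unitization ℂ I) =
      (h : Unitization ℂ I) * (1 - (g : Unitization ℂ I)) := by noncomm_ring
    rw [this]; exact k1
  have e2 : ‖h - g * h‖ < ε / 2 := by
    rw [← final_norm, Unitization.inr_sub, Unitization.inr_mul]
    have : (h : Unitization ℂ I) - (g : Unitization ℂ I) * (h : Unitization ℂ I) =
      (1 - (g : Unitization ℂ I)) * (h : Unitization ℂ I) := by noncomm_ring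
    rw [this]; exact k2
  have e3 : g * h * g - h = -((h - g * h) * g) - (h - h * g) := by
    rw [sub_mul]; abel
  rw [e3]
  calc _ ≤ ‖-((h - g * h) * g)‖ + ‖h - h * g‖ := norm_sub_le _ _
    _ ≤ ε / 2 * 1 + ε / 2 := by
        rw [norm_neg]
        exact add_le_add (norm_mul_le_of_le e2.le hg1) e1.le
    _ = ε := by ring

/-- closed two-sided ideals -/
theorem eltPI_of_ideal {I : Type u} [NonUnitalCStarAlgebra I] [PartialOrder I] [StarOrderedRing I]
    {A : Type v} [NonUnitalCStarAlgebra A] [PartialOrder A] [StarOrderedRing A]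
    (φ : I →⋆ₙₐ[ℂ] A) (hφ : Function.Injective φ)
    (hid : ∀ (a : A) (x : I), ∃ y, φ y = a * φ x)
    (hA : EltPI A) : EltPI I := by
  intro h h0 ε hε
  have h0' : 0 ≤ φ h := by
    obtain ⟨k, rfl⟩ := CStarAlgebra.nonneg_iff_eq_star_mul_self.1 h0
    rw [map_mul, map_star]
    exact star_mul_self_nonneg _
  obtain ⟨g, hgs, hg1, hgh⟩ := exists_g h (ε := ε / 2) (by positivity)
  obtain ⟨x, y, h1, h2, h3⟩ := hA (φ h) h0' (ε / 2) (by positivity)
  obtain ⟨x', hx'⟩ := hid x g
  obtain ⟨y', hy'⟩ := hid y g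
  have hnorm : ∀ w : I, ‖w‖ = ‖φ w‖ := fun w =>
    (NonUnitalStarAlgHom.norm_map φ hφ w).symm
  have hG : star (φ g) = φ g := by rw [← map_star, hgs]
  have hG1 : ‖φ g‖ ≤ 1 := by rw [← hnorm]; exact hg1
  have main : ∀ (w : A) (w' : I), φ w' = w * φ g → ‖star w * φ h * w - φ h‖ < ε / 2 →
      ‖star w' * h * w' - h‖ < ε := by
    intro w w' hw hn
    have e : φ (star w' * h * w' - h) =
        φ g * (star w * φ h * w - φ h) * φ g + φ (g * h * g - h) := by
      rw [map_sub, map_sub, map_mul, map_mul, map_mul, map_mul, map_star, hw, star_mul, hG,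
        mul_sub, sub_mul]
      simp only [mul_assoc]
      abel
    rw [hnorm, e]
    calc _ ≤ ‖φ g * (star w * φ h * w - φ h) * φ g‖ + ‖φ (g * h * g - h)‖ := norm_add_le _ _
      _ < ε / 2 + ε / 2 := by
          refine add_lt_add_of_lt_of_le ?_ ?_
          · refine lt_of_le_of_lt ?_ hn
            calc _ ≤ 1 * ‖star w * φ h * w - φ h‖ * 1 :=
                  norm_mul_le_of_le (norm_mul_le_of_le hG1 le_rfl) hG1
              _ = _ := by ring
          · rw [← hnorm]; exact hgh
      _ = ε := by ring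
  refine ⟨x', y', main x x' hx' h1, main y y' hy' h2, ?_⟩
  have e : φ (star x' * h * y') = φ g * (star x * φ h * y) * φ g := by
    rw [map_mul, map_mul, map_star, hx', hy', star_mul, hG]
    simp only [mul_assoc]
  rw [hnorm, e]
  calc _ ≤ 1 * ‖star x * φ h * y‖ * 1 :=
        norm_mul_le_of_le (norm_mul_le_of_le hG1 le_rfl) hG1
    _ = ‖star x * φ h * y‖ := by ring
    _ < ε := by linarith

end Vale.Agent.P133.H681
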